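import Vale.Agent.P141.H829.PairX
import Vale.Agent.P141.H677.FDb
import Vale.Agent.P141.H747.StagePM

/-!
# P141, line (A): `hCA` and `hZA` of `H581.stageY` from the bundle of the flow part

`H829.RX_CA_slot` for the families of `H677.Sk.FDs`.

* `packS_QD`, `packS_QD'` : packing in the squares form, cut to a root;
* `massC_FD` : block masses of `C`;
* `RX_CA_FD` : the pair `(C~, A)` of a bundle, any slot family `Qg` with `|Qg|² ≤ q₀`.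
* `RX_CA_PM` : the same in the letters `GCm`, `GAm` of `H747.StagePM`.
-/

namespace Vale.Agent.P141.H829

open Finset Matrix
open Vale.Agent.P141.PL (Pt iv ix mem_iv ix_ix cx)
open Vale.Agent.P141.PL.H804 (bl)
open Vale.Agent.P141.PL.H315 (Tri A2)
open Vale.Agent.P141.H736 (sqb)
open Vale.Agent.P141.H958 (lbs)
open Vale.Agent.P141.H48 (BSl sst pth)
open Vale.Agent.P141.H581 (RX)
open Vale.Agent.P141.H747 (sL sG gA gC shA shC GAm GCm Rg)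
open Vale.Agent.P141.H210 (Qr PackS)
open Vale.Agent.P141.H576 (QD Dd Dd_sst QD_pack agree_kD)
open Vale.Agent.P141.H677 (kF)
open Vale.Agent.P141.H677.Sk (FamA FamV FDs)
open Vale.Agent.P141.H305 (Cls)

noncomputable section

open scoped Classical

/-! ### Packing -/

section pack

variable {D : ℕ → ℤ → ℤ → Prop} {n : ℕ} {e cP : ℝ} {F : ℕ → Pt → ℝ} {Q : ℕ → Pt → Prop}

theorem packS_QD (hD : Dd D) (hB : BSl n e cP F Q) {K : ℕ} (hK : K ≤ n) (x0 R S : ℤ) :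
    PackS K (Qr K R S fun k i j => QD D Q k (ix k x0) i j) (cP + 2) := by
  intro J hJ I I'
  refine le_trans ?_ (QD_pack hD hB x0 (hJ.trans hK) I I')
  refine sum_le_sum fun k _ => sum_le_sum fun i _ => sum_le_sum fun j _ => ?_
  by_cases h : Qr K R S (fun k i j => QD D Q k (ix k x0) i j) k i j
  · rw [if_pos h, if_pos h.2.2.2]
  · rw [if_neg h]
    split_ifs <;> positivity

theorem packS_QD' (hD : Dd D) (hB : BSl n e cP F Q) {K : ℕ} (hK : K ≤ n) (x0 R S : ℤ) :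
    PackS K (Qr K R S fun k i j => QD D Q k (ix k x0) j i) (cP + 2) := by
  intro J hJ I I'
  refine le_trans ?_ (QD_pack hD hB x0 (hJ.trans hK) I' I)
  refine sum_le_sum fun k _ => ?_
  rw [sum_comm]
  refine sum_le_sum fun j _ => sum_le_sum fun i _ => ?_
  by_cases h : Qr K R S (fun k i j => QD D Q k (ix k x0) j i) k i j
  · rw [if_pos h, if_pos h.2.2.2]
  · rw [if_neg h]
    split_ifs <;> positivity

end pack

/-! ### The bundle -/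

section bundle

variable {ι : Type} [Fintype ι] [DecidableEq ι] {p : H401.Num} {n : ℕ} {ez : ℝ}
  {F1 F2 F3 : ℕ → Pt → ℝ} {K : ℕ} {x : Pt} {s r P : ℝ} {U : Tri} {g : ℤ → ℤ → ℝ}
  {u v : ℤ → ℤ → ι → ℝ} {A : FamA} {b C : FamV ι} {Q1 Q2 Q3 : ℕ → Pt → Prop}
  {v' : ℤ → ℤ → ι → ℝ}

/-- **Block masses of `C`**, time `k + 1`. -/
theorem massC_FD (h : FDs p n ez F1 F2 F3 K x s r U g u v A b C Q1 Q2 Q3 v')
    (hcl : Cls K x s r P U g u v) (hΛ : 1 ≤ p.Lm) (hez : 0 ≤ ez) (hK : K ≤ n) :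
    ∀ k < K, ∀ i : ℤ, ∀ n' ∈ iv (K - k) (ix K x.2.2), ∀ m' ∈ iv (K - k) (ix K x.1),
      ∑ x0 ∈ iv k i, ∑ x' ∈ iv k m', ∑ z ∈ iv k n',
        C x0 (k + 1) z x' ⬝ᵥ C x0 (k + 1) z x' ≤ 8 ^ k * (4 * p.Lm * ez * s) := by
  intro k hk i n' hn' m' hm'
  have h1 := H769.sqb_block hΛ hez h.B2 hK U.2.1 hk i m' n' (X := x.1) (Y := x.2.2)
    (mem_iv.1 hm') (mem_iv.1 hn')
  have h2 : 4 * p.Lm * ez * A2 K U.2.1 x.1 x.2.2 ≤ 4 * p.Lm * ez * s :=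
    mul_le_mul_of_nonneg_left hcl.U_v2 (by positivity)
  refine le_trans (sum_le_sum fun x0 _ => ?_)
    (h1.trans (mul_le_mul_of_nonneg_left h2 (by positivity)))
  unfold H736.sqb
  rw [sum_comm (s := iv k n')]
  refine sum_le_sum fun x' hx' => sum_le_sum fun z hz => ?_
  rw [h.C_eq]
  unfold H48.pth H677.kF
  dsimp only
  by_cases hs : k + 1 = 0 ∨ sst p.Lm U.2.1 K (k + 1) x' z
  · rw [if_pos hs, if_pos hs, zero_smul, zero_dotProduct]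
    norm_num
  · rw [if_neg hs, if_neg hs, smul_dotProduct, dotProduct_smul, smul_eq_mul, smul_eq_mul]
    have hx : x' ∈ PL.H315.iv K x.1 := by
      show x' ∈ iv K (ix K x.1)
      rw [mem_iv, H210.ix_root hk.le hx', mem_iv.1 hm']
    have hz' : z ∈ PL.H315.iv K x.2.2 := by
      show z ∈ iv K (ix K x.2.2)
      rw [mem_iv, H210.ix_root hk.le hz, mem_iv.1 hn']
    have hv : v' x' z ⬝ᵥ v' x' z ≤ U.2.1 (x', z) ^ 2 := by
      rcases h.v_or x' z with e | e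
      · rw [e]
        exact hcl.v_le x' hx z hz'
      · rw [e, zero_dotProduct]
        positivity
    rw [mul_pow]
    have hF : 0 ≤ F2 (k + 1) (x0, x', z) * F2 (k + 1) (x0, x', z) := mul_self_nonneg _
    nlinarith [mul_le_mul_of_nonneg_left hv hF]

/-- **The pair `(C~, A)` of a bundle** on the shifted grid `w`, any levels, any slot family. -/
theorem RX_CA_FD (h : FDs p n ez F1 F2 F3 K x s r U g u v A b C Q1 Q2 Q3 v')
    (hcl : Cls K x s r P U g u v) (hs : 0 ≤ s) (hΛ : 1 ≤ p.Lm) (hCD : 0 ≤ p.CD) (hez : 0 ≤ ez)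
    (hK : K ≤ n) {L : ℕ} {e : ι ⊕ ι → ℤ} (he : Function.Injective e) (hm : ∀ i, e i ∈ lbs L)
    {w : Pt} {j : ℤ} (hj : j ∈ Icc (0 : ℤ) 2) {q : Pt} {t : ℤ} {ε q₀ : ℝ}
    (hq : 0 < ε ^ 2 + q₀) {Qg : ℤ → ℕ → ℤ → ℤ → Matrix ι ι ℝ}
    (hQ : ∀ x0 ∈ iv K t, ∀ k ∈ Icc 1 K, ∀ n x, ∀ a : ι → ℝ,
      (Qg x0 k n x *ᵥ a) ⬝ᵥ (Qg x0 k n x *ᵥ a) ≤ q₀ * (a ⬝ᵥ a)) {α β : ℝ} (hα : 0 < α)
    (hβ : 0 < β) :
    RX (iv K t) (K + L) (fun x0 => sL L (sG K (cx K x) (-x0) w j q)) α β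
      (fun x0 k m => (bl k (gC L e (fun k z x' => Sum.elim (ε • shC K (cx K x) w (C x0) k z x')
        (Qg x0 k (ix k z) x' *ᵥ shC K (cx K x) w (C x0) k z x')) k) m.1 m.2.2)ᵀ)
      (fun x0 k m => bl k (gA L (shA K (cx K x) w (A x0)) k) m.1 m.2.1) ≤
        35200 * 4 ^ L * (p.cP + 2) * 8 ^ K * (α ^ 2 * (p.CD * (p.Lm * s)) +
          β ^ 2 * ((ε ^ 2 + q₀) * (4 * p.Lm * ez * s))) := by
  have hL0 : 0 ≤ p.Lm := by linarith
  refine RX_CA_slot (κ := ι) (M := cx K x) (QA := fun k m => H401.qA p U K Q1 k m.1 m.2.1 m.2.2)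
    (QC := fun k m => H401.qC p U K Q2 k m.1 m.2.1 m.2.2) (cP := p.cP + 2) he hm ?_ ?_ ?_ ?_ ?_ ?_
    (by positivity) (by positivity) ?_ ?_ hj hq hQ hα hβ
  · intro x0
    funext z y
    exact h.z0A x0 z y
  · intro x0
    funext z x'
    rw [h.C_eq]
    unfold H677.kF
    rw [if_pos (Or.inl rfl), zero_smul]
    rfl
  · intro x0 k hk n' _ m' _ hQ' z hz y hy
    exact h.agA x0 k hk n' m' hQ' z hz y hy
  · intro x0 k hk n' _ m' _ hQ' z hz x' hx'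
    rw [h.C_eq, h.C_eq]
    have h1 := agree_kD (Dd_sst p.Lm U.2.1 K) h.B2 (hk.trans_le hK) (x0 := x0) (r := m') (s := n')
      hQ' hx' hz
    rw [H576.kD_sst] at h1
    rw [h1]
  · intro x0
    exact packS_QD' (Dd_sst p.Lm U.2.2 K) h.B1 hK x0 _ _
  · intro x0
    exact packS_QD' (Dd_sst p.Lm U.2.1 K) h.B2 hK x0 _ _
  · intro k hk i n' hn' m' hm'
    have h1 := h.massA k hk.le (k + 1) (Or.inr ⟨rfl, hk⟩) i n' hn' m' hm'
    refine le_trans (le_of_eq ?_) (h1.trans (le_of_eq (mul_comm _ _)))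
    refine sum_congr rfl fun x0 _ => ?_
    unfold H736.sqb
    rw [sum_comm]
  · intro k hk i n' hn' m' hm'
    exact massC_FD h hcl hΛ hez hK k hk i n' hn' m' hm'

/-- **`hCA` and `hZA` of `H581.stageY` in the letters of `H747.StagePM`.** -/
theorem RX_CA_PM (h : FDs p n ez F1 F2 F3 K x s r U g u v A b C Q1 Q2 Q3 v')
    (hcl : Cls K x s r P U g u v) (hs : 0 ≤ s) (hΛ : 1 ≤ p.Lm) (hCD : 0 ≤ p.CD) (hez : 0 ≤ ez)
    (hK : K ≤ n) {L : ℕ} {e : ι ⊕ ι → ℤ} (he : Function.Injective e) (hm : ∀ i, e i ∈ lbs L)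
    {Al : ℕ → Pt → Prop} {o : ℤ} {sg : ℕ → Pt → ℝ} {l : ℝ}
    {w : Pt} {j : ℤ} (hj : j ∈ Icc (0 : ℤ) 2) {q : Pt} {t : ℤ} {ε q₀ : ℝ}
    (hq : 0 < ε ^ 2 + q₀)
    (hQ : ∀ x0 ∈ iv K t, ∀ k ∈ Icc 1 K, ∀ n x', ∀ a : ι → ℝ,
      (Rg Al o K (cx K x) sg l u w.2.2 w.1 x0 k n x' *ᵥ a) ⬝ᵥ
        (Rg Al o K (cx K x) sg l u w.2.2 w.1 x0 k n x' *ᵥ a) ≤ q₀ * (a ⬝ᵥ a)) {α β : ℝ}
    (hα : 0 < α) (hβ : 0 < β) :
    RX (iv K t) (K + L) (fun x0 => sL L (sG K (cx K x) (-x0) w j q)) α β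
      (GCm Al o K (cx K x) sg l u C L e ε w) (GAm K (cx K x) A L w) ≤
        35200 * 4 ^ L * (p.cP + 2) * 8 ^ K * (α ^ 2 * (p.CD * (p.Lm * s)) +
          β ^ 2 * ((ε ^ 2 + q₀) * (4 * p.Lm * ez * s))) :=
  RX_CA_FD h hcl hs hΛ hCD hez hK he hm hj hq
    (Qg := fun x0 k n x' => Rg Al o K (cx K x) sg l u w.2.2 w.1 x0 k n x') hQ hα hβ

end bundle

end

end Vale.Agent.P141.H829
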