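import Vale.Agent.P141.H347.Lw1

/-!
# P141: the Whitney cubes of a face cube over a cell

`ws c0 σ c l k y`: the largest scale `≤ min k l` of a cube around `y` which lies over the cell of
scale `k` of `el c y`.  `whit c0 σ c l q k s`: the Whitney cubes of the part of `cube3 l q` over the
cell `(k, s)`; `sum_whit`: they are a partition of it; `a1_whit`: an atom read on the cell is the sum
of the atoms of its Whitney cubes; `lsw`: the local mass of a superadditive density, `lsw_pack`: it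
packs between any two scales; `lsw_eq_lwt`.
-/

namespace Vale.Agent.P141.H829

open Finset Vale.Agent.P141.H315 Vale.Agent.P141.PL.H318
open Vale.Agent.P141.PL.H315 (cube3 mem_cube3 gz card_cube3 atm Tri)
open Vale.Agent.P141.PL.H95 (gr mem_gr card_gr)
open Vale.Agent.P141.PL (Pt el)
open Vale.Agent.P141.H347 (Fam Dens Ov whs Ov_zero Ov_congr whs_le whs_ov le_whs whs_const lwt cd)

noncomputable section

open scoped Classical

variable {c0 : ℕ} {σ : ℤ} {c : Pt}

/-! ### corners -/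

/-- the corner of the cube of scale `i` of `y` -/
def crn (i : ℕ) (y : Pt) : Pt :=
  (2 ^ i * (y.1 / 2 ^ i), 2 ^ i * (y.2.1 / 2 ^ i), 2 ^ i * (y.2.2 / 2 ^ i))

theorem crn_ix (i : ℕ) (a : ℤ) : 2 ^ i * (a / 2 ^ i) / 2 ^ i = a / 2 ^ i :=
  Int.mul_ediv_cancel_left _ (by positivity)

theorem crn_mem (i : ℕ) (y : Pt) : crn i y ∈ cube3 i y := by
  rw [mem_cube3]
  simp only [crn, PL.H315.mem_iv]
  exact ⟨crn_ix i _, crn_ix i _, crn_ix i _⟩

theorem cube_crn (i : ℕ) (y : Pt) : cube3 i (crn i y) = cube3 i y := gz.eq_of_mem i y _ (crn_mem i y)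

theorem crn_eq_iff {i : ℕ} {y y' : Pt} : crn i y' = crn i y ↔ y' ∈ cube3 i y := by
  constructor
  · intro h
    have h1 : y' ∈ cube3 i (crn i y') := by rw [cube_crn]; exact gz.mem i y'
    rw [h, cube_crn] at h1
    exact h1
  · intro h
    rw [mem_cube3] at h
    simp only [PL.H315.mem_iv] at h
    unfold crn
    rw [h.1, h.2.1, h.2.2]

/-! ### Whitney scales relative to a root scale -/

/-- the Whitney scale, not larger than the root scale -/
def ws (c0 : ℕ) (σ : ℤ) (c : Pt) (l k : ℕ) (y : Pt) : ℕ := min (whs c0 σ c k y) l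

theorem ws_le_root (l k : ℕ) (y : Pt) : ws c0 σ c l k y ≤ l := min_le_right _ _

theorem ws_le (l k : ℕ) (y : Pt) : ws c0 σ c l k y ≤ k := (min_le_left _ _).trans (whs_le y)

theorem ws_ov (l k : ℕ) (y : Pt) : Ov c0 σ c k (ws c0 σ c l k y) y :=
  (whs_ov y).mono (min_le_left _ _)

theorem ws_const {l k : ℕ} {y y' : Pt} (h : y' ∈ cube3 (ws c0 σ c l k y) y) :
    ws c0 σ c l k y' = ws c0 σ c l k y := by
  rcases le_total (whs c0 σ c k y) l with hl | hl
  · have e : ws c0 σ c l k y = whs c0 σ c k y := min_eq_left hl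
    rw [e] at h ⊢
    unfold ws
    rw [whs_const h, min_eq_left hl]
  · have e : ws c0 σ c l k y = l := min_eq_right hl
    have hE : ixs c0 σ k (el c y') = ixs c0 σ k (el c y) := ws_ov l k y y' h
    rw [e] at h ⊢
    have h1 : Ov c0 σ c k l y := by rw [← e]; exact ws_ov l k y
    have h2 : l ≤ whs c0 σ c k y' := le_whs (hl.trans (whs_le y)) ((Ov_congr h hE).2 h1)
    exact min_eq_right h2

/-- a cube over a small cell lies over the large cell -/
theorem Ov_up {m j i : ℕ} (h : m ≤ j) {y : Pt} (hO : Ov c0 σ c m i y) : Ov c0 σ c j i y := by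
  intro y' hy'
  have h1 : el c y' ∈ (gr c0 σ).cube m (el c y) := mem_gs.mpr (hO y' hy')
  exact mem_gs.mp ((gr c0 σ).sub_le h _ h1)

theorem ws_mono {l m j : ℕ} (h : m ≤ j) (y : Pt) : ws c0 σ c l m y ≤ ws c0 σ c l j y :=
  le_min (le_whs ((ws_le l m y).trans h) (Ov_up h (ws_ov l m y))) (ws_le_root l m y)

theorem ws_eq {l k : ℕ} (h : k ≤ l) (y : Pt) : ws c0 σ c l k y = whs c0 σ c k y :=
  min_eq_left ((whs_le y).trans h)

/-! ### the partition -/

/-- the part of the cube over the cell -/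
def slab (c0 : ℕ) (σ : ℤ) (c : Pt) (l : ℕ) (q : Pt) (k : ℕ) (s : ℤ) : Finset Pt :=
  (cube3 l q).filter fun y => ixs c0 σ k (el c y) = ixs c0 σ k s

theorem mem_slab {l : ℕ} {q : Pt} {k : ℕ} {s : ℤ} {y : Pt} :
    y ∈ slab c0 σ c l q k s ↔ y ∈ cube3 l q ∧ ixs c0 σ k (el c y) = ixs c0 σ k s := mem_filter

/-- the Whitney cubes (scale, corner) of the slab -/
def whit (c0 : ℕ) (σ : ℤ) (c : Pt) (l : ℕ) (q : Pt) (k : ℕ) (s : ℤ) : Finset (ℕ × Pt) :=
  (slab c0 σ c l q k s).image fun y => (ws c0 σ c l k y, crn (ws c0 σ c l k y) y)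

variable {l k : ℕ} {q : Pt} {s : ℤ}

theorem whit_le {b : ℕ × Pt} (hb : b ∈ whit c0 σ c l q k s) : b.1 ≤ k := by
  obtain ⟨y, _, rfl⟩ := mem_image.1 hb
  exact ws_le l k y

theorem whit_le_root {b : ℕ × Pt} (hb : b ∈ whit c0 σ c l q k s) : b.1 ≤ l := by
  obtain ⟨y, _, rfl⟩ := mem_image.1 hb
  exact ws_le_root l k y

theorem whit_over {b : ℕ × Pt} (hb : b ∈ whit c0 σ c l q k s) {y : Pt} (hy : y ∈ cube3 b.1 b.2) :
    ixs c0 σ k (el c y) = ixs c0 σ k s := by
  obtain ⟨y0, h0, rfl⟩ := mem_image.1 hb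
  simp only [cube_crn] at hy
  rw [ws_ov l k y0 y hy]
  exact (mem_slab.1 h0).2

theorem whit_sub {b : ℕ × Pt} (hb : b ∈ whit c0 σ c l q k s) {y : Pt} (hy : y ∈ cube3 b.1 b.2) :
    y ∈ cube3 l q := by
  obtain ⟨y0, h0, rfl⟩ := mem_image.1 hb
  simp only [cube_crn] at hy
  exact gz.cube_subset (ws_le_root l k y0) (mem_slab.1 h0).1 hy

theorem whit_ws {b : ℕ × Pt} (hb : b ∈ whit c0 σ c l q k s) {y : Pt} (hy : y ∈ cube3 b.1 b.2) :
    ws c0 σ c l k y = b.1 := by
  obtain ⟨y0, h0, rfl⟩ := mem_image.1 hb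
  simp only [cube_crn] at hy
  exact ws_const hy

theorem whit_fiber {b : ℕ × Pt} (hb : b ∈ whit c0 σ c l q k s) :
    (slab c0 σ c l q k s).filter (fun y => (ws c0 σ c l k y, crn (ws c0 σ c l k y) y) = b) =
      cube3 b.1 b.2 := by
  ext y
  rw [mem_filter, mem_slab]
  constructor
  · rintro ⟨_, rfl⟩
    simp only [cube_crn]
    exact gz.mem _ _
  · intro hy
    refine ⟨⟨whit_sub hb hy, whit_over hb hy⟩, ?_⟩
    rw [whit_ws hb hy]
    refine Prod.ext rfl ?_
    obtain ⟨y0, h0, rfl⟩ := mem_image.1 hb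
    simp only [cube_crn] at hy ⊢
    exact crn_eq_iff.2 hy

/-- **The Whitney cubes are a partition of the slab.** -/
theorem sum_whit (f : Pt → ℝ) : ∑ b ∈ whit c0 σ c l q k s, ∑ y ∈ cube3 b.1 b.2, f y =
    ∑ y ∈ slab c0 σ c l q k s, f y := by
  rw [← sum_fiberwise_of_maps_to (t := whit c0 σ c l q k s)
    (g := fun y => (ws c0 σ c l k y, crn (ws c0 σ c l k y) y))
    (fun y hy => mem_image_of_mem _ hy)]
  refine sum_congr rfl fun b hb => ?_
  rw [whit_fiber hb]

theorem sum_slab (f : Pt → ℝ) : ∑ y ∈ slab c0 σ c l q k s, f y =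
    ∑ y ∈ cube3 l q, if ixs c0 σ k (el c y) = ixs c0 σ k s then f y else 0 :=
  sum_filter _ _

/-- **An atom read on a cell** is the sum of the atoms of its Whitney cubes. -/
theorem a1_whit (u : Tri) {s' : ℤ} (h : ixs c0 σ k s' = ixs c0 σ k s) :
    a1 c l (q, u) s' = ∑ b ∈ whit c0 σ c l q k s, a1 c b.1 (b.2, u) s' := by
  unfold a1
  rw [sum_whit (fun y => if el c y = s' then atm u y else 0), sum_slab]
  refine sum_congr rfl fun y _ => ?_
  by_cases hy : el c y = s'
  · rw [if_pos hy, if_pos (by rw [hy, h])]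
  · rw [if_neg hy, ite_self]

/-! ### local masses -/

/-- the local mass over `Q` of the density `d` of `u` on the cube `cube3 l q`, cells of scale `k` -/
def lsw (d : Dens) (c0 : ℕ) (σ : ℤ) (c : Pt) (l k : ℕ) (Q : Finset ℤ) (q : Pt) (u : Tri) : ℝ :=
  ∑ y ∈ cube3 l q, if el c y ∈ Q then d.D (ws c0 σ c l k y) y u else 0

variable {d : Dens} {u : Tri}

theorem lsw_nonneg (Q : Finset ℤ) : 0 ≤ lsw d c0 σ c l k Q q u :=
  sum_nonneg fun y _ => by
    split_ifs
    · exact d.nonneg _ _ _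
    · exact le_rfl

theorem lsw_cell : lsw d c0 σ c l k ((gr c0 σ).cube k s) q u =
    ∑ b ∈ whit c0 σ c l q k s, ∑ y ∈ cube3 b.1 b.2, d.D b.1 y u := by
  have h1 : ∑ b ∈ whit c0 σ c l q k s, ∑ y ∈ cube3 b.1 b.2, d.D b.1 y u =
      ∑ b ∈ whit c0 σ c l q k s, ∑ y ∈ cube3 b.1 b.2, d.D (ws c0 σ c l k y) y u :=
    sum_congr rfl fun b hb => sum_congr rfl fun y hy => by rw [whit_ws hb hy]
  rw [h1, sum_whit, sum_slab]
  unfold lsw
  refine sum_congr rfl fun y _ => ?_
  by_cases hy : ixs c0 σ k (el c y) = ixs c0 σ k s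
  · rw [if_pos hy, if_pos (mem_gs.mpr hy)]
  · rw [if_neg hy, if_neg fun h => hy (mem_gs.mp h)]

theorem lsw_eq_lwt (h : k ≤ l) : lsw d c0 σ c l k ((gr c0 σ).cube k s) q u =
    lwt d c0 σ c l k s (q, u) := by
  unfold lsw lwt
  refine sum_congr rfl fun y _ => ?_
  by_cases hy : ixs c0 σ k (el c y) = ixs c0 σ k s
  · rw [if_pos hy, if_pos (mem_gs.mpr hy), ws_eq h]
  · rw [if_neg hy, if_neg fun h => hy (mem_gs.mp h)]

/-- **The local masses pack between any two scales.** -/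
theorem lsw_pack (j : ℕ) (x : ℤ) (A : ℤ → Prop) (m : ℤ → ℕ) (hF : Fam (gr c0 σ) A m)
    (hm : ∀ z ∈ (gr c0 σ).cube j x, A z → m z ≤ j) :
    ∑ z ∈ (gr c0 σ).cube j x, (if A z then lsw d c0 σ c l (m z) ((gr c0 σ).cube (m z) z) q u /
      ((gr c0 σ).cube (m z) z).card else 0) ≤ lsw d c0 σ c l j ((gr c0 σ).cube j x) q u := by
  set M : Pt → ℕ := fun y => ws c0 σ c l (m (el c y)) y with hM
  set B : Pt → Prop := fun y => A (el c y) ∧ el c y ∈ (gr c0 σ).cube j x with hB
  have hBm : ∀ y, B y → m (el c y) ≤ j := fun y hy => hm _ hy.2 hy.1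
  have hfam : Fam gz B M := by
    intro y hy y' hy'
    have h1 : ixs c0 σ (m (el c y)) (el c y') = ixs c0 σ (m (el c y)) (el c y) :=
      ws_ov l _ y y' hy'
    have h2 : el c y' ∈ (gr c0 σ).cube (m (el c y)) (el c y) := mem_gs.mpr h1
    obtain ⟨h3, h4⟩ := hF _ hy.1 _ h2
    refine ⟨⟨h3, ?_⟩, ?_⟩
    · exact (gr c0 σ).cube_subset (hBm y hy) hy.2 h2
    · have h5 : M y' = ws c0 σ c l (m (el c y)) y' := by rw [hM]; simp only [h4]
      rw [h5]
      exact ws_const hy'
  -- exchange of the sums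
  have hL : ∑ z ∈ (gr c0 σ).cube j x, (if A z then
      lsw d c0 σ c l (m z) ((gr c0 σ).cube (m z) z) q u /
        ((gr c0 σ).cube (m z) z).card else 0) ≤
      ∑ y ∈ cube3 l q, if B y then d.D (M y) y u else 0 := by
    have h2 : ∀ z ∈ (gr c0 σ).cube j x, (if A z then
        lsw d c0 σ c l (m z) ((gr c0 σ).cube (m z) z) q u /
          ((gr c0 σ).cube (m z) z).card else 0) = ∑ y ∈ cube3 l q,
        (if A z ∧ el c y ∈ (gr c0 σ).cube (m z) z then
          d.D (ws c0 σ c l (m z) y) y u / ((gr c0 σ).cube (m z) z).card else 0) := by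
      intro z _
      by_cases hA : A z
      · rw [if_pos hA]
        unfold lsw
        rw [sum_div]
        refine sum_congr rfl fun y _ => ?_
        by_cases h3 : el c y ∈ (gr c0 σ).cube (m z) z
        · rw [if_pos h3, if_pos ⟨hA, h3⟩]
        · rw [if_neg h3, if_neg fun h => h3 h.2, zero_div]
      · rw [if_neg hA]
        exact (sum_eq_zero fun y _ => if_neg fun h => hA h.1).symm
    rw [sum_congr rfl h2, sum_comm]
    refine sum_le_sum fun y _ => ?_
    by_cases hy : B y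
    · rw [if_pos hy]
      have h3 : ∀ z ∈ (gr c0 σ).cube j x,
          (if A z ∧ el c y ∈ (gr c0 σ).cube (m z) z then
            d.D (ws c0 σ c l (m z) y) y u / ((gr c0 σ).cube (m z) z).card else 0) =
          (if z ∈ (gr c0 σ).cube (m (el c y)) (el c y) then
            d.D (M y) y u / ((gr c0 σ).cube (m (el c y)) (el c y)).card else 0) := by
        intro z _
        by_cases h4 : z ∈ (gr c0 σ).cube (m (el c y)) (el c y)
        · obtain ⟨h5, h6⟩ := hF _ hy.1 _ h4
          have h7 := mem_gs.mp h4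
          rw [if_pos h4, if_pos]
          · rw [h6, (gr c0 σ).eq_of_mem _ _ _ h4]
          · exact ⟨h5, by rw [h6]; exact mem_gs.mpr h7.symm⟩
        · rw [if_neg h4, if_neg]
          rintro ⟨h5, h6⟩
          obtain ⟨_, h8⟩ := hF _ h5 _ h6
          exact h4 (mem_gs.mpr (by rw [h8]; exact (mem_gs.mp h6).symm))
      rw [sum_congr rfl h3, ← sum_filter, sum_const, nsmul_eq_mul]
      have h9 : ((gr c0 σ).cube j x).filter
          (fun z => z ∈ (gr c0 σ).cube (m (el c y)) (el c y)) =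
          (gr c0 σ).cube (m (el c y)) (el c y) := by
        ext z
        rw [mem_filter]
        exact ⟨fun h => h.2, fun h => ⟨(gr c0 σ).cube_subset (hBm y hy) hy.2 h, h⟩⟩
      rw [h9]
      have h10 : (0 : ℝ) < (((gr c0 σ).cube (m (el c y)) (el c y)).card : ℝ) := by
        exact_mod_cast card_pos.mpr ⟨_, (gr c0 σ).mem _ _⟩
      rw [mul_div_cancel₀ _ h10.ne']
    · rw [if_neg hy]
      refine le_of_eq (sum_eq_zero fun z hz => if_neg ?_)
      rintro ⟨h5, h6⟩
      obtain ⟨h8, _⟩ := hF _ h5 _ h6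
      exact hy ⟨h8, (gr c0 σ).cube_subset (hm z hz h5) hz h6⟩
  refine hL.trans ?_
  -- superadditivity on the Whitney cubes of the large cell
  have e1 : ∑ y ∈ cube3 l q, (if B y then d.D (M y) y u else 0) =
      ∑ y ∈ slab c0 σ c l q j x, (if B y then d.D (M y) y u else 0) := by
    rw [sum_slab]
    refine sum_congr rfl fun y _ => ?_
    by_cases hy : B y
    · rw [if_pos (mem_gs.mp hy.2)]
    · rw [if_neg hy, ite_self]
  rw [e1, ← sum_whit, lsw_cell]
  refine sum_le_sum fun b hb => ?_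
  refine d.fam u hfam b.1 b.2 fun y hy hBy => ?_
  rw [← whit_ws hb hy]
  exact ws_mono (hBm y hBy) y

/-- the local mass of a cell is at most the mass of the root -/
theorem lsw_le : lsw d c0 σ c l k ((gr c0 σ).cube k s) q u ≤ ∑ y ∈ cube3 l q, d.D l y u := by
  have hfam : Fam gz (fun y => ixs c0 σ k (el c y) = ixs c0 σ k s) (ws c0 σ c l k) := by
    intro y hy y' hy'
    exact ⟨(ws_ov l k y y' hy').trans hy, ws_const hy'⟩
  have h1 := d.fam u hfam l q fun y _ _ => ws_le_root l k y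
  refine le_trans (le_of_eq ?_) h1
  unfold lsw
  refine sum_congr rfl fun y _ => ?_
  by_cases hy : ixs c0 σ k (el c y) = ixs c0 σ k s
  · rw [if_pos hy, if_pos (mem_gs.mpr hy)]
  · rw [if_neg hy, if_neg fun h => hy (mem_gs.mp h)]

end

end Vale.Agent.P141.H829
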