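import Vale.Agent.P141.H736.TfFamF
import Vale.Agent.P141.H347.TrD
import Vale.Agent.P141.H829.Whit

/-!
# P141: the generic tests with the local floor

`lsc c0 σ d k Q i`: the scalar mass, over the cell `Q` of scale `k`, of the representation
`ψ i = 4 ^ (-l) ∑_u push u` of a generic test (`Fg`), measured on the Whitney cubes over `Q`.
It packs between any two scales (`lsc_pack`), and `lsc ≤ 2 ^ l * scg` (`lsc_le`).

`genL`: the packed system of the generic tests with weight `θ * cst + φ * l2 + φ' * lsc`.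
-/

namespace Vale.Agent.P141.H829

open Finset Vale.Agent.P141.H315 Vale.Agent.P141.PL.H318
open Vale.Agent.P141.PL.H315 (cube3 mem_cube3 gz card_cube3 atm Tri)
open Vale.Agent.P141.PL.H95 (gr mem_gr card_gr)
open Vale.Agent.P141.PL (Pt el)
open Vale.Agent.P141.H347 (Fam Dens lwt cd pwD pwD_sum)
open Vale.Agent.P141.H922 (pw3 pw3_nonneg wP)
open Vale.Agent.P141.H736

noncomputable section

open scoped Classical

variable {c0 : ℕ} {σ : ℤ} {d : Pt}

/-- the local scalar mass of a generic test over `Q` (cell of scale `k`) -/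
def lsc (c0 : ℕ) (σ : ℤ) (d : Pt) (k : ℕ) (Q : Finset ℤ) (i : Fg) : ℝ :=
  (4 ^ i.1 : ℝ)⁻¹ * (i.2.2.map fun u => lsw (pwD 1 zero_le_one) c0 σ d i.1 k Q i.2.1 u).sum

theorem list_sum_nonneg {α : Type*} (l : List α) (f : α → ℝ) (h : ∀ a, 0 ≤ f a) :
    0 ≤ (l.map f).sum := by
  refine List.sum_nonneg ?_
  intro x hx
  rw [List.mem_map] at hx
  obtain ⟨a, _, rfl⟩ := hx
  exact h a

theorem list_sum_le {α : Type*} (l : List α) (f g : α → ℝ) (h : ∀ a, f a ≤ g a) :
    (l.map f).sum ≤ (l.map g).sum := by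
  induction l with
  | nil => simp
  | cons a l ih =>
    rw [List.map_cons, List.sum_cons, List.map_cons, List.sum_cons]
    exact add_le_add (h a) ih

theorem lsc_nonneg (k : ℕ) (Q : Finset ℤ) (i : Fg) : 0 ≤ lsc c0 σ d k Q i :=
  mul_nonneg (by positivity) (list_sum_nonneg _ _ fun _ => lsw_nonneg _)

/-- the local masses pack -/
theorem lsc_pack (i : Fg) (j : ℕ) (x : ℤ) (A : ℤ → Prop) (m : ℤ → ℕ) (hF : Fam (gr c0 σ) A m)
    (hm : ∀ z ∈ (gr c0 σ).cube j x, A z → m z ≤ j) :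
    ∑ z ∈ (gr c0 σ).cube j x, (if A z then lsc c0 σ d (m z) ((gr c0 σ).cube (m z) z) i /
      ((gr c0 σ).cube (m z) z).card else 0) ≤ lsc c0 σ d j ((gr c0 σ).cube j x) i := by
  obtain ⟨l, q, us⟩ := i
  unfold lsc
  dsimp only
  have e1 : ∀ z, (if A z then ((4 ^ l : ℝ)⁻¹ * (us.map fun u =>
      lsw (pwD 1 zero_le_one) c0 σ d l (m z) ((gr c0 σ).cube (m z) z) q u).sum) /
        ((gr c0 σ).cube (m z) z).card else 0) =
      (4 ^ l : ℝ)⁻¹ * (if A z then (us.map fun u =>
      lsw (pwD 1 zero_le_one) c0 σ d l (m z) ((gr c0 σ).cube (m z) z) q u).sum /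
        ((gr c0 σ).cube (m z) z).card else 0) := by
    intro z
    split_ifs
    · rw [mul_div_assoc]
    · rw [mul_zero]
  rw [sum_congr rfl fun z _ => e1 z, ← mul_sum]
  refine mul_le_mul_of_nonneg_left ?_ (by positivity)
  induction us with
  | nil => simp
  | cons u us ih =>
    rw [List.map_cons, List.sum_cons]
    have h1 := lsw_pack (d := pwD 1 zero_le_one) (c := d) (l := l) (q := q) (u := u) j x A m hF hm
    refine le_trans (le_of_eq ?_) (add_le_add h1 (ih fun z => ?_))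
    · rw [← sum_add_distrib]
      refine sum_congr rfl fun z _ => ?_
      split_ifs
      · rw [List.map_cons, List.sum_cons, add_div]
      · rw [add_zero]
    · split_ifs
      · rw [mul_div_assoc]
      · rw [mul_zero]

/-- the local mass on any cell is at most the mass of the root -/
theorem lsc_le (k : ℕ) (s : ℤ) (i : Fg) :
    lsc c0 σ d k ((gr c0 σ).cube k s) i ≤ 2 ^ i.1 * scg i := by
  obtain ⟨l, q, us⟩ := i
  unfold lsc scg
  dsimp only
  have h : ∀ u, lsw (pwD 1 zero_le_one) c0 σ d l k ((gr c0 σ).cube k s) q u ≤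
      8 ^ l * pw3 (cube3 l q) u := by
    intro u
    refine lsw_le.trans ?_
    rw [pwD_sum zero_le_one]
    unfold wP
    rw [card_cube3]
    push_cast
    rw [one_mul]
  have h2 : (us.map fun u => 8 ^ l * pw3 (cube3 l q) u).sum =
      8 ^ l * (us.map fun u => pw3 (cube3 l q) u).sum := by
    induction us with
    | nil => simp
    | cons u us ih => rw [List.map_cons, List.sum_cons, ih, List.map_cons, List.sum_cons, mul_add]
  calc (4 ^ l : ℝ)⁻¹ * (us.map fun u =>
        lsw (pwD 1 zero_le_one) c0 σ d l k ((gr c0 σ).cube k s) q u).sum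
      ≤ (4 ^ l : ℝ)⁻¹ * (us.map fun u => 8 ^ l * pw3 (cube3 l q) u).sum :=
        mul_le_mul_of_nonneg_left (list_sum_le _ _ _ h) (by positivity)
    _ = _ := by
        rw [h2, ← mul_assoc]
        congr 1
        rw [inv_mul_eq_div, div_eq_iff (by positivity), ← mul_pow]
        norm_num

theorem lsc_le_card (k k' : ℕ) (s s' : ℤ) (i : Fg) (h : i.1 ≤ k') :
    lsc c0 σ d k ((gr c0 σ).cube k s) i ≤ scg i * ((gr c0 σ).cube k' s').card := by
  refine (lsc_le k s i).trans ?_
  rw [card_gr, mul_comm]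
  refine mul_le_mul_of_nonneg_left ?_ (scg_nonneg i)
  push_cast
  exact pow_le_pow_right₀ (by norm_num) (by omega)

/-! ### The system -/

variable {J : Type*} [Fintype J] {r : Fin 4} (c : CW (gr c0 σ) J r)

/-- **The packed system of the generic tests with the local floor.** -/
def genL (d : Pt) (θ φ φ' : ℝ) (hθ : 0 ≤ θ) (hφ : 0 < φ) (hφ' : 0 ≤ φ') :
    PSys (gr c0 σ) Fg where
  ψ := psg d
  live k i := k ≤ i.1
  live_mono _ _ _ h h' := h.trans h'
  W k Q i := θ * c.cst (psg d i) k Q + φ * l2 Q (psg d i) + φ' * lsc c0 σ d k Q i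
  W_nonneg k Q i := by
    have := c.cst_nonneg (psg d i) k Q
    have := l2_nonneg Q (psg d i)
    have := lsc_nonneg (c0 := c0) (σ := σ) (d := d) k Q i
    positivity
  nondeg k x := by
    refine ⟨φ ^ 2, by positivity, fun i => ?_⟩
    have hc := c.cst_nonneg (psg d i) k ((gr c0 σ).cube k x)
    have hbi := lsc_nonneg (c0 := c0) (σ := σ) (d := d) k ((gr c0 σ).cube k x) i
    have hcd : (1 : ℝ) ≤ ((gr c0 σ).cube k x).card := by
      exact_mod_cast Finset.card_pos.mpr ⟨x, (gr c0 σ).mem k x⟩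
    have h0 := l2_nonneg ((gr c0 σ).cube k x) (psg d i)
    have h1 : dot ((gr c0 σ).cube k x) (psg d i) (psg d i) ≤
        l2 ((gr c0 σ).cube k x) (psg d i) ^ 2 := by
      rw [l2_sq]
      exact le_mul_of_one_le_left (dot_self_nonneg _ _) hcd
    have h2 : φ * l2 ((gr c0 σ).cube k x) (psg d i) ≤
        θ * c.cst (psg d i) k ((gr c0 σ).cube k x) + φ * l2 ((gr c0 σ).cube k x) (psg d i) +
          φ' * lsc c0 σ d k ((gr c0 σ).cube k x) i := by
      have h3 : 0 ≤ θ * c.cst (psg d i) k ((gr c0 σ).cube k x) := mul_nonneg hθ hc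
      have h4 : 0 ≤ φ' * lsc c0 σ d k ((gr c0 σ).cube k x) i := mul_nonneg hφ' hbi
      linarith
    calc φ ^ 2 * dot ((gr c0 σ).cube k x) (psg d i) (psg d i)
        ≤ φ ^ 2 * l2 ((gr c0 σ).cube k x) (psg d i) ^ 2 :=
          mul_le_mul_of_nonneg_left h1 (by positivity)
      _ = (φ * l2 ((gr c0 σ).cube k x) (psg d i)) ^ 2 := by ring
      _ ≤ _ := pow_le_pow_left₀ (by positivity) h2 2
  C := c.C
  one_le := c.one_le
  pack j x i F m hF hm := by
    have e1 : ∀ z ∈ (gr c0 σ).cube j x, (if F z then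
        (θ * c.cst (psg d i) (m z) ((gr c0 σ).cube (m z) z) +
          φ * l2 ((gr c0 σ).cube (m z) z) (psg d i) +
            φ' * lsc c0 σ d (m z) ((gr c0 σ).cube (m z) z) i) /
          ((gr c0 σ).cube (m z) z).card else 0) =
        θ * (if F z then c.cst (psg d i) (m z) ((gr c0 σ).cube (m z) z) /
          ((gr c0 σ).cube (m z) z).card else 0) +
        φ * (if F z then l2 ((gr c0 σ).cube (m z) z) (psg d i) /
          ((gr c0 σ).cube (m z) z).card else 0) +
        φ' * (if F z then lsc c0 σ d (m z) ((gr c0 σ).cube (m z) z) i /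
          ((gr c0 σ).cube (m z) z).card else 0) := by
      intro z _
      split_ifs
      · rw [add_div, add_div, mul_div_assoc, mul_div_assoc, mul_div_assoc]
      · simp
    rw [sum_congr rfl e1, sum_add_distrib, sum_add_distrib, ← mul_sum, ← mul_sum, ← mul_sum]
    have h1 := mul_le_mul_of_nonneg_left (c.cst_pack (psg d i) j x F m hF hm) hθ
    have h2 := mul_le_mul_of_nonneg_left (l2_pack (g := gr c0 σ) (psg d i) j x F m hF hm) hφ.le
    have h3 := mul_le_mul_of_nonneg_left (lsc_pack (d := d) i j x F m hF hm) hφ'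
    have h4 : 0 ≤ φ * l2 ((gr c0 σ).cube j x) (psg d i) +
        φ' * lsc c0 σ d j ((gr c0 σ).cube j x) i := by
      have := l2_nonneg ((gr c0 σ).cube j x) (psg d i)
      have := lsc_nonneg (c0 := c0) (σ := σ) (d := d) j ((gr c0 σ).cube j x) i
      positivity
    have h5 := mul_le_mul_of_nonneg_right c.one_le h4
    nlinarith

variable {θ φ φ' : ℝ} {hθ : 0 ≤ θ} {hφ : 0 < φ} {hφ' : 0 ≤ φ'}

theorem genL_W (k : ℕ) (Q : Finset ℤ) (i : Fg) : (genL c d θ φ φ' hθ hφ hφ').W k Q i =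
    θ * c.cst (psg d i) k Q + φ * l2 Q (psg d i) + φ' * lsc c0 σ d k Q i := rfl

@[simp] theorem genL_ψ (i : Fg) : (genL c d θ φ φ' hθ hφ hφ').ψ i = psg d i := rfl

@[simp] theorem genL_C : (genL c d θ φ φ' hθ hφ hφ').C = c.C := rfl

theorem genL_live (k : ℕ) (i : Fg) : (genL c d θ φ φ' hθ hφ hφ').live k i ↔ k ≤ i.1 := Iff.rfl

theorem genL_a (k : ℕ) (i : Fg) : (genL c d θ φ φ' hθ hφ hφ').toC.a k i =
    if k ≤ i.1 then psg d i else 0 := by
  rw [PSys.toC_a]
  by_cases h : k ≤ i.1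
  · rw [if_pos h, if_pos (show (genL c d θ φ φ' hθ hφ hφ').live k i from h)]
    rfl
  · rw [if_neg h, if_neg (show ¬ (genL c d θ φ φ' hθ hφ hφ').live k i from h)]

/-- the three parts of the weight -/
theorem genL_parts (k : ℕ) (Q : Finset ℤ) (i : Fg) :
    θ * c.cst (psg d i) k Q ≤ (genL c d θ φ φ' hθ hφ hφ').W k Q i ∧
    φ * l2 Q (psg d i) ≤ (genL c d θ φ φ' hθ hφ hφ').W k Q i ∧
    φ' * lsc c0 σ d k Q i ≤ (genL c d θ φ φ' hθ hφ hφ').W k Q i := by
  rw [genL_W]
  have h1 : 0 ≤ θ * c.cst (psg d i) k Q := mul_nonneg hθ (c.cst_nonneg (psg d i) k Q)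
  have h2 : 0 ≤ φ * l2 Q (psg d i) := mul_nonneg hφ.le (l2_nonneg _ _)
  have h3 : 0 ≤ φ' * lsc c0 σ d k Q i := mul_nonneg hφ' (lsc_nonneg _ _ _)
  exact ⟨by linarith, by linarith, by linarith⟩

/-- the weight dominates the costs -/
theorem genL_cost_le (hθ' : 0 < θ) (a : J) (k : ℕ) (Q : Finset ℤ) (i : Fg) :
    cost (c.κ a) (c.o a) r (psg d i) k Q ≤
      c.nrm a / θ * (genL c d θ φ φ' hθ hφ hφ').W k Q i := by
  have h1 := c.cost_le a (psg d i) k Q
  have h2 := (genL_parts (hθ := hθ) (hφ := hφ) (hφ' := hφ') (d := d) c k Q i).1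
  calc cost (c.κ a) (c.o a) r (psg d i) k Q ≤ c.nrm a * c.cst (psg d i) k Q := h1
    _ = c.nrm a / θ * (θ * c.cst (psg d i) k Q) := by field_simp
    _ ≤ _ := mul_le_mul_of_nonneg_left h2 (div_nonneg (c.nrm_pos a).le hθ)

/-- the `L²` norm of a test on any cell is at most `φ⁻¹` times the weight -/
theorem genL_l2_le (k : ℕ) (Q : Finset ℤ) (i : Fg) :
    l2 Q (psg d i) ≤ φ⁻¹ * (genL c d θ φ φ' hθ hφ hφ').W k Q i := by
  have h2 := (genL_parts (hθ := hθ) (hφ := hφ) (hφ' := hφ') (d := d) c k Q i).2.1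
  rw [le_inv_mul_iff₀ hφ]
  exact h2

/-- **the local scalar mass of a test on any cell is at most `φ'⁻¹` times the weight** -/
theorem genL_lsc_le (hφ'' : 0 < φ') (k : ℕ) (Q : Finset ℤ) (i : Fg) :
    lsc c0 σ d k Q i ≤ φ'⁻¹ * (genL c d θ φ φ' hθ hφ hφ').W k Q i := by
  have h2 := (genL_parts (hθ := hθ) (hφ := hφ) (hφ' := hφ') (d := d) c k Q i).2.2
  rw [le_inv_mul_iff₀ hφ'']
  exact h2

/-- at a cell of the root scale (or larger) the weight is at most the weight of `genF` -/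
theorem genL_W_le (k : ℕ) (s : ℤ) (i : Fg) (h : i.1 ≤ k) :
    (genL c d θ φ φ' hθ hφ hφ').W k ((gr c0 σ).cube k s) i ≤
      θ * c.cst (psg d i) k ((gr c0 σ).cube k s) + φ * l2 ((gr c0 σ).cube k s) (psg d i) +
        φ' * scg i * ((gr c0 σ).cube k s).card := by
  rw [genL_W, mul_assoc φ']
  have := mul_le_mul_of_nonneg_left (lsc_le_card (c0 := c0) (σ := σ) (d := d) k k s s i h) hφ'
  linarith

end

end Vale.Agent.P141.H829
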