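import Vale.Agent.P141.H829.PairSM
import Vale.Agent.P141.H972.NumQ
import Vale.Agent.P141.H972.CloseT
import Vale.Agent.P141.H972.PairFD
import Vale.Agent.P141.H215.CapX

/-!
# P141, line (A): the node forms of one slot on one plane of one grid, `ez = 1`

* `stage_tau` : `H581.stageY` divided by a positive number, letters of `H972.StageTau`;
* `capC_FD` : the matrix cap of the stacked slot of a bundle;
* `FM1_one` : `FM1` from the three open pair statements (forms of `H972.NumQ`), every root.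
-/

namespace Vale.Agent.P141.H829

open Finset Matrix
open Vale.Agent.P075 (gramC gramR)
open Vale.Agent.P141.PL (Pt iv ix mem_iv ix_ix cx)
open Vale.Agent.P141.PL.H804 (bl)
open Vale.Agent.P141.PL.H315 (Tri)
open Vale.Agent.P141.H958 (lbs)
open Vale.Agent.P141.H205 (CapS)
open Vale.Agent.P141.H215 (capV)
open Vale.Agent.P141.H581 (RX UX)
open Vale.Agent.P141.H609 (NM)
open Vale.Agent.P141.H747 (sL sG gA gC shA shC sft RgS MA MB MC MSc RgS_le)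
open Vale.Agent.P141.H677 (rt)
open Vale.Agent.P141.H677.Sk (FamA FamV FDs Slt SlotN FM1)
open Vale.Agent.P141.H305 (Cls)
open Vale.Agent.P141.H972 (StageTau)

noncomputable section

open scoped Classical

/-- **`H581.stageY` divided by a positive number.** -/
theorem stage_tau {X : Type*} {I : Finset X} {N : ℕ} {s : X → ℕ → Finset Pt} {FA FB FC : X → NM}
    {τ cC : ℝ} (hτ : 0 < τ) (hC : 0 < cC)
    (capA : ∀ i ∈ I, ∀ k ∈ Icc 1 N, ∀ m ∈ s i k,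
      (1 - gramC ((τ ^ 2)⁻¹ * (4 ^ k)⁻¹) (FA i k m)).PosSemidef)
    (capB : ∀ i ∈ I, ∀ k ∈ Icc 1 N, ∀ m ∈ s i k,
      (1 - gramC ((τ ^ 2)⁻¹ * (4 ^ k)⁻¹) (FB i k m)).PosSemidef)
    (capC : ∀ i ∈ I, ∀ k ∈ Icc 1 N, ∀ m ∈ s i k,
      (1 - gramC ((cC ^ 2)⁻¹ * (4 ^ k)⁻¹) (FC i k m)).PosSemidef) {w : ℝ} (hw : 0 < w) :
    StageTau (fun x y => w⁻¹ * RX I N s x y FA FB) (fun x y => w⁻¹ * RX I N s x y FB FC)
      (fun x y => w⁻¹ * RX I N s x y FC FA) τ cC (w⁻¹ * UX I N s τ τ cC FA FB FC 0 0 0) := by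
  intro P₀ P₁ QA QB Z κ' g σ e₂ D L₀ L₁ hP₀ hP₁ hQA0 hQB0 hZ hκ hg hσ0 he₂ heτ hD hσ hL₀ hL₁ hAB
    hT hQA hQB hCA hZB hZA
  simp only at hAB hT hQA hQB hCA hZB hZA
  have sq : ∀ a b : ℝ, √(w * a * (w * b)) = w * √(a * b) := by
    intro a b
    rw [show w * a * (w * b) = w ^ 2 * (a * b) by ring, Real.sqrt_mul (sq_nonneg w),
      Real.sqrt_sq hw.le]
  have h := H581.stageY (P₀ := w * P₀) (P₁ := w * P₁) (QA := w * QA) (QB := w * QB) (Z := w * Z)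
    (κ' := w * κ') (g := g) (σ := σ) (e₂ := e₂) hτ hC capA capB capC (by positivity)
    (by positivity) (by positivity) (by positivity) hD hσ hL₀ hL₁
    (fun h h0 h1 => by
      have := (inv_mul_le_iff₀ hw).1 (hAB h h0 h1)
      linarith)
    (fun h h0 h1 => by
      have := (inv_mul_le_iff₀ hw).1 (hAB h h0 (h1.trans heτ))
      linarith)
    (fun x hx hx' => by
      have h1 := hT x hx hx'
      have h2 : √(RX I N s τ x FB FC * RX I N s x τ FC FA) =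
          w * √(w⁻¹ * RX I N s τ x FB FC * (w⁻¹ * RX I N s x τ FC FA)) := by
        rw [← sq]
        congr 1
        field_simp
      rw [h2]
      calc w * √(w⁻¹ * RX I N s τ x FB FC * (w⁻¹ * RX I N s x τ FC FA)) ≤ w * (κ' * x) :=
            mul_le_mul_of_nonneg_left h1 hw.le
        _ = _ := by ring)
    ((inv_mul_le_iff₀ hw).1 hQA) ((inv_mul_le_iff₀ hw).1 hQB)
    (fun x hx hx' => by
      have := (inv_mul_le_iff₀ hw).1 (hCA x hx hx')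
      linarith)
    (fun h h0 h1 => by
      have := (inv_mul_le_iff₀ hw).1 (hZB h h0 h1)
      linarith)
    (fun h h0 h1 => by
      have := (inv_mul_le_iff₀ hw).1 (hZA h h0 h1)
      linarith)
  rw [sq, sq, sq] at h
  rw [inv_mul_le_iff₀ hw]
  refine h.trans (le_of_eq ?_)
  ring

section bundle

variable {ι : Type} [Fintype ι] [DecidableEq ι] {p : H401.Num} {n : ℕ} {ez : ℝ}
  {F1 F2 F3 : ℕ → Pt → ℝ} {K : ℕ} {x : Pt} {s r P : ℝ} {U : Tri} {g : ℤ → ℤ → ℝ}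
  {u v : ℤ → ℤ → ι → ℝ} {A : FamA} {b C : FamV ι} {Q1 Q2 Q3 : ℕ → Pt → Prop}
  {v' : ℤ → ℤ → ι → ℝ}

/-- **The matrix cap of the stacked slot of a bundle**, `q₀` = the square of the cap of the
slot. -/
theorem capC_FD (h : FDs p n ez F1 F2 F3 K x s r U g u v A b C Q1 Q2 Q3 v')
    (hcl : Cls K x s r P U g u v) (hΛ : 0 ≤ p.Lm) (hs : 0 ≤ s) (hez : 0 ≤ ez) (hKn : K ≤ n)
    {L : ℕ} {e : ι ⊕ ι → ℤ} (he : Function.Injective e) (hm : ∀ i, e i ∈ lbs L) {ε q₀ : ℝ}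
    (hq : 0 ≤ q₀) {w : Pt} {R : Slt ι} {x0 : ℤ}
    (hR : ∀ z x', ∀ a : ι → ℝ, (R x0 0 z x' *ᵥ a) ⬝ᵥ (R x0 0 z x' *ᵥ a) ≤ q₀ * (a ⬝ᵥ a))
    (hpos : 0 < (ε ^ 2 + q₀) * (4 * capV p.Lm s ez)) (nd : ℕ → Finset Pt) :
    ∀ k ∈ Icc 1 (K + L), ∀ m ∈ sL L nd k,
      (1 - gramC (((√((ε ^ 2 + q₀) * (4 * capV p.Lm s ez))) ^ 2)⁻¹ * (4 ^ k)⁻¹)
        (MC K (cx K x) R C L e ε w x0 k m)).PosSemidef := by
  refine H747.fam_psdC he hm (Real.sqrt_pos.2 hpos) fun k hk m _ => ?_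
  rw [mem_Icc] at hk
  rw [Real.sq_sqrt hpos.le]
  have h0 := H215.fd_shift h hcl hΛ hs hez hKn (le_refl k) (le_refl k) hk.2 hk.2 x0 w m.1 m.2.2
  have h1 : CapS (4 * capV p.Lm s ez) k k (fun x' z => shC K (cx K x) w (C x0) k z x') m.2.2
      m.1 := H215.NCap.capS (b := fun x' z => shC K (cx K x) w (C x0) k z x') (by
        have := H215.capV_nonneg (Λ := p.Lm) (s := s) hez
        positivity) h0.swap
  have h2 := H747.capS_stack (ε := ε) (q := q₀) (Q := fun x' => RgS R w.2.2 w.1 x0 k m.1 x')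
    (fun x' _ a => RgS_le hR w.2.2 w.1 k m.1 x' a) hq h1
  refine H205.capS_congr (fun x' _ z hz => ?_) h2
  unfold H747.MSc
  rw [mem_iv.1 hz]

/-- **The node forms of one slot on one plane of one grid**, `ez = 1`, from the three open pair
statements (forms of `H972.NumQ`) at every root and one choice of labels. -/
theorem FM1_one (h : FDs p n 1 F1 F2 F3 K x s r U g u v A b C Q1 Q2 Q3 v')
    (hcl : Cls K x s r P U g u v) (hs : 0 < s) (hth : 0 < p.th s r) (hΛ : 1 ≤ p.Lm)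
    (hCD : 0 ≤ p.CD) (hcP : 0 ≤ p.cP) (hKn : K ≤ n) {w : Pt} {j : ℤ} (hj : j ∈ Icc (0 : ℤ) 2)
    {q : Pt} {Al : ℕ → Pt → Prop} {o : ℤ} {l κ E : ℝ} {R : Slt ι}
    (hR : SlotN Al o K (cx K x) l u R κ E) (hκ : 1 ≤ κ) {m Λ0 H N : ℝ} (hm : 0 < m) (hm1 : m ≤ 1)
    (hΛ0 : 0 ≤ Λ0) (hH : 1 ≤ H) (hN : 0 ≤ N) {L : ℕ} {e : ι ⊕ ι → ℤ} (he : Function.Injective e)
    (hl : ∀ i, e i ∈ lbs L)
    (hCA : ∀ t ∈ rt (cx K x), ∃ Λ E EA : ℝ, 0 ≤ E ∧ 0 ≤ EA ∧ Λ ≤ Λ0 ∧ E ≤ N * √m ∧ EA ≤ N ∧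
      ∀ x1, m ^ (1 / 4 : ℝ) * (2 * p.th s r) ≤ x1 →
        RX (iv K t) (K + L) (fun x0 => sL L (sG K (cx K x) (-x0) w j q)) x1 (2 * p.th s r)
            (MC K (cx K x) R C L e (m ^ (1 / 4 : ℝ)) w) (MA K (cx K x) A L w) ≤
          4 ^ L * (Λ * (√(x1 ^ 2 * E * ((2 * p.th s r) ^ 2 * EA)) + (2 * p.th s r) ^ 2 * E)))
    (hBC : ∀ t ∈ rt (cx K x), ∃ Λ E EV : ℝ, 0 ≤ E ∧ 0 ≤ EV ∧ Λ ≤ Λ0 ∧ E ≤ N * √m ∧ EV * √m ≤ N ∧
      ∀ x1, m ^ (1 / 4 : ℝ) * (2 * p.th s r) ≤ x1 →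
        RX (iv K t) (K + L) (fun x0 => sL L (sG K (cx K x) (-x0) w j q)) (2 * p.th s r) x1
            (MB K (cx K x) b L e w) (MC K (cx K x) R C L e (m ^ (1 / 4 : ℝ)) w) ≤
          4 ^ L * (Λ * (√(x1 ^ 2 * E * ((2 * p.th s r) ^ 2 * EV)) + (2 * p.th s r) ^ 2 * E)))
    (hZB : ∀ t ∈ rt (cx K x), ∃ Z : ℝ, 0 ≤ Z ∧ Z ≤ N * H ∧ ∀ x1, 0 < x1 → x1 ≤ 2 * p.th s r →
        RX (iv K t) (K + L) (fun x0 => sL L (sG K (cx K x) (-x0) w j q)) x1 x1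
            (MB K (cx K x) b L e w) (MC K (cx K x) R C L e (m ^ (1 / 4 : ℝ)) w) ≤
          4 ^ L * (Z * x1 ^ 2))
    (n0 : 70400 * (p.cP + 2) * p.CD * (p.Lm * s) * 8 ^ K ≤ N)
    (n1 : 35200 * (p.cP + 2) * (p.CD + 4) * (p.Lm * s) * 8 ^ K ≤ N)
    (n2 : 35200 * (p.cP + 2) * (p.CD + 4 * (1 + κ ^ 2)) * (p.Lm * s) * 8 ^ K ≤ N * H)
    (n3 : √((1 + κ ^ 2) * (4 * capV p.Lm s 1)) ≤ H * (2 * p.th s r)) :
    FM1 K (cx K x) R A b C w j q ≤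
      3 * (162 * (1 + Λ0) * (1 + Real.log ((1 + κ) * H / m)) *
        (N * (2 * p.th s r) * m ^ (1 / 8 : ℝ))) := by
  set τ : ℝ := 2 * p.th s r with hτd
  have hτ : 0 < τ := by positivity
  set ε : ℝ := m ^ (1 / 4 : ℝ) with hεd
  have hε0 : 0 < ε := Real.rpow_pos_of_pos hm _
  have hε1 : ε ≤ 1 := Real.rpow_le_one hm.le hm1 (by norm_num)
  have hε2 : ε ^ 2 ≤ 1 := pow_le_one₀ hε0.le hε1
  have hcV : 0 < capV p.Lm s 1 := by
    unfold H215.capV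
    have h1 : 0 < √(p.Lm * s) := Real.sqrt_pos.2 (by positivity)
    positivity
  have hκ2 : 1 ≤ κ ^ 2 := one_le_pow₀ hκ
  set cC : ℝ := √((ε ^ 2 + κ ^ 2) * (4 * capV p.Lm s 1)) with hcCd
  have hcp : 0 < (ε ^ 2 + κ ^ 2) * (4 * capV p.Lm s 1) := by positivity
  have hcC : 0 < cC := Real.sqrt_pos.2 hcp
  have hcCH : cC ≤ H * τ := by
    refine le_trans (Real.sqrt_le_sqrt ?_) n3
    gcongr
  have hL0 : 0 ≤ p.Lm := by linarith
  have hLs : 0 ≤ p.Lm * s := by positivity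
  have hRc : ∀ x0 z x', ∀ a : ι → ℝ,
      (R x0 0 z x' *ᵥ a) ⬝ᵥ (R x0 0 z x' *ᵥ a) ≤ κ ^ 2 * (a ⬝ᵥ a) :=
    fun x0 z x' a => hR.cap x0 0 (Nat.zero_le _) z x' a
  refine H747.FM1_le K (cx K x) R A b C he hl (ε := ε) (cA := τ) (cB := τ) (cC := cC)
    fun t ht => ?_
  obtain ⟨Λ1, E1, EA, a2, a3, a4, a5, a6, a7⟩ := hCA t ht
  obtain ⟨Λ2, E2, EV, b2, b3, b4, b5, b6, b7⟩ := hBC t ht
  obtain ⟨Z, c1, c2, c3⟩ := hZB t ht
  have h4 : (0 : ℝ) < 4 ^ L := by positivity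
  set ZA : ℝ := 35200 * (p.cP + 2) * (p.CD + 4 * (1 + κ ^ 2)) * (p.Lm * s) * 8 ^ K with hZAd
  have hZA0 : 0 ≤ ZA := by positivity
  have τ4 : √(4 * p.th s r ^ 2) = τ := by
    rw [show 4 * p.th s r ^ 2 = (2 * p.th s r) ^ 2 by ring, Real.sqrt_sq (by positivity)]
  have kA := fun (x0 : ℤ) (_ : x0 ∈ iv K t) =>
    H747.capMA (K := K) (M := cx K x) (A := A) (L := L) (th := p.th s r ^ 2) (by positivity) w
      (x0 := x0) (fun k hk n' m' => h.capA x0 k hk n' m') (sG K (cx K x) (-x0) w j q)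
  have kB := fun (x0 : ℤ) (_ : x0 ∈ iv K t) =>
    H747.capMB (K := K) (M := cx K x) (b := b) he hl (th := p.th s r ^ 2) (by positivity) w
      (x0 := x0) (fun k hk n' m' => h.capb x0 k hk n' m') (sG K (cx K x) (-x0) w j q)
  have kC := fun (x0 : ℤ) (_ : x0 ∈ iv K t) =>
    capC_FD h hcl hL0 hs.le zero_le_one hKn he hl (ε := ε) (q₀ := κ ^ 2) (by positivity) (w := w)
      (R := R) (x0 := x0) (hRc x0) hcp (sG K (cx K x) (-x0) w j q)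
  rw [τ4] at kA kB
  have hst := stage_tau (X := ℤ) (I := iv K t) (N := K + L)
    (s := fun x0 => sL L (sG K (cx K x) (-x0) w j q)) (FA := MA K (cx K x) A L w)
    (FB := MB K (cx K x) b L e w) (FC := MC K (cx K x) R C L e ε w) hτ hcC kA kB kC h4
  have hE0 : 0 ≤ max E1 E2 := a2.trans (le_max_left _ _)
  have cm := H972.close_m' (m := m) (H := H) (Λ := Λ0) (N := N)
    (K := 1 + κ) (τ := τ) (cC := cC) (E := max E1 E2) (EA := EA) (EV := EV)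
    (P₀ := 70400 * (p.cP + 2) * p.CD * (p.Lm * s) * 8 ^ K)
    (P₁ := 35200 * (p.cP + 2) * (p.CD + 4) * (p.Lm * s) * 8 ^ K) (Z := max Z ZA) hm hm1 hH
    (by linarith) hΛ0 hN hτ hE0 a3 b3 (by positivity) (by positivity)
    (c1.trans (le_max_left _ _)) hst ?_ ?_ ?_ ?_ ?_ ?_ ?_ n0 n1 a6 ?_ b6 ?_ hcCH
  · have h5 := (inv_mul_le_iff₀ h4).1 cm
    exact h5
  · intro x1 x2
    exact mul_nonneg (inv_nonneg.2 h4.le) (H581.RX_nonneg ..)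
  · intro h' h0 _
    rw [inv_mul_le_iff₀ h4]
    refine (H972.hAB_FD he hl h hKn hcP (by positivity) t w hj q h0).trans (le_of_eq ?_)
    ring
  · intro x1 hx1
    rw [inv_mul_le_iff₀ h4]
    refine (b7 x1 hx1).trans ?_
    have h6 : √(x1 ^ 2 * E2 * (τ ^ 2 * EV)) ≤ √(x1 ^ 2 * max E1 E2 * (τ ^ 2 * EV)) := by
      refine Real.sqrt_le_sqrt ?_
      have := le_max_right E1 E2
      gcongr
    have h7 := le_max_right E1 E2
    have h8 : 0 ≤ √(x1 ^ 2 * E2 * (τ ^ 2 * EV)) := Real.sqrt_nonneg _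
    gcongr
  · intro x1 hx1
    rw [inv_mul_le_iff₀ h4]
    refine (a7 x1 hx1).trans ?_
    have h6 : √(x1 ^ 2 * E1 * (τ ^ 2 * EA)) ≤ √(x1 ^ 2 * max E1 E2 * (τ ^ 2 * EA)) := by
      refine Real.sqrt_le_sqrt ?_
      have := le_max_left E1 E2
      gcongr
    have h7 := le_max_left E1 E2
    have h8 : 0 ≤ √(x1 ^ 2 * E1 * (τ ^ 2 * EA)) := Real.sqrt_nonneg _
    gcongr
  · intro x1 x2 h0 h1 h2
    rw [inv_mul_le_iff₀ h4]
    have hx1 : 0 < x1 := lt_of_lt_of_le (by positivity) h1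
    have h5 : (ε ^ 2 + κ ^ 2) * x2 ^ 2 ≤ x1 ^ 2 := by
      calc (ε ^ 2 + κ ^ 2) * x2 ^ 2 ≤ (1 + κ) ^ 2 * x2 ^ 2 := by
            refine mul_le_mul_of_nonneg_right ?_ (sq_nonneg _)
            nlinarith
        _ = ((1 + κ) * x2) ^ 2 := by ring
        _ ≤ x1 ^ 2 := by gcongr
    have h6 := RX_CA_FD (L := L) (e := e) (w := w) (j := j) (q := q) (t := t) (ε := ε)
      (q₀ := κ ^ 2) (α := x1) (β := x2) h hcl hs.le hΛ hCD zero_le_one hKn he hl hj (by positivity)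
      (Qg := fun x0 k n' x' => RgS R w.2.2 w.1 x0 k n' x')
      (fun x0 _ k _ n' x' a => RgS_le (hRc x0) w.2.2 w.1 k n' x' a) hx1 h0
    refine h6.trans ?_
    have h7 : x2 ^ 2 * ((ε ^ 2 + κ ^ 2) * (4 * p.Lm * 1 * s)) ≤ x1 ^ 2 * (4 * (p.Lm * s)) := by
      calc x2 ^ 2 * ((ε ^ 2 + κ ^ 2) * (4 * p.Lm * 1 * s))
          = ((ε ^ 2 + κ ^ 2) * x2 ^ 2) * (4 * (p.Lm * s)) := by ring
        _ ≤ _ := mul_le_mul_of_nonneg_right h5 (by positivity)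
    calc 35200 * 4 ^ L * (p.cP + 2) * 8 ^ K * (x1 ^ 2 * (p.CD * (p.Lm * s)) +
          x2 ^ 2 * ((ε ^ 2 + κ ^ 2) * (4 * p.Lm * 1 * s)))
        ≤ 35200 * 4 ^ L * (p.cP + 2) * 8 ^ K * (x1 ^ 2 * (p.CD * (p.Lm * s)) +
          x1 ^ 2 * (4 * (p.Lm * s))) := by gcongr
      _ = _ := by ring
  · intro h' h0 h1
    rw [inv_mul_le_iff₀ h4]
    refine (c3 h' h0 h1).trans ?_
    have := le_max_left Z ZA
    gcongr
  · intro h' h0 _
    rw [inv_mul_le_iff₀ h4]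
    have h6 := RX_CA_FD (L := L) (e := e) (w := w) (j := j) (q := q) (t := t) (ε := ε)
      (q₀ := κ ^ 2) (α := h') (β := h') h hcl hs.le hΛ hCD zero_le_one hKn he hl hj (by positivity)
      (Qg := fun x0 k n' x' => RgS R w.2.2 w.1 x0 k n' x')
      (fun x0 _ k _ n' x' a => RgS_le (hRc x0) w.2.2 w.1 k n' x' a) h0 h0
    refine h6.trans ?_
    have h7 : (ε ^ 2 + κ ^ 2) * (4 * p.Lm * 1 * s) ≤ (1 + κ ^ 2) * (4 * p.Lm * 1 * s) := by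
      gcongr
    calc 35200 * 4 ^ L * (p.cP + 2) * 8 ^ K * (h' ^ 2 * (p.CD * (p.Lm * s)) +
          h' ^ 2 * ((ε ^ 2 + κ ^ 2) * (4 * p.Lm * 1 * s)))
        ≤ 35200 * 4 ^ L * (p.cP + 2) * 8 ^ K * (h' ^ 2 * (p.CD * (p.Lm * s)) +
          h' ^ 2 * ((1 + κ ^ 2) * (4 * p.Lm * 1 * s))) := by gcongr
      _ = 4 ^ L * (ZA * h' ^ 2) := by
          rw [hZAd]
          ring
      _ ≤ 4 ^ L * (max Z ZA * h' ^ 2) := by
          have := le_max_right Z ZA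
          gcongr
  · exact max_le a5 b5
  · exact max_le c2 n2

end bundle

end

end Vale.Agent.P141.H829
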