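import Vale.Agent.P141.H829.GenL
import Vale.Agent.P141.H444.SysInst
import Vale.Agent.P141.PL.H855.EndDefs

/-!
# P141, END: a combination of atoms of large scales, read on a cell, is a sum of atoms on cubes
over the cell

`Bok c0 σ c Λ x b`: the cube `b` (scale, point) lies over the cell `(Λ, x)`, its scale is at most
`Λ`, and if it is smaller than `2 ^ k` then it is within `2 ^ (k + c0)` of the border of the cell.
`Brs c0 σ c Λ x M P`: on the cell, `P` is a finite combination of push-forwards of atoms on such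
cubes, of mass `∑ |c| 8 ^ k pw3` at most `M`.

`brs_a1`, `brs_psg`: one scalar, one generic atom; `brs_of_atS`: the combinations `AtS` of the total
systems `TSys` (generic tests with the local floor).
-/

namespace Vale.Agent.P141.H829

open Finset Vale.Agent.P141.H315 Vale.Agent.P141.PL.H318
open Vale.Agent.P141.PL.H315 (cube3 mem_cube3 gz card_cube3 atm Tri)
open Vale.Agent.P141.PL.H95 (gr mem_gr card_gr shf)
open Vale.Agent.P141.PL (Pt el fc)
open Vale.Agent.P141.H347 (Fam Dens lwt cd pwD pwD_sum LW)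
open Vale.Agent.P141.H922 (pw3 pw3_nonneg wP sysP sysPT)
open Vale.Agent.P141.H736 (Fg psg scg PSys)
open Vale.Agent.P141.H444 (TSys)
open Vale.Agent.P141.H782 (gb)
open Vale.Agent.P141.PL.H855 (AtS)

noncomputable section

open scoped Classical

variable {c0 : ℕ} {σ : ℤ} {c : Pt} {Λ : ℕ} {x : ℤ}

/-- the cube `b` is an admissible birth cube over the cell `(Λ, x)` -/
structure Bok (c0 : ℕ) (σ : ℤ) (c : Pt) (Λ : ℕ) (x : ℤ) (b : ℕ × Pt) : Prop where
  le : b.1 ≤ Λ
  ovr : ∀ y ∈ cube3 b.1 b.2, ixs c0 σ Λ (el c y) = ixs c0 σ Λ x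
  bor : ∀ k, b.1 < k → k ≤ Λ → ∀ y ∈ cube3 b.1 b.2,
    ∃ t : ℤ, |t - el c y| < 2 ^ (k + c0) ∧ ixs c0 σ Λ t ≠ ixs c0 σ Λ x

/-- the mass of an atom on a cube -/
def bw (b : (ℕ × Pt) × Tri) : ℝ := 8 ^ b.1.1 * pw3 (cube3 b.1.1 b.1.2) b.2

theorem bw_nonneg (b : (ℕ × Pt) × Tri) : 0 ≤ bw b := mul_nonneg (by positivity) (pw3_nonneg _ _)

/-- **`P` is, on the cell, a combination of atoms on cubes over the cell, of mass at most `M`.** -/
def Brs (c0 : ℕ) (σ : ℤ) (c : Pt) (Λ : ℕ) (x : ℤ) (M : ℝ) (P : ℤ → ℝ) : Prop :=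
  ∃ (B : Finset ((ℕ × Pt) × Tri)) (cf : (ℕ × Pt) × Tri → ℝ), (∀ b ∈ B, Bok c0 σ c Λ x b.1) ∧
    (∀ y ∈ (gr c0 σ).cube Λ x, P y = ∑ b ∈ B, cf b * a1 c b.1.1 (b.1.2, b.2) y) ∧
    ∑ b ∈ B, |cf b| * bw b ≤ M

variable {M M' : ℝ} {P P' : ℤ → ℝ}

theorem Brs.mono (h : Brs c0 σ c Λ x M P) (hM : M ≤ M') : Brs c0 σ c Λ x M' P := by
  obtain ⟨B, cf, h1, h2, h3⟩ := h
  exact ⟨B, cf, h1, h2, h3.trans hM⟩

theorem Brs.congr (h : Brs c0 σ c Λ x M P) (hP : ∀ y ∈ (gr c0 σ).cube Λ x, P' y = P y) :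
    Brs c0 σ c Λ x M P' := by
  obtain ⟨B, cf, h1, h2, h3⟩ := h
  exact ⟨B, cf, h1, fun y hy => (hP y hy).trans (h2 y hy), h3⟩

theorem Brs.zero (hM : 0 ≤ M) : Brs c0 σ c Λ x M fun _ => 0 :=
  ⟨∅, fun _ => 0, fun b hb => absurd hb (notMem_empty b), fun _ _ => by simp, by simpa using hM⟩

theorem Brs.smul (h : Brs c0 σ c Λ x M P) (r : ℝ) :
    Brs c0 σ c Λ x (|r| * M) fun y => r * P y := by
  obtain ⟨B, cf, h1, h2, h3⟩ := h
  refine ⟨B, fun b => r * cf b, h1, fun y hy => ?_, ?_⟩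
  · show r * P y = _
    rw [h2 y hy, mul_sum]
    exact sum_congr rfl fun b _ => by ring
  · calc ∑ b ∈ B, |r * cf b| * bw b = |r| * ∑ b ∈ B, |cf b| * bw b := by
          rw [mul_sum]
          exact sum_congr rfl fun b _ => by rw [abs_mul]; ring
      _ ≤ _ := mul_le_mul_of_nonneg_left h3 (abs_nonneg r)

theorem Brs.add (h : Brs c0 σ c Λ x M P) (h' : Brs c0 σ c Λ x M' P') :
    Brs c0 σ c Λ x (M + M') fun y => P y + P' y := by
  obtain ⟨B, cf, h1, h2, h3⟩ := h
  obtain ⟨B', cf', h1', h2', h3'⟩ := h'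
  have key : ∀ f : (ℕ × Pt) × Tri → ℝ,
      ∑ b ∈ B ∪ B', (if b ∈ B then f b else 0) = ∑ b ∈ B, f b := by
    intro f
    rw [← sum_filter]
    congr 1
    ext b
    simp only [mem_filter, mem_union]
    tauto
  have key' : ∀ f : (ℕ × Pt) × Tri → ℝ,
      ∑ b ∈ B ∪ B', (if b ∈ B' then f b else 0) = ∑ b ∈ B', f b := by
    intro f
    rw [← sum_filter]
    congr 1
    ext b
    simp only [mem_filter, mem_union]
    tauto
  refine ⟨B ∪ B', fun b => (if b ∈ B then cf b else 0) + (if b ∈ B' then cf' b else 0),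
    ?_, ?_, ?_⟩
  · intro b hb
    rcases mem_union.1 hb with h | h
    exacts [h1 b h, h1' b h]
  · intro y hy
    have e1 : ∀ b : (ℕ × Pt) × Tri,
        ((if b ∈ B then cf b else 0) + (if b ∈ B' then cf' b else 0)) *
          a1 c b.1.1 (b.1.2, b.2) y =
        (if b ∈ B then cf b * a1 c b.1.1 (b.1.2, b.2) y else 0) +
          (if b ∈ B' then cf' b * a1 c b.1.1 (b.1.2, b.2) y else 0) := by
      intro b
      split_ifs <;> ring
    rw [sum_congr rfl fun b _ => e1 b, sum_add_distrib, key, key', ← h2 y hy, ← h2' y hy]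
  · have e1 : ∀ b ∈ B ∪ B',
        |(if b ∈ B then cf b else 0) + (if b ∈ B' then cf' b else 0)| * bw b ≤
        (if b ∈ B then |cf b| * bw b else 0) + (if b ∈ B' then |cf' b| * bw b else 0) := by
      intro b _
      have h0 := bw_nonneg b
      refine (mul_le_mul_of_nonneg_right (abs_add_le _ _) h0).trans (le_of_eq ?_)
      split_ifs <;> simp [add_mul]
    refine (sum_le_sum e1).trans ?_
    rw [sum_add_distrib, key, key']
    exact add_le_add h3 h3'

theorem Brs.sum {κ : Type*} (I : Finset κ) {Mf : κ → ℝ} {Pf : κ → ℤ → ℝ}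
    (h : ∀ i ∈ I, Brs c0 σ c Λ x (Mf i) (Pf i)) :
    Brs c0 σ c Λ x (∑ i ∈ I, Mf i) fun y => ∑ i ∈ I, Pf i y := by
  induction I using Finset.induction_on with
  | empty => simpa using Brs.zero (c0 := c0) (σ := σ) (c := c) (Λ := Λ) (x := x) le_rfl
  | insert i I hi ih =>
    have h1 := (h i (mem_insert_self i I)).add (ih fun j hj => h j (mem_insert_of_mem hj))
    rw [sum_insert hi]
    refine h1.congr fun y _ => ?_
    rw [sum_insert hi]

/-! ### One atom -/

/-- a Whitney cube of a root cube of scale at least `Λ` is an admissible birth cube -/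
theorem bok_whit (hc : csz c ≤ 2 ^ c0) {l : ℕ} (hl : Λ ≤ l) {q : Pt} {b : ℕ × Pt}
    (hb : b ∈ whit c0 σ c l q Λ x) : Bok c0 σ c Λ x b where
  le := whit_le hb
  ovr y hy := whit_over hb hy
  bor k hbk hk y hy := by
    -- the cube of scale `k` around `y` does not lie over the cell
    have h1 : ws c0 σ c l Λ y = b.1 := whit_ws hb hy
    have h2 : ¬ Vale.Agent.P141.H347.Ov c0 σ c Λ k y := by
      intro hO
      have h3 : k ≤ ws c0 σ c l Λ y :=
        le_min (Vale.Agent.P141.H347.le_whs hk hO) (hk.trans hl)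
      omega
    unfold Vale.Agent.P141.H347.Ov at h2
    push Not at h2
    obtain ⟨y', hy', hne⟩ := h2
    refine ⟨el c y', ?_, ?_⟩
    · have h4 := el_diff (c := c) hy' (gz.mem k y)
      have h2' : csz c * (2 ^ k - 1) < 2 ^ (k + c0) := by
        have h3 : (1 : ℤ) ≤ 2 ^ k := one_le_pow₀ (by norm_num)
        have h4 : csz c * (2 ^ k - 1) ≤ 2 ^ c0 * (2 ^ k - 1) :=
          mul_le_mul_of_nonneg_right hc (by linarith)
        have h5 : (2 : ℤ) ^ (k + c0) = 2 ^ c0 * 2 ^ k := by rw [pow_add]; ring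
        have h6 : (0 : ℤ) < 2 ^ c0 := by positivity
        rw [h5]; nlinarith
      exact lt_of_le_of_lt h4 h2'
    · rw [← whit_over hb hy]
      exact hne

/-- **one scalar atom of a scale at least `Λ`** -/
theorem brs_a1 (hc : csz c ≤ 2 ^ c0) {l : ℕ} (hl : Λ ≤ l) (q : Pt) (u : Tri) :
    Brs c0 σ c Λ x (lwt (pwD 1 zero_le_one) c0 σ c l Λ x (q, u)) (a1 c l (q, u)) := by
  have hinj : Function.Injective fun b : ℕ × Pt => (b, u) := fun b b' h => (Prod.ext_iff.1 h).1
  refine ⟨(whit c0 σ c l q Λ x).map ⟨fun b => (b, u), hinj⟩, fun _ => 1, ?_, ?_, ?_⟩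
  · intro b hb
    obtain ⟨b', hb', rfl⟩ := mem_map.1 hb
    exact bok_whit hc hl hb'
  · intro y hy
    rw [sum_map]
    simp only [Function.Embedding.coeFn_mk, one_mul]
    exact a1_whit u (mem_gs.1 hy)
  · rw [sum_map, ← lsw_eq_lwt hl, lsw_cell]
    simp only [Function.Embedding.coeFn_mk, abs_one, one_mul]
    refine le_of_eq (sum_congr rfl fun b _ => ?_)
    have h1 := pwD_sum zero_le_one b.1 b.2 u
    rw [h1]
    unfold bw wP
    rw [card_cube3]
    push_cast
    rw [one_mul]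

/-- **one generic atom of a scale at least `Λ`** -/
theorem brs_psg (hc : csz c ≤ 2 ^ c0) (i : Fg) (hl : Λ ≤ i.1) :
    Brs c0 σ c Λ x (lsc c0 σ c Λ ((gr c0 σ).cube Λ x) i) (psg c i) := by
  obtain ⟨l, q, us⟩ := i
  have hl' : Λ ≤ l := hl
  have key : Brs c0 σ c Λ x (us.map fun u =>
      lsw (pwD 1 zero_le_one) c0 σ c l Λ ((gr c0 σ).cube Λ x) q u).sum
      fun y => (us.map fun u => a1 c l (q, u)).sum y := by
    induction us with
    | nil =>
      refine (Brs.zero (by simp)).congr fun y _ => ?_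
      simp
    | cons u us ih =>
      rw [List.map_cons, List.sum_cons]
      have h1 := brs_a1 (x := x) (σ := σ) hc hl' q u
      rw [← lsw_eq_lwt hl'] at h1
      refine (h1.add (ih hl)).congr fun y _ => ?_
      rw [List.map_cons, List.sum_cons, Pi.add_apply]
  have h2 := key.smul ((4 ^ l : ℝ)⁻¹)
  rw [abs_of_pos (by positivity)] at h2
  exact h2

/-! ### Combinations of atoms of the total systems -/

/-- **The input of END is a combination of atoms on cubes over the cell.** -/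
theorem brs_of_atS {n : ℕ} (t : TSys n Fg) (lv : ℕ) (b : Bool) (i : Fin 4) {φ' : ℝ}
    (hφ' : 0 < φ') (hψ : ∀ m, (t.P lv b i).ψ m = psg (fc i) m)
    (hlive : ∀ k m, (t.P lv b i).live k m → k ≤ m.1)
    (hW : ∀ k x m, φ' * lsc 7 (shf (n + 7) b) (fc i) k ((gb n b).cube k x) m ≤
      (t.P lv b i).W k ((gb n b).cube k x) m) {L : ℕ}
    (h : AtS (t.sys.w lv b i) L Λ x M P) :
    Brs 7 (shf (n + 7) b) (fc i) Λ x
      ((2 / t.δ lv + 2 * (t.P lv b i).C / φ') * M * cd (gb n b) Λ x) P := by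
  obtain ⟨I, cf, h1, h2, h3⟩ := h
  have hδ := t.pos lv
  have hcd : 0 ≤ cd (gb n b) Λ x := Nat.cast_nonneg _
  have hC : 0 ≤ (t.P lv b i).C := zero_le_one.trans (t.P lv b i).one_le
  set D : ℝ := 2 / t.δ lv + 2 * (t.P lv b i).C / φ' with hD
  have hD0 : 0 ≤ D := by positivity
  -- one atom
  have one : ∀ q ∈ I, Brs 7 (shf (n + 7) b) (fc i) Λ x
      (D * ((t.sys.w lv b i).ω q.1 Λ x q.2 * cd (gb n b) Λ x)) ((t.sys.S lv b i).a q.1 q.2) := by
    rintro ⟨j, m⟩ hq
    have hω := (t.sys.w lv b i).nonneg j Λ x m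
    have hj : Λ ≤ j := (h1 _ hq).1
    rcases m with m | m
    · obtain ⟨qq, u⟩ := m
      have k1 := brs_a1 (x := x) (σ := shf (n + 7) b) (Vale.Agent.P141.H444.csz_fc_7 i) hj qq u
      refine Brs.mono k1 ?_
      have k2 := t.whitney_le lv b i j Λ x (qq, u)
      rw [Vale.Agent.P141.H444.lwt_pwD] at k2
      have k3 : lwt (pwD 1 zero_le_one) 7 (shf (n + 7) b) (fc i) j Λ x (qq, u) ≤
          2 / t.δ lv * ((t.sys.w lv b i).ω j Λ x (Sum.inl (qq, u)) * cd (gb n b) Λ x) := by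
        rw [div_mul_eq_mul_div, le_div_iff₀ hδ]
        linarith
      refine k3.trans (mul_le_mul_of_nonneg_right ?_ (mul_nonneg hω hcd))
      rw [hD]
      have : 0 ≤ 2 * (t.P lv b i).C / φ' := by positivity
      linarith
    · have e1 : (t.sys.S lv b i).a j (Sum.inr m) = (t.P lv b i).toC.a j m := rfl
      by_cases hl : (t.P lv b i).live j m
      · have e2 : (t.sys.S lv b i).a j (Sum.inr m) = psg (fc i) m := by
          rw [e1, PSys.toC_a, if_pos hl, hψ]
        have hjm : j ≤ m.1 := hlive j m hl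
        have k1 := brs_psg (x := x) (σ := shf (n + 7) b) (Vale.Agent.P141.H444.csz_fc_7 i) m
          (hj.trans hjm)
        dsimp only
        rw [e2]
        refine Brs.mono k1 ?_
        have k2 := t.packed_le lv b i j Λ x m
        have k3 := (hW Λ x m).trans k2
        have k4 : lsc 7 (shf (n + 7) b) (fc i) Λ ((gr 7 (shf (n + 7) b)).cube Λ x) m ≤
            2 * (t.P lv b i).C / φ' *
              ((t.sys.w lv b i).ω j Λ x (Sum.inr m) * cd (gb n b) Λ x) := by
          rw [div_mul_eq_mul_div, le_div_iff₀ hφ', mul_comm]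
          refine k3.trans (le_of_eq ?_)
          ring
        refine k4.trans (mul_le_mul_of_nonneg_right ?_ (mul_nonneg hω hcd))
        rw [hD]
        have : 0 ≤ 2 / t.δ lv := by positivity
        linarith
      · have e2 : (t.sys.S lv b i).a j (Sum.inr m) = 0 := by
          rw [e1, PSys.toC_a, if_neg hl]
        dsimp only
        rw [e2]
        exact Brs.zero (by positivity)
  have k1 := Brs.sum I (Mf := fun q => |cf q| *
      (D * ((t.sys.w lv b i).ω q.1 Λ x q.2 * cd (gb n b) Λ x)))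
    (Pf := fun q y => cf q * (t.sys.S lv b i).a q.1 q.2 y) fun q hq => (one q hq).smul (cf q)
  refine (k1.congr fun y hy => h2 y hy).mono ?_
  calc ∑ q ∈ I, |cf q| * (D * ((t.sys.w lv b i).ω q.1 Λ x q.2 * cd (gb n b) Λ x))
      = D * (∑ q ∈ I, |cf q| * (t.sys.w lv b i).ω q.1 Λ x q.2) * cd (gb n b) Λ x := by
        rw [mul_sum, sum_mul]
        exact sum_congr rfl fun q _ => by ring
    _ ≤ D * M * cd (gb n b) Λ x :=
        mul_le_mul_of_nonneg_right (mul_le_mul_of_nonneg_left h3 hD0) hcd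

end

end Vale.Agent.P141.H829
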