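import Vale.Agent.P141.H829.ExcOp
import Vale.Agent.P141.H911.Fibre
import Vale.Agent.P141.H998.PDec
import Vale.Agent.P141.H379.Exc

/-!
# P141, line W, end lemma, (EXC): the operator bound in the letters of the assembly

* `formz_mem`: the four forms on a box of the fibre stay in the window of its node (`H911`);
* `opz_le`: the operator bound on the box of a used node in the letters of `H911`;
* `opz_gd`: the same for the main family of `H998.PDec` on the cells `Gd` where the accumulated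
  part has energy at most `lam` (`H379.Ex`).
-/

namespace Vale.Agent.P141.H829

open Finset Vale.Agent.P141.PL.H318
open Vale.Agent.P141.PL.H315 (avg cube3 mem_cube3 card_cube3 atm Tri iv)
open Vale.Agent.P141.PL.H95 (gr)
open Vale.Agent.P141.PL (Pt el fc)
open Vale.Agent.P141.PL.H571 (W)
open Vale.Agent.P141.H337 (ivm mem_ivm card_ivm av2)
open Vale.Agent.P141.H922 (wP)
open Vale.Agent.P141.H315 (dot)
open Vale.Agent.P141.H606 (dl kerS)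
open Vale.Agent.P141.H911 (dd Pz Gz qz vz)
open Vale.Agent.P141.H347 (cd)
open Vale.Agent.P141.H8 (Rgn En)
open Vale.Agent.P141.H998 (Bi PDec mainF Gd en)
open Vale.Agent.P141.H379 (Dl Ex)

noncomputable section

theorem cz_eq {o : ℤ} {k : ℕ} {m0 m1 x0 x1 : ℤ} (n : ℤ) (h0 : x0 ∈ ivm k m0) (h1 : x1 ∈ ivm k m1) :
    H606.cz o k x0 x1 - n = qz o m0 m1 n := by
  rw [mem_ivm] at h0 h1
  unfold H606.cz qz
  rw [h0, h1]

theorem vz_eq' {o : ℤ} (σ : Equiv.Perm (Fin 4)) {k : ℕ} {m0 m1 x0 x1 : ℤ} (n : ℤ)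
    (h0 : x0 ∈ ivm k m0) (h1 : x1 ∈ ivm k m1) : H606.vz o σ k x0 x1 n = vz σ o m0 m1 n := by
  have h := cz_eq (o := o) n h0 h1
  unfold H606.vz vz
  rw [h]
  rw [mem_ivm] at h0 h1
  rw [h0, h1]

/-- **the four forms on a box of the fibre stay in the window of its node** -/
theorem formz_mem {o : ℤ} (ho : o = 1 ∨ o = -1) (σ : Equiv.Perm (Fin 4)) {k : ℕ}
    {m0 m1 n x0 x1 x2 x3 : ℤ} (h0 : x0 ∈ ivm k m0) (h1 : x1 ∈ ivm k m1) (h2 : x2 ∈ ivm k n)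
    (h3 : x3 ∈ ivm k (qz o m0 m1 n)) (r : Fin 4) :
    dd σ r 0 * x0 + dd σ r 1 * x1 + dd σ r 2 * x2 + dd σ r 3 * x3 ∈ W k (vz σ o m0 m1 n) := by
  rw [← cz_eq n h0 h1] at h3
  have h := form_mem ho σ h2 h3 r
  rwa [vz_eq' σ n h0 h1] at h

/-- **The operator bound on the box of a used node** in the letters of `H911`. -/
theorem opz_le {o : ℤ} (ho : o = 1 ∨ o = -1) (σ : Equiv.Perm (Fin 4)) {s : ℤ} {k : ℕ} {y : ℤ}
    {δ C C' eD eA : ℝ} (hδ0 : 0 < δ) (hδ1 : 2 * δ ≤ 1) (hC : 1 ≤ C) (hC' : 0 ≤ C') (heD : 0 ≤ eD)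
    (heA : 0 ≤ eA) {GP D A : ℤ → ℝ} {f : Fin 4 → ℤ → ℝ}
    (hu : ∀ u : Pt × Tri, |dot ((gr 7 s).cube k y) GP (a1 (fc (σ 0)) k u)| ≤
      wP δ (cube3 k u.1) u.2)
    (eP : dot ((gr 7 s).cube k y) GP GP ≤ C * ((gr 7 s).cube k y).card)
    (hD : dot ((gr 7 s).cube k y) D D ≤ eD * ((gr 7 s).cube k y).card)
    (hA : dot ((gr 7 s).cube k y) A A ≤ eA * ((gr 7 s).cube k y).card)
    (eG : dot ((gr 7 s).cube k y) (f (σ 1)) (f (σ 1)) ≤ C' * ((gr 7 s).cube k y).card)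
    (hM : ∀ t ∈ (gr 7 s).cube k y, f (σ 0) t = GP t + D t - A t) {m0 m1 n x0 x1 : ℤ}
    (h0 : x0 ∈ ivm k m0) (h1 : x1 ∈ ivm k m1)
    (hsub : W k (vz σ o m0 m1 n) ⊆ (gr 7 s).cube k y) (b d : ℤ → ℝ) :
    |av2 (ivm k n) (ivm k (qz o m0 m1 n))
      (fun x2 x3 => b x2 * (Pz σ f x1 x2 x3 * Gz σ f x0 x2 x3) * d x3)| ≤
      kOp C C' δ eD eA * √(avg (ivm k n) fun x => b x ^ 2) *
        √(avg (ivm k (qz o m0 m1 n)) fun x => d x ^ 2) := by
  rw [← vz_eq' σ n h0 h1] at hsub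
  rw [← cz_eq n h0 h1]
  exact kerS_box ho σ hδ0 hδ1 hC hC' heD heA hu eP hD hA eG hM hsub b d

theorem dot_le_of_en {X : Type*} {g : Vale.Agent.P141.H315.Grid X} {F : X → ℝ} {i : ℕ} {y : X} {lam : ℝ}
    (h : en g F i y ≤ lam) : dot (g.cube i y) F F ≤ lam * (g.cube i y).card := by
  unfold en at h
  rwa [div_le_iff₀ (Vale.Agent.P141.H347.cd_pos g i y)] at h

variable {s : ℤ} {c : Pt} {Λ : ℕ} {x : ℤ} {κ μ M : ℝ} {P : ℤ → ℝ} {B : Finset Bi}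
  {cf : Bi → ℝ} {E : Bi → Finset ℤ × Finset ℤ × Finset ℤ} {v : Bi → Tri} {F : ℕ → ℤ → ℝ}

/-- **The operator bound for the main family of `H998.PDec`** on the box of a used node: the cell
is used, does not touch the border, and the accumulated part has energy at most `lam`.  The
coefficients `c` of the main family are free (`H911.lc σ 0` in `H998.MainEst`); the uniformity of
`GP` is tested in the order of the face, `fc (σ 0)`. -/
theorem opz_gd {o : ℤ} (ho : o = 1 ∨ o = -1) (σ : Equiv.Perm (Fin 4))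
    (hd : PDec s c Λ x κ μ M P B cf E v F) {gd ud Q : ℕ → ℤ → Prop}
    (hR : Rgn (gr 7 s) gd Λ x ud) {k : ℕ} {y : ℤ} (hy : Gd s Λ x ud Q k y) {lam : ℝ}
    (hlam0 : 0 ≤ lam) (hlam : en (gr 7 s) (Dl F Λ k) k y ≤ lam)
    {δ C C' eD : ℝ} (hδ0 : 0 < δ) (hδ1 : 2 * δ ≤ 1) (hC : 1 ≤ C) (hC' : 0 ≤ C') (heD : 0 ≤ eD)
    {GP D G1 : ℤ → ℝ} (hP : ∀ z ∈ (gr 7 s).cube Λ x, P z = GP z + D z)
    (hu : ∀ k y, ud k y → ∀ u : Pt × Tri, |dot ((gr 7 s).cube k y) GP (a1 (fc (σ 0)) k u)| ≤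
      wP δ (cube3 k u.1) u.2)
    (eP : En (gr 7 s) ud GP C) (hD : En (gr 7 s) ud D eD) (eG : En (gr 7 s) ud G1 C')
    {f : Fin 4 → ℤ → ℝ} (hf0 : ∀ t ∈ (gr 7 s).cube k y, f (σ 0) t = mainF c μ B cf E v k t)
    (hf1 : ∀ t ∈ (gr 7 s).cube k y, f (σ 1) t = G1 t) {m0 m1 n x0 x1 : ℤ}
    (h0 : x0 ∈ ivm k m0) (h1 : x1 ∈ ivm k m1)
    (hsub : W k (vz σ o m0 m1 n) ⊆ (gr 7 s).cube k y) (b d : ℤ → ℝ) :
    |av2 (ivm k n) (ivm k (qz o m0 m1 n))
      (fun x2 x3 => b x2 * (Pz σ f x1 x2 x3 * Gz σ f x0 x2 x3) * d x3)| ≤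
      kOp C C' δ eD lam * √(avg (ivm k n) fun x => b x ^ 2) *
        √(avg (ivm k (qz o m0 m1 n)) fun x => d x ^ 2) := by
  obtain ⟨hud, hnb, -⟩ := hy
  obtain ⟨hk, hyL⟩ := hR.bel k y hud
  refine opz_le ho σ hδ0 hδ1 hC hC' heD hlam0 (GP := GP) (D := D) (A := Dl F Λ k) (hu k y hud)
    (eP k y hud) (hD k y hud) (dot_le_of_en hlam) ?_ ?_ h0 h1 hsub b d
  · refine le_trans (le_of_eq ?_) (eG k y hud)
    unfold dot
    exact sum_congr rfl fun t ht => by rw [hf1 t ht]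
  · intro t ht
    have h2 := hd.dec k hk y hyL hnb t ht
    have h3 : t ∈ (gr 7 s).cube Λ x := (gr 7 s).cube_subset hk hyL ht
    rw [hP t h3] at h2
    rw [hf0 t ht]
    have h4 : Dl F Λ k t = ∑ i ∈ Icc k Λ, F i t := by
      unfold Dl
      rw [Finset.sum_apply]
    rw [h4, h2]
    ring

end

end Vale.Agent.P141.H829
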