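import Vale.Agent.P141.H998.Eff

/-!
# P141, line W, end lemma, scale-invariant version: every atom is of vertex type

`u = (a₁₂, a₁₃, a₂₃)` any atom on a box `A × B × C`, `s = (n2)` the three `L²` norms, `pwB` the pair
weight of the box, `rW = pwB / (s₁₂ s₁₃ s₂₃)`.

`vt`: for `0 < κ ≤ 1` there are `E₁ ⊆ A`, `E₂ ⊆ B`, `E₃ ⊆ C` with `κ² rW² |E_i| ≤ 2 |·|` and an atom
`v`, edge by edge at most `u`, supported on `E_i × E_j`, with heights at most `κ⁻² rW² s`, such that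
the average of `|R (u - v)|` is at most `6 κ √e pwB` for **every** `R` with line averages of `R²`
at most `e`.
-/

namespace Vale.Agent.P141.H829

noncomputable section

open scoped BigOperators
open Finset Vale.Agent.P141.PL.H315
open Vale.Agent.P141.H550 (avg_congr avg_mono avg_const avg_mul_left avg_mul_right avg_add avg_prod
  avg_comm avg_mul_sq_le)
open Vale.Agent.P141.H922 (n2 n4 nN n2_nonneg n4_nonneg nN_nonneg n2_sq n4_sq n4_four nN_sq
  n2_le_n4)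
open Vale.Agent.P141.H834 (LineB)
open Vale.Agent.P141.H998

/-! ### The two other vertices of `l2_x` -/

section

variable {A B C : Finset ℤ} {e : ℝ} {R : ℤ × ℤ × ℤ → ℝ}

theorem rwE_sw (A : Finset ℤ) (d : ℤ × ℤ → ℝ) (y : ℤ) : rwE A (sw d) y = clE A d y := rfl

theorem l2_y (he : 0 ≤ e) (hL : LineB e A B C R) (u : Tri) :
    (avg (A ×ˢ B ×ˢ C) fun q => |R q * atm u q|) ^ 2 ≤
      e * n2 (A ×ˢ C) u.2.1 ^ 2 * avg B fun y => clE A u.1 y * rwE C u.2.2 y := by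
  have h := l2_x he (lineB_t12 hL) (u12 u)
  rw [avg_t12] at h
  exact h

theorem l2_z (he : 0 ≤ e) (hL : LineB e A B C R) (u : Tri) :
    (avg (A ×ˢ B ×ˢ C) fun q => |R q * atm u q|) ^ 2 ≤
      e * n2 (A ×ˢ B) u.1 ^ 2 * avg C fun z => clE A u.2.1 z * clE B u.2.2 z := by
  have h := l2_y he (lineB_t23 hL) (u23 u)
  rw [avg_t23] at h
  exact h

end

/-! ### The ratio of the pair weight and the `L²` weight -/

/-- the pair weight of a box, edge form -/
def pwB (A B C : Finset ℤ) (u : Tri) : ℝ :=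
  nN (A ×ˢ B) u.1 * nN (A ×ˢ C) u.2.1 * n2 (B ×ˢ C) u.2.2 +
    nN (A ×ˢ B) u.1 * nN (B ×ˢ C) u.2.2 * n2 (A ×ˢ C) u.2.1 +
    nN (A ×ˢ C) u.2.1 * nN (B ×ˢ C) u.2.2 * n2 (A ×ˢ B) u.1

/-- the `L²` weight of a box -/
def s3 (A B C : Finset ℤ) (u : Tri) : ℝ :=
  n2 (A ×ˢ B) u.1 * n2 (A ×ˢ C) u.2.1 * n2 (B ×ˢ C) u.2.2

/-- the ratio of the two weights -/
def rW (A B C : Finset ℤ) (u : Tri) : ℝ := pwB A B C u / s3 A B C u

section

variable {A B C : Finset ℤ}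

theorem s3_nonneg (u : Tri) : 0 ≤ s3 A B C u :=
  mul_nonneg (mul_nonneg (n2_nonneg _ _) (n2_nonneg _ _)) (n2_nonneg _ _)

theorem pwB_nonneg (u : Tri) : 0 ≤ pwB A B C u := by
  have := nN_nonneg (A ×ˢ B) u.1
  have := nN_nonneg (A ×ˢ C) u.2.1
  have := nN_nonneg (B ×ˢ C) u.2.2
  have := n2_nonneg (A ×ˢ B) u.1
  have := n2_nonneg (A ×ˢ C) u.2.1
  have := n2_nonneg (B ×ˢ C) u.2.2
  unfold pwB
  positivity

theorem rW_nonneg (u : Tri) : 0 ≤ rW A B C u := div_nonneg (pwB_nonneg u) (s3_nonneg u)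

theorem rW_mul {u : Tri} (h : s3 A B C u ≠ 0) : rW A B C u * s3 A B C u = pwB A B C u :=
  div_mul_cancel₀ _ h

theorem pair_le {p f g s t w W S : ℝ} (hs : 0 < s) (ht : 0 < t) (hw : 0 < w)
    (hf : 0 ≤ f) (hg : 0 ≤ g) (hS : S = s * t * w) (hW : W * S = p)
    (h : √(s * f) * √(t * g) * w ≤ p) : f * g ≤ W ^ 2 * (s * t) := by
  have h1 : (√(s * f) * √(t * g) * w) ^ 2 ≤ p ^ 2 :=
    pow_le_pow_left₀ (by positivity) h 2
  have h2 : (√(s * f) * √(t * g) * w) ^ 2 = s * f * (t * g) * w ^ 2 := by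
    rw [mul_pow, mul_pow, Real.sq_sqrt (by positivity), Real.sq_sqrt (by positivity)]
  rw [h2, ← hW, hS] at h1
  have h3 : (s * t * w ^ 2) * (f * g) ≤ (s * t * w ^ 2) * (W ^ 2 * (s * t)) := by
    calc (s * t * w ^ 2) * (f * g) = s * f * (t * g) * w ^ 2 := by ring
      _ ≤ _ := h1
      _ = _ := by ring
  exact le_of_mul_le_mul_left h3 (by positivity)

/-- the three products of `L⁴` norms -/
theorem prod_le {u : Tri} (h1 : 0 < n2 (A ×ˢ B) u.1) (h2 : 0 < n2 (A ×ˢ C) u.2.1)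
    (h3 : 0 < n2 (B ×ˢ C) u.2.2) :
    n4 (A ×ˢ B) u.1 * n4 (A ×ˢ C) u.2.1 ≤
        rW A B C u ^ 2 * (n2 (A ×ˢ B) u.1 * n2 (A ×ˢ C) u.2.1) ∧
      n4 (A ×ˢ B) u.1 * n4 (B ×ˢ C) u.2.2 ≤
        rW A B C u ^ 2 * (n2 (A ×ˢ B) u.1 * n2 (B ×ˢ C) u.2.2) ∧
      n4 (A ×ˢ C) u.2.1 * n4 (B ×ˢ C) u.2.2 ≤
        rW A B C u ^ 2 * (n2 (A ×ˢ C) u.2.1 * n2 (B ×ˢ C) u.2.2) := by
  have k1 := nN_nonneg (A ×ˢ B) u.1
  have k2 := nN_nonneg (A ×ˢ C) u.2.1
  have k3 := nN_nonneg (B ×ˢ C) u.2.2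
  have hS : s3 A B C u ≠ 0 := by unfold s3; positivity
  have hW := rW_mul hS
  have e1 : 0 ≤ nN (A ×ˢ B) u.1 * nN (A ×ˢ C) u.2.1 * n2 (B ×ˢ C) u.2.2 := by positivity
  have e2 : 0 ≤ nN (A ×ˢ B) u.1 * nN (B ×ˢ C) u.2.2 * n2 (A ×ˢ C) u.2.1 := by positivity
  have e3 : 0 ≤ nN (A ×ˢ C) u.2.1 * nN (B ×ˢ C) u.2.2 * n2 (A ×ˢ B) u.1 := by positivity
  refine ⟨?_, ?_, ?_⟩
  · refine pair_le h1 h2 h3 (n4_nonneg _ _) (n4_nonneg _ _) rfl hW ?_
    change nN (A ×ˢ B) u.1 * nN (A ×ˢ C) u.2.1 * n2 (B ×ˢ C) u.2.2 ≤ _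
    unfold pwB; linarith
  · refine pair_le h1 h3 h2 (n4_nonneg _ _) (n4_nonneg _ _) ?_ hW ?_
    · unfold s3; ring
    · change nN (A ×ˢ B) u.1 * nN (B ×ˢ C) u.2.2 * n2 (A ×ˢ C) u.2.1 ≤ _
      unfold pwB; linarith
  · refine pair_le h2 h3 h1 (n4_nonneg _ _) (n4_nonneg _ _) ?_ hW ?_
    · unfold s3; ring
    · change nN (A ×ˢ C) u.2.1 * nN (B ×ˢ C) u.2.2 * n2 (A ×ˢ B) u.1 ≤ _
      unfold pwB; linarith

end

/-! ### The cuts -/

/-- the part of an edge of height at most `h` -/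
def lowH (h : ℝ) (d : ℤ × ℤ → ℝ) : ℤ × ℤ → ℝ := fun r => if |d r| ≤ h then d r else 0

/-- the part of an edge of height larger than `h` -/
def tallH (h : ℝ) (d : ℤ × ℤ → ℝ) : ℤ × ℤ → ℝ := fun r => if |d r| ≤ h then 0 else d r

theorem lowH_add (h : ℝ) (d : ℤ × ℤ → ℝ) (r : ℤ × ℤ) : d r = lowH h d r + tallH h d r := by
  unfold lowH tallH; split_ifs <;> simp

theorem abs_lowH_le (h : ℝ) (d : ℤ × ℤ → ℝ) (r : ℤ × ℤ) : |lowH h d r| ≤ |d r| := by
  unfold lowH; split_ifs <;> simp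

theorem abs_lowH_le' {h : ℝ} (hh : 0 ≤ h) (d : ℤ × ℤ → ℝ) (r : ℤ × ℤ) : |lowH h d r| ≤ h := by
  unfold lowH; split_ifs with k
  · exact k
  · simpa using hh

theorem tall_n2 {h : ℝ} (hh : 0 < h) (Q : Finset (ℤ × ℤ)) (d : ℤ × ℤ → ℝ) :
    h * n2 Q (tallH h d) ≤ n4 Q d ^ 2 := by
  refine (pow_le_pow_iff_left₀ (mul_nonneg hh.le (n2_nonneg _ _)) (sq_nonneg _)
    (n := 2) (by norm_num)).1 ?_
  rw [mul_pow, n2_sq, ← avg_mul_left, show (n4 Q d ^ 2) ^ 2 = n4 Q d ^ 4 by ring, n4_four]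
  refine avg_mono fun r _ => ?_
  unfold tallH
  split_ifs with k
  · rw [zero_pow (by norm_num), mul_zero]; positivity
  · have h1 : h ^ 2 ≤ d r ^ 2 := by
      rw [← sq_abs (d r)]
      exact pow_le_pow_left₀ hh.le (not_le.1 k).le 2
    calc h ^ 2 * d r ^ 2 ≤ d r ^ 2 * d r ^ 2 := mul_le_mul_of_nonneg_right h1 (sq_nonneg _)
      _ = d r ^ 4 := by ring

/-- indicator of a finite set -/
def ind (E : Finset ℤ) (x : ℤ) : ℝ := by
  classical exact if x ∈ E then 1 else 0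

theorem ind_mem {E : Finset ℤ} {x : ℤ} (h : x ∈ E) : ind E x = 1 := by
  unfold ind; simp [h]

theorem ind_not {E : Finset ℤ} {x : ℤ} (h : x ∉ E) : ind E x = 0 := by
  unfold ind; simp [h]

theorem ind_nonneg (E : Finset ℤ) (x : ℤ) : 0 ≤ ind E x := by
  by_cases h : x ∈ E
  · rw [ind_mem h]; norm_num
  · rw [ind_not h]

theorem ind_le_one (E : Finset ℤ) (x : ℤ) : ind E x ≤ 1 := by
  by_cases h : x ∈ E
  · rw [ind_mem h]
  · rw [ind_not h]; norm_num

theorem ind_sq (E : Finset ℤ) (x : ℤ) : ind E x * ind E x = ind E x := by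
  by_cases h : x ∈ E
  · rw [ind_mem h]; norm_num
  · rw [ind_not h]; norm_num

/-- the restriction of an edge to a product -/
def rst (E F : Finset ℤ) (d : ℤ × ℤ → ℝ) : ℤ × ℤ → ℝ := fun r => ind E r.1 * ind F r.2 * d r

theorem abs_rst_le (E F : Finset ℤ) (d : ℤ × ℤ → ℝ) (r : ℤ × ℤ) : |rst E F d r| ≤ |d r| := by
  unfold rst
  rw [abs_mul, abs_of_nonneg (mul_nonneg (ind_nonneg _ _) (ind_nonneg _ _))]
  exact mul_le_of_le_one_left (abs_nonneg _)
    (mul_le_one₀ (ind_le_one _ _) (ind_nonneg _ _) (ind_le_one _ _))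

theorem rst_ne {E F : Finset ℤ} {d : ℤ × ℤ → ℝ} {x y : ℤ} (h : rst E F d (x, y) ≠ 0) :
    x ∈ E ∧ y ∈ F := by
  unfold rst at h
  refine ⟨?_, ?_⟩
  · by_contra k; exact h (by simp [ind_not k])
  · by_contra k; exact h (by simp [ind_not k])

/-- the restriction of an atom to a box -/
def rs3 (E F G : Finset ℤ) (u : Tri) : Tri := (rst E F u.1, rst E G u.2.1, rst F G u.2.2)

theorem atm_rs3 (E F G : Finset ℤ) (u : Tri) (q : ℤ × ℤ × ℤ) :
    atm (rs3 E F G u) q = ind E q.1 * ind F q.2.1 * ind G q.2.2 * atm u q := by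
  unfold atm rs3 rst e12 e13 e23
  simp only
  calc _ = (ind E q.1 * ind E q.1) * (ind F q.2.1 * ind F q.2.1) * (ind G q.2.2 * ind G q.2.2) *
        (u.1 (q.1, q.2.1) * u.2.1 (q.1, q.2.2) * u.2.2 (q.2.1, q.2.2)) := by ring
    _ = _ := by rw [ind_sq, ind_sq, ind_sq]

/-! ### The reduction -/

/-- vertex-type data of an atom on a box -/
structure VTy (κ : ℝ) (A B C : Finset ℤ) (u v : Tri) (E1 E2 E3 : Finset ℤ) : Prop where
  sub1 : E1 ⊆ A
  sub2 : E2 ⊆ B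
  sub3 : E3 ⊆ C
  sup12 : ∀ x y, v.1 (x, y) ≠ 0 → x ∈ E1 ∧ y ∈ E2
  sup13 : ∀ x z, v.2.1 (x, z) ≠ 0 → x ∈ E1 ∧ z ∈ E3
  sup23 : ∀ y z, v.2.2 (y, z) ≠ 0 → y ∈ E2 ∧ z ∈ E3
  le12 : ∀ r, |v.1 r| ≤ |u.1 r|
  le13 : ∀ r, |v.2.1 r| ≤ |u.2.1 r|
  le23 : ∀ r, |v.2.2 r| ≤ |u.2.2 r|
  hgt12 : ∀ r, |v.1 r| ≤ rW A B C u ^ 2 * n2 (A ×ˢ B) u.1 / κ ^ 2
  hgt13 : ∀ r, |v.2.1 r| ≤ rW A B C u ^ 2 * n2 (A ×ˢ C) u.2.1 / κ ^ 2
  hgt23 : ∀ r, |v.2.2 r| ≤ rW A B C u ^ 2 * n2 (B ×ˢ C) u.2.2 / κ ^ 2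
  crd1 : κ ^ 2 * rW A B C u ^ 2 * E1.card ≤ 2 * A.card
  crd2 : κ ^ 2 * rW A B C u ^ 2 * E2.card ≤ 2 * B.card
  crd3 : κ ^ 2 * rW A B C u ^ 2 * E3.card ≤ 2 * C.card

section

variable {A B C : Finset ℤ} {e κ : ℝ} {R : ℤ × ℤ × ℤ → ℝ}

theorem vty_zero (u : Tri) :
    VTy κ A B C u (0, 0, 0) ∅ ∅ ∅ where
  sub1 := empty_subset _
  sub2 := empty_subset _
  sub3 := empty_subset _
  sup12 _ _ h := absurd rfl h
  sup13 _ _ h := absurd rfl h
  sup23 _ _ h := absurd rfl h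
  le12 r := by simp
  le13 r := by simp
  le23 r := by simp
  hgt12 r := by
    have := n2_nonneg (A ×ˢ B) u.1
    simp only [Pi.zero_apply, abs_zero]; positivity
  hgt13 r := by
    have := n2_nonneg (A ×ˢ C) u.2.1
    simp only [Pi.zero_apply, abs_zero]; positivity
  hgt23 r := by
    have := n2_nonneg (B ×ˢ C) u.2.2
    simp only [Pi.zero_apply, abs_zero]; positivity
  crd1 := by simp
  crd2 := by simp
  crd3 := by simp

theorem atm_zero (q : ℤ × ℤ × ℤ) : atm ((0, 0, 0) : Tri) q = 0 := by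
  unfold atm e12 e13 e23; simp

/-- `avg |R (f + g)| ≤ avg |R f| + avg |R g|` -/
theorem avg_abs_split {Q : Finset (ℤ × ℤ × ℤ)} {F f g : ℤ × ℤ × ℤ → ℝ}
    (h : ∀ q ∈ Q, |F q| ≤ |f q| + |g q|) :
    (avg Q fun q => |R q * F q|) ≤ (avg Q fun q => |R q * f q|) + avg Q fun q => |R q * g q| := by
  rw [← avg_add]
  refine avg_mono fun q hq => ?_
  rw [abs_mul, abs_mul, abs_mul, ← mul_add]
  exact mul_le_mul_of_nonneg_left (h q hq) (abs_nonneg _)

theorem n2_lowH (h : ℝ) (Q : Finset (ℤ × ℤ)) (d : ℤ × ℤ → ℝ) : n2 Q (lowH h d) ≤ n2 Q d :=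
  n2_mono fun r _ => abs_lowH_le h d r

theorem n4_lowH (h : ℝ) (Q : Finset (ℤ × ℤ)) (d : ℤ × ℤ → ℝ) : n4 Q (lowH h d) ≤ n4 Q d :=
  n4_mono fun r _ => abs_lowH_le h d r

/-- a tall part, real numbers -/
theorem tall_arith {f g s t w W κ T : ℝ} (hs : 0 < s) (hw : 0 ≤ w) (hW : 0 < W)
    (hκ : 0 < κ) (hf : 0 ≤ f) (hfs : κ * f ≤ W * s) (hfg : f * g ≤ W ^ 2 * (s * t))
    (hg : 0 ≤ g) (hT : W ^ 2 * s / κ ^ 2 * T ≤ f ^ 2) : T * g * w ≤ κ * (W * (s * t * w)) := by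
  have h1 : W ^ 2 * s * T ≤ κ ^ 2 * f ^ 2 := by
    have := mul_le_mul_of_nonneg_left hT (sq_nonneg κ)
    calc W ^ 2 * s * T = κ ^ 2 * (W ^ 2 * s / κ ^ 2 * T) := by field_simp
      _ ≤ _ := this
  have h2 : (W ^ 2 * s) * (T * g) ≤ (W ^ 2 * s) * (κ * (W * (s * t))) := by
    calc (W ^ 2 * s) * (T * g) = (W ^ 2 * s * T) * g := by ring
      _ ≤ (κ ^ 2 * f ^ 2) * g := mul_le_mul_of_nonneg_right h1 hg
      _ = κ * (κ * f) * (f * g) := by ring
      _ ≤ κ * (W * s) * (W ^ 2 * (s * t)) := by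
          refine mul_le_mul (mul_le_mul_of_nonneg_left hfs hκ.le) hfg (by positivity)
            (by positivity)
      _ = _ := by ring
  have h3 : T * g ≤ κ * (W * (s * t)) := le_of_mul_le_mul_left h2 (by positivity)
  calc T * g * w ≤ κ * (W * (s * t)) * w := mul_le_mul_of_nonneg_right h3 hw
    _ = _ := by ring

open Classical in
/-- the low energy part at one vertex -/
theorem low_vertex {X : Finset ℤ} {f g : ℤ → ℝ} {θ s t : ℝ} (hf : ∀ x, 0 ≤ f x)
    (hg : ∀ x, 0 ≤ g x) (hθ : 0 ≤ θ) (h1 : avg X f ≤ s ^ 2) (h2 : avg X g ≤ t ^ 2) :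
    (avg X fun x => if θ * s ^ 2 ≤ f x ∧ θ * t ^ 2 ≤ g x then 0 else f x * g x) ≤
      2 * θ * (s ^ 2 * t ^ 2) := by
  calc (avg X fun x => if θ * s ^ 2 ≤ f x ∧ θ * t ^ 2 ≤ g x then 0 else f x * g x)
      ≤ avg X fun x => (θ * s ^ 2) * g x + (θ * t ^ 2) * f x := by
        refine avg_mono fun x _ => ?_
        have k1 := hf x
        have k2 := hg x
        split_ifs with h
        · positivity
        · rcases not_and_or.1 h with h | h
          · have := mul_le_mul_of_nonneg_right (not_le.1 h).le k2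
            have h3 : 0 ≤ θ * t ^ 2 * f x := by positivity
            linarith
          · have := mul_le_mul_of_nonneg_left (not_le.1 h).le k1
            have h3 : 0 ≤ θ * s ^ 2 * g x := by positivity
            linarith
    _ = (θ * s ^ 2) * avg X g + (θ * t ^ 2) * avg X f := by
        rw [avg_add, avg_mul_left, avg_mul_left]
    _ ≤ (θ * s ^ 2) * t ^ 2 + (θ * t ^ 2) * s ^ 2 := by
        refine add_le_add ?_ ?_
        · exact mul_le_mul_of_nonneg_left h2 (by positivity)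
        · exact mul_le_mul_of_nonneg_left h1 (by positivity)
    _ = _ := by ring

open Classical in
theorem card_vertex {X : Finset ℤ} {f g : ℤ → ℝ} {θ s t : ℝ} (hf : ∀ x, 0 ≤ f x)
    (hs : 0 < s) (h1 : avg X f ≤ s ^ 2) :
    θ * ((X.filter fun x => θ * s ^ 2 ≤ f x ∧ θ * t ^ 2 ≤ g x).card : ℝ) ≤ X.card := by
  set E := X.filter fun x => θ * s ^ 2 ≤ f x ∧ θ * t ^ 2 ≤ g x
  have h2 : (θ * s ^ 2) * (E.card : ℝ) ≤ ∑ x ∈ X, f x := by
    calc (θ * s ^ 2) * (E.card : ℝ) = ∑ x ∈ E, θ * s ^ 2 := by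
          rw [sum_const, nsmul_eq_mul]; ring
      _ ≤ ∑ x ∈ E, f x := sum_le_sum fun x hx => (mem_filter.1 hx).2.1
      _ ≤ _ := sum_le_sum_of_subset_of_nonneg (filter_subset _ _) fun x _ _ => hf x
  have h3 : ∑ x ∈ X, f x = X.card * avg X f := by
    rcases X.eq_empty_or_nonempty with rfl | hX
    · simp
    · have : (X.card : ℝ) ≠ 0 := by exact_mod_cast hX.card_pos.ne'
      unfold avg; field_simp
  rw [h3] at h2
  have h4 : s ^ 2 * (θ * (E.card : ℝ)) ≤ s ^ 2 * X.card := by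
    calc s ^ 2 * (θ * (E.card : ℝ)) = (θ * s ^ 2) * (E.card : ℝ) := by ring
      _ ≤ X.card * avg X f := h2
      _ ≤ X.card * s ^ 2 := mul_le_mul_of_nonneg_left h1 (Nat.cast_nonneg _)
      _ = _ := mul_comm _ _
  exact le_of_mul_le_mul_left h4 (by positivity)

theorem avg_zero_le {Q : Finset (ℤ × ℤ × ℤ)} {v : Tri} {M : ℝ} (hv : ∀ q, atm v q = 0)
    (u : Tri) (h : (avg Q fun q => |R q * atm u q|) ≤ M) :
    (avg Q fun q => |R q * (atm u q - atm v q)|) ≤ M := by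
  refine (le_of_eq (avg_congr fun q _ => ?_)).trans h
  rw [hv, sub_zero]

theorem vertex_bound {T S M κ' : ℝ} (hT : 0 ≤ T) (hM : 0 ≤ M)
    (h : T ^ 2 ≤ e * S) (he : 0 ≤ e) (hS : S ≤ (κ' * M) ^ 2) (hκ' : 0 ≤ κ') :
    T ≤ κ' * √e * M := by
  refine (pow_le_pow_iff_left₀ hT (by positivity) (n := 2) (by norm_num)).1 (h.trans ?_)
  calc e * S ≤ e * (κ' * M) ^ 2 := mul_le_mul_of_nonneg_left hS he
    _ = (κ' * √e * M) ^ 2 := by
        rw [show (κ' * √e * M) ^ 2 = √e ^ 2 * (κ' * M) ^ 2 by ring, Real.sq_sqrt he]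

/-- **Every atom is of vertex type up to an error `6 κ √e pwB`.** -/
theorem vt (hκ : 0 < κ) (u : Tri) : ∃ (v : Tri) (E1 E2 E3 : Finset ℤ),
    VTy κ A B C u v E1 E2 E3 ∧ ∀ (e : ℝ) (R : ℤ × ℤ × ℤ → ℝ), 0 ≤ e → LineB e A B C R →
      (avg (A ×ˢ B ×ˢ C) fun q => |R q * (atm u q - atm v q)|) ≤
        6 * κ * √e * pwB A B C u := by
  classical
  set s1 := n2 (A ×ˢ B) u.1 with hs1
  set s2 := n2 (A ×ˢ C) u.2.1 with hs2
  set s3' := n2 (B ×ˢ C) u.2.2 with hs3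
  set f1 := n4 (A ×ˢ B) u.1 with hf1
  set f2 := n4 (A ×ˢ C) u.2.1 with hf2
  set f3 := n4 (B ×ˢ C) u.2.2 with hf3
  have p1 : 0 ≤ s1 := n2_nonneg _ _
  have p2 : 0 ≤ s2 := n2_nonneg _ _
  have p3 : 0 ≤ s3' := n2_nonneg _ _
  have g1 : 0 ≤ f1 := n4_nonneg _ _
  have g2 : 0 ≤ f2 := n4_nonneg _ _
  have g3 : 0 ≤ f3 := n4_nonneg _ _
  have hp := pwB_nonneg (A := A) (B := B) (C := C) u
  -- one of the edges vanishes
  by_cases hdeg : s1 = 0 ∨ s2 = 0 ∨ s3' = 0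
  · refine ⟨(0, 0, 0), ∅, ∅, ∅, vty_zero u, fun e R he hL => ?_⟩
    refine avg_zero_le atm_zero u ?_
    have hr : 0 ≤ 6 * κ * √e * pwB A B C u := by positivity
    refine le_trans ?_ hr
    rcases hdeg with h | h | h
    · have := l1_13 he hL u
      rw [← hs1, h, zero_mul, zero_mul, mul_zero] at this
      exact this
    · have := l1_12 he hL u
      rw [← hs2, h, mul_zero, zero_mul, mul_zero] at this
      exact this
    · have := l1_12 he hL u
      rw [← hs3, h, mul_zero, mul_zero] at this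
      exact this
  have q1 : 0 < s1 := lt_of_le_of_ne p1 fun h => hdeg (Or.inl h.symm)
  have q2 : 0 < s2 := lt_of_le_of_ne p2 fun h => hdeg (Or.inr (Or.inl h.symm))
  have q3 : 0 < s3' := lt_of_le_of_ne p3 fun h => hdeg (Or.inr (Or.inr h.symm))
  set W := rW A B C u with hW
  have hS : s3 A B C u = s1 * s2 * s3' := rfl
  have hWS : W * (s1 * s2 * s3') = pwB A B C u := by
    rw [← hS]; exact rW_mul (by rw [hS]; positivity)
  obtain ⟨c12, c13, c23⟩ := prod_le (A := A) (B := B) (C := C) q1 q2 q3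
  rw [← hs1, ← hs2, ← hf1, ← hf2, ← hW] at c12
  rw [← hs1, ← hs3, ← hf1, ← hf3, ← hW] at c13
  rw [← hs2, ← hs3, ← hf2, ← hf3, ← hW] at c23
  have hW0 : 0 < W := by
    have h1 : 0 < f1 := lt_of_lt_of_le q1 (n2_le_n4 _ _)
    have h2 : 0 < f2 := lt_of_lt_of_le q2 (n2_le_n4 _ _)
    have h3 : 0 < W ^ 2 * (s1 * s2) := lt_of_lt_of_le (mul_pos h1 h2) c12
    have h4 : 0 ≤ W := rW_nonneg u
    refine lt_of_le_of_ne h4 fun h => ?_
    rw [← h] at h3
    simp at h3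
  -- the unbalanced case
  have unb : ∀ {f g s t : ℝ}, 0 < s → 0 ≤ g → W * s < κ * f → f * g ≤ W ^ 2 * (s * t) →
      g ≤ κ * W * t := by
    intro f g s t hs hg hlt hfg
    have h1 : (W * s) * g ≤ (W * s) * (κ * W * t) := by
      calc (W * s) * g ≤ (κ * f) * g := mul_le_mul_of_nonneg_right hlt.le hg
        _ = κ * (f * g) := by ring
        _ ≤ κ * (W ^ 2 * (s * t)) := mul_le_mul_of_nonneg_left hfg hκ.le
        _ = _ := by ring
    exact le_of_mul_le_mul_left h1 (by positivity)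
  by_cases hun : W * s1 < κ * f1 ∨ W * s2 < κ * f2 ∨ W * s3' < κ * f3
  · refine ⟨(0, 0, 0), ∅, ∅, ∅, vty_zero u, fun e R he hL => ?_⟩
    refine avg_zero_le atm_zero u ?_
    have key : (avg (A ×ˢ B ×ˢ C) fun q => |R q * atm u q|) ≤ √e * (κ * (W * (s1 * s2 * s3'))) := by
      rcases hun with h | h | h
      · refine (l1_13 he hL u).trans (mul_le_mul_of_nonneg_left ?_ (Real.sqrt_nonneg _))
        calc s1 * f2 * s3' ≤ s1 * (κ * W * s2) * s3' := by
              have := unb q1 g2 h c12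
              gcongr
          _ = _ := by ring
      · refine (l1_12 he hL u).trans (mul_le_mul_of_nonneg_left ?_ (Real.sqrt_nonneg _))
        calc f1 * s2 * s3' ≤ (κ * W * s1) * s2 * s3' := by
              have := unb q2 g1 h (by rw [mul_comm, mul_comm s2]; exact c12)
              gcongr
          _ = _ := by ring
      · refine (l1_12 he hL u).trans (mul_le_mul_of_nonneg_left ?_ (Real.sqrt_nonneg _))
        calc f1 * s2 * s3' ≤ (κ * W * s1) * s2 * s3' := by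
              have := unb q3 g1 h (by rw [mul_comm, mul_comm s3']; exact c13)
              gcongr
          _ = _ := by ring
    refine key.trans ?_
    rw [hWS]
    have : 0 ≤ κ * √e * pwB A B C u := by positivity
    linarith
  -- the main case
  have hb1 : κ * f1 ≤ W * s1 := not_lt.1 fun h => hun (Or.inl h)
  have hb2 : κ * f2 ≤ W * s2 := not_lt.1 fun h => hun (Or.inr (Or.inl h))
  have hb3 : κ * f3 ≤ W * s3' := not_lt.1 fun h => hun (Or.inr (Or.inr h))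
  set h1 := W ^ 2 * s1 / κ ^ 2 with hh1
  set h2 := W ^ 2 * s2 / κ ^ 2 with hh2
  set h3 := W ^ 2 * s3' / κ ^ 2 with hh3
  have r1 : 0 < h1 := by positivity
  have r2 : 0 < h2 := by positivity
  have r3 : 0 < h3 := by positivity
  set a := lowH h1 u.1 with ha
  set b := lowH h2 u.2.1 with hb
  set c := lowH h3 u.2.2 with hc
  set θ := κ ^ 2 * W ^ 2 / 2 with hθ
  have hθ0 : 0 ≤ θ := by positivity
  set E1 := A.filter fun x => θ * s1 ^ 2 ≤ rwE B a x ∧ θ * s2 ^ 2 ≤ rwE C b x with hE1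
  set E2 := B.filter fun x => θ * s1 ^ 2 ≤ clE A a x ∧ θ * s3' ^ 2 ≤ rwE C c x with hE2
  set E3 := C.filter fun x => θ * s2 ^ 2 ≤ clE A b x ∧ θ * s3' ^ 2 ≤ clE B c x with hE3
  have na : n2 (A ×ˢ B) a ≤ s1 := n2_lowH _ _ _
  have nb : n2 (A ×ˢ C) b ≤ s2 := n2_lowH _ _ _
  have nc : n2 (B ×ˢ C) c ≤ s3' := n2_lowH _ _ _
  have na2 : n2 (A ×ˢ B) a ^ 2 ≤ s1 ^ 2 := pow_le_pow_left₀ (n2_nonneg _ _) na 2
  have nb2 : n2 (A ×ˢ C) b ^ 2 ≤ s2 ^ 2 := pow_le_pow_left₀ (n2_nonneg _ _) nb 2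
  have nc2 : n2 (B ×ˢ C) c ^ 2 ≤ s3' ^ 2 := pow_le_pow_left₀ (n2_nonneg _ _) nc 2
  refine ⟨rs3 E1 E2 E3 (a, b, c), E1, E2, E3, ?_, ?_⟩
  · refine ⟨filter_subset _ _, filter_subset _ _, filter_subset _ _, fun x y h => rst_ne h,
      fun x y h => rst_ne h, fun x y h => rst_ne h, fun r => ?_, fun r => ?_, fun r => ?_,
      fun r => ?_, fun r => ?_, fun r => ?_, ?_, ?_, ?_⟩
    · exact (abs_rst_le _ _ _ r).trans (abs_lowH_le _ _ r)
    · exact (abs_rst_le _ _ _ r).trans (abs_lowH_le _ _ r)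
    · exact (abs_rst_le _ _ _ r).trans (abs_lowH_le _ _ r)
    · exact (abs_rst_le _ _ _ r).trans (abs_lowH_le' r1.le _ r)
    · exact (abs_rst_le _ _ _ r).trans (abs_lowH_le' r2.le _ r)
    · exact (abs_rst_le _ _ _ r).trans (abs_lowH_le' r3.le _ r)
    · have h := card_vertex (X := A) (f := rwE B a) (g := rwE C b) (θ := θ) (s := s1) (t := s2)
        (rwE_nonneg _ _) q1 (by rw [avg_rwE]; exact na2)
      calc κ ^ 2 * W ^ 2 * (E1.card : ℝ) = 2 * (θ * E1.card) := by rw [hθ]; ring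
        _ ≤ 2 * A.card := by gcongr
    · have h := card_vertex (X := B) (f := clE A a) (g := rwE C c) (θ := θ) (s := s1) (t := s3')
        (clE_nonneg _ _) q1 (by rw [avg_clE]; exact na2)
      calc κ ^ 2 * W ^ 2 * (E2.card : ℝ) = 2 * (θ * E2.card) := by rw [hθ]; ring
        _ ≤ 2 * B.card := by gcongr
    · have h := card_vertex (X := C) (f := clE A b) (g := clE B c) (θ := θ) (s := s2) (t := s3')
        (clE_nonneg _ _) q2 (by rw [avg_clE]; exact nb2)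
      calc κ ^ 2 * W ^ 2 * (E3.card : ℝ) = 2 * (θ * E3.card) := by rw [hθ]; ring
        _ ≤ 2 * C.card := by gcongr
  intro e R he hL
  have hse : 0 ≤ √e := Real.sqrt_nonneg _
  set M := s1 * s2 * s3' with hM
  have hM0 : 0 < M := by positivity
  -- three tall parts
  have t1 : (avg (A ×ˢ B ×ˢ C) fun q => |R q * atm (tallH h1 u.1, u.2.1, u.2.2) q|) ≤
      κ * √e * (W * M) := by
    refine (l1_13 he hL _).trans ?_
    have := tall_arith (T := n2 (A ×ˢ B) (tallH h1 u.1)) (w := s3') q1 q3.le hW0 hκ g1 hb1 c12 g2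
      (tall_n2 r1 _ _)
    calc _ ≤ √e * (κ * (W * (s1 * s2 * s3'))) := mul_le_mul_of_nonneg_left this hse
      _ = _ := by rw [hM]; ring
  have t2 : (avg (A ×ˢ B ×ˢ C) fun q => |R q * atm (a, tallH h2 u.2.1, u.2.2) q|) ≤
      κ * √e * (W * M) := by
    refine (l1_23 he hL _).trans ?_
    have := tall_arith (T := n2 (A ×ˢ C) (tallH h2 u.2.1)) (w := s1) q2 q1.le hW0 hκ g2 hb2 c23 g3
      (tall_n2 r2 _ _)
    calc _ ≤ √e * (s1 * n2 (A ×ˢ C) (tallH h2 u.2.1) * f3) := by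
          refine mul_le_mul_of_nonneg_left ?_ hse
          exact mul_le_mul_of_nonneg_right (mul_le_mul_of_nonneg_right na (n2_nonneg _ _)) g3
      _ = √e * (n2 (A ×ˢ C) (tallH h2 u.2.1) * f3 * s1) := by ring
      _ ≤ √e * (κ * (W * (s2 * s3' * s1))) := mul_le_mul_of_nonneg_left this hse
      _ = _ := by rw [hM]; ring
  have t3 : (avg (A ×ˢ B ×ˢ C) fun q => |R q * atm (a, b, tallH h3 u.2.2) q|) ≤
      κ * √e * (W * M) := by
    refine (l1_13 he hL _).trans ?_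
    have := tall_arith (T := n2 (B ×ˢ C) (tallH h3 u.2.2)) (w := s1) q3 q1.le hW0 hκ g3 hb3
      (by rw [mul_comm, mul_comm s3']; exact c23) g2 (tall_n2 r3 _ _)
    calc _ ≤ √e * (s1 * f2 * n2 (B ×ˢ C) (tallH h3 u.2.2)) := by
          refine mul_le_mul_of_nonneg_left ?_ hse
          refine mul_le_mul_of_nonneg_right ?_ (n2_nonneg _ _)
          exact mul_le_mul na (n4_lowH _ _ _) (n4_nonneg _ _) p1
      _ = √e * (n2 (B ×ˢ C) (tallH h3 u.2.2) * f2 * s1) := by ring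
      _ ≤ √e * (κ * (W * (s3' * s2 * s1))) := mul_le_mul_of_nonneg_left this hse
      _ = _ := by rw [hM]; ring
  -- three vertices
  have v1 : (avg (A ×ˢ B ×ˢ C) fun q => |R q * ((1 - ind E1 q.1) * atm (a, b, c) q)|) ≤
      κ * √e * (W * M) := by
    set a0 : ℤ × ℤ → ℝ := fun r => (1 - ind E1 r.1) * a r with ha0
    have h0 : (avg (A ×ˢ B ×ˢ C) fun q => |R q * ((1 - ind E1 q.1) * atm (a, b, c) q)|) =
        avg (A ×ˢ B ×ˢ C) fun q => |R q * atm (a0, b, c) q| := by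
      refine avg_congr fun q _ => ?_
      unfold atm e12 e13 e23
      simp only [ha0]
      ring_nf
    rw [h0]
    refine vertex_bound (avg_nonneg fun _ _ => abs_nonneg _) (by positivity)
      ((l2_x he hL (a0, b, c)).trans (le_of_eq (mul_assoc _ _ _))) he ?_ hκ.le
    simp only
    have k1 : (avg A fun x => rwE B a0 x * rwE C b x) ≤ 2 * θ * (s1 ^ 2 * s2 ^ 2) := by
      refine le_trans (avg_mono fun x hx => ?_) (low_vertex (X := A) (f := rwE B a)
        (g := rwE C b) (rwE_nonneg _ _) (rwE_nonneg _ _) hθ0 (by rw [avg_rwE]; exact na2)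
        (by rw [avg_rwE]; exact nb2))
      by_cases hx1 : x ∈ E1
      · have : rwE B a0 x = 0 := by
          unfold rwE avg
          rw [sum_eq_zero fun y _ => ?_, mul_zero]
          simp [ha0, ind_mem hx1]
        rw [this, zero_mul]
        have := rwE_nonneg B a x
        have := rwE_nonneg C b x
        split_ifs <;> positivity
      · have h1 : rwE B a0 x = rwE B a x := by
          unfold rwE
          refine avg_congr fun y _ => ?_
          simp [ha0, ind_not hx1]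
        have h2 : ¬ (θ * s1 ^ 2 ≤ rwE B a x ∧ θ * s2 ^ 2 ≤ rwE C b x) := fun h =>
          hx1 (mem_filter.2 ⟨hx, h⟩)
        rw [h1, if_neg h2]
    calc n2 (B ×ˢ C) c ^ 2 * (avg A fun x => rwE B a0 x * rwE C b x)
        ≤ s3' ^ 2 * (2 * θ * (s1 ^ 2 * s2 ^ 2)) := by
          refine mul_le_mul nc2 k1 ?_ (by positivity)
          exact avg_nonneg fun _ _ => mul_nonneg (rwE_nonneg _ _ _) (rwE_nonneg _ _ _)
      _ = (κ * (W * M)) ^ 2 := by rw [hθ, hM]; ring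
  have v2 : (avg (A ×ˢ B ×ˢ C) fun q => |R q * ((1 - ind E2 q.2.1) * atm (a, b, c) q)|) ≤
      κ * √e * (W * M) := by
    set a0 : ℤ × ℤ → ℝ := fun r => (1 - ind E2 r.2) * a r with ha0
    have h0 : (avg (A ×ˢ B ×ˢ C) fun q => |R q * ((1 - ind E2 q.2.1) * atm (a, b, c) q)|) =
        avg (A ×ˢ B ×ˢ C) fun q => |R q * atm (a0, b, c) q| := by
      refine avg_congr fun q _ => ?_
      unfold atm e12 e13 e23
      simp only [ha0]
      ring_nf
    rw [h0]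
    refine vertex_bound (avg_nonneg fun _ _ => abs_nonneg _) (by positivity)
      ((l2_y he hL (a0, b, c)).trans (le_of_eq (mul_assoc _ _ _))) he ?_ hκ.le
    simp only
    have k1 : (avg B fun x => clE A a0 x * rwE C c x) ≤ 2 * θ * (s1 ^ 2 * s3' ^ 2) := by
      refine le_trans (avg_mono fun x hx => ?_) (low_vertex (X := B) (f := clE A a)
        (g := rwE C c) (clE_nonneg _ _) (rwE_nonneg _ _) hθ0 (by rw [avg_clE]; exact na2)
        (by rw [avg_rwE]; exact nc2))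
      by_cases hx1 : x ∈ E2
      · have : clE A a0 x = 0 := by
          unfold clE avg
          rw [sum_eq_zero fun y _ => ?_, mul_zero]
          simp [ha0, ind_mem hx1]
        rw [this, zero_mul]
        have := clE_nonneg A a x
        have := rwE_nonneg C c x
        split_ifs <;> positivity
      · have h1 : clE A a0 x = clE A a x := by
          unfold clE
          refine avg_congr fun y _ => ?_
          simp [ha0, ind_not hx1]
        have h2 : ¬ (θ * s1 ^ 2 ≤ clE A a x ∧ θ * s3' ^ 2 ≤ rwE C c x) := fun h =>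
          hx1 (mem_filter.2 ⟨hx, h⟩)
        rw [h1, if_neg h2]
    calc n2 (A ×ˢ C) b ^ 2 * (avg B fun x => clE A a0 x * rwE C c x)
        ≤ s2 ^ 2 * (2 * θ * (s1 ^ 2 * s3' ^ 2)) := by
          refine mul_le_mul nb2 k1 ?_ (by positivity)
          exact avg_nonneg fun _ _ => mul_nonneg (clE_nonneg _ _ _) (rwE_nonneg _ _ _)
      _ = (κ * (W * M)) ^ 2 := by rw [hθ, hM]; ring
  have v3 : (avg (A ×ˢ B ×ˢ C) fun q => |R q * ((1 - ind E3 q.2.2) * atm (a, b, c) q)|) ≤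
      κ * √e * (W * M) := by
    set b0 : ℤ × ℤ → ℝ := fun r => (1 - ind E3 r.2) * b r with hb0
    have h0 : (avg (A ×ˢ B ×ˢ C) fun q => |R q * ((1 - ind E3 q.2.2) * atm (a, b, c) q)|) =
        avg (A ×ˢ B ×ˢ C) fun q => |R q * atm (a, b0, c) q| := by
      refine avg_congr fun q _ => ?_
      unfold atm e12 e13 e23
      simp only [hb0]
      ring_nf
    rw [h0]
    refine vertex_bound (avg_nonneg fun _ _ => abs_nonneg _) (by positivity)
      ((l2_z he hL (a, b0, c)).trans (le_of_eq (mul_assoc _ _ _))) he ?_ hκ.le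
    simp only
    have k1 : (avg C fun x => clE A b0 x * clE B c x) ≤ 2 * θ * (s2 ^ 2 * s3' ^ 2) := by
      refine le_trans (avg_mono fun x hx => ?_) (low_vertex (X := C) (f := clE A b)
        (g := clE B c) (clE_nonneg _ _) (clE_nonneg _ _) hθ0 (by rw [avg_clE]; exact nb2)
        (by rw [avg_clE]; exact nc2))
      by_cases hx1 : x ∈ E3
      · have : clE A b0 x = 0 := by
          unfold clE avg
          rw [sum_eq_zero fun y _ => ?_, mul_zero]
          simp [hb0, ind_mem hx1]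
        rw [this, zero_mul]
        have := clE_nonneg A b x
        have := clE_nonneg B c x
        split_ifs <;> positivity
      · have h1 : clE A b0 x = clE A b x := by
          unfold clE
          refine avg_congr fun y _ => ?_
          simp [hb0, ind_not hx1]
        have h2 : ¬ (θ * s2 ^ 2 ≤ clE A b x ∧ θ * s3' ^ 2 ≤ clE B c x) := fun h =>
          hx1 (mem_filter.2 ⟨hx, h⟩)
        rw [h1, if_neg h2]
    calc n2 (A ×ˢ B) a ^ 2 * (avg C fun x => clE A b0 x * clE B c x)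
        ≤ s1 ^ 2 * (2 * θ * (s2 ^ 2 * s3' ^ 2)) := by
          refine mul_le_mul na2 k1 ?_ (by positivity)
          exact avg_nonneg fun _ _ => mul_nonneg (clE_nonneg _ _ _) (clE_nonneg _ _ _)
      _ = (κ * (W * M)) ^ 2 := by rw [hθ, hM]; ring
  -- the sum of the six errors
  have split : ∀ q, |atm u q - atm (rs3 E1 E2 E3 (a, b, c)) q| ≤
      |atm (tallH h1 u.1, u.2.1, u.2.2) q| + |atm (a, tallH h2 u.2.1, u.2.2) q| +
        |atm (a, b, tallH h3 u.2.2) q| + |(1 - ind E1 q.1) * atm (a, b, c) q| +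
        |(1 - ind E2 q.2.1) * atm (a, b, c) q| + |(1 - ind E3 q.2.2) * atm (a, b, c) q| := by
    intro q
    have e0 : atm u q = atm (tallH h1 u.1, u.2.1, u.2.2) q + atm (a, tallH h2 u.2.1, u.2.2) q +
        atm (a, b, tallH h3 u.2.2) q + atm (a, b, c) q := by
      have k1 := lowH_add h1 u.1 (q.1, q.2.1)
      have k2 := lowH_add h2 u.2.1 (q.1, q.2.2)
      have k3 := lowH_add h3 u.2.2 (q.2.1, q.2.2)
      unfold atm e12 e13 e23
      simp only
      rw [ha, hb, hc]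
      set x1 := lowH h1 u.1 (q.1, q.2.1)
      set x2 := lowH h2 u.2.1 (q.1, q.2.2)
      set x3 := lowH h3 u.2.2 (q.2.1, q.2.2)
      rw [k1, k2, k3]
      ring
    have e1 : atm (a, b, c) q - atm (rs3 E1 E2 E3 (a, b, c)) q =
        (1 - ind E1 q.1 * ind E2 q.2.1 * ind E3 q.2.2) * atm (a, b, c) q := by
      rw [atm_rs3]; ring
    have e2 : |(1 - ind E1 q.1 * ind E2 q.2.1 * ind E3 q.2.2) * atm (a, b, c) q| ≤
        |(1 - ind E1 q.1) * atm (a, b, c) q| + |(1 - ind E2 q.2.1) * atm (a, b, c) q| +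
          |(1 - ind E3 q.2.2) * atm (a, b, c) q| := by
      rw [abs_mul, abs_mul, abs_mul, abs_mul, ← add_mul, ← add_mul]
      refine mul_le_mul_of_nonneg_right ?_ (abs_nonneg _)
      by_cases x1 : q.1 ∈ E1 <;> by_cases x2 : q.2.1 ∈ E2 <;> by_cases x3 : q.2.2 ∈ E3 <;>
        simp [ind_mem, ind_not, x1, x2, x3]
    calc |atm u q - atm (rs3 E1 E2 E3 (a, b, c)) q|
        = |atm (tallH h1 u.1, u.2.1, u.2.2) q + atm (a, tallH h2 u.2.1, u.2.2) q +
            atm (a, b, tallH h3 u.2.2) q +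
            (atm (a, b, c) q - atm (rs3 E1 E2 E3 (a, b, c)) q)| := by rw [e0]; ring_nf
      _ ≤ |atm (tallH h1 u.1, u.2.1, u.2.2) q| + |atm (a, tallH h2 u.2.1, u.2.2) q| +
            |atm (a, b, tallH h3 u.2.2) q| +
            |atm (a, b, c) q - atm (rs3 E1 E2 E3 (a, b, c)) q| := by
          refine (abs_add_le _ _).trans (add_le_add ?_ le_rfl)
          refine (abs_add_le _ _).trans (add_le_add ?_ le_rfl)
          exact abs_add_le _ _
      _ ≤ _ := by rw [e1]; linarith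
  have fin : (avg (A ×ˢ B ×ˢ C) fun q => |R q * (atm u q - atm (rs3 E1 E2 E3 (a, b, c)) q)|) ≤
      (avg (A ×ˢ B ×ˢ C) fun q => |R q * atm (tallH h1 u.1, u.2.1, u.2.2) q|) +
      (avg (A ×ˢ B ×ˢ C) fun q => |R q * atm (a, tallH h2 u.2.1, u.2.2) q|) +
      (avg (A ×ˢ B ×ˢ C) fun q => |R q * atm (a, b, tallH h3 u.2.2) q|) +
      (avg (A ×ˢ B ×ˢ C) fun q => |R q * ((1 - ind E1 q.1) * atm (a, b, c) q)|) +
      (avg (A ×ˢ B ×ˢ C) fun q => |R q * ((1 - ind E2 q.2.1) * atm (a, b, c) q)|) +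
      avg (A ×ˢ B ×ˢ C) fun q => |R q * ((1 - ind E3 q.2.2) * atm (a, b, c) q)| := by
    rw [← avg_add, ← avg_add, ← avg_add, ← avg_add, ← avg_add]
    refine avg_mono fun q _ => ?_
    simp only [abs_mul (R q)]
    have := mul_le_mul_of_nonneg_left (split q) (abs_nonneg (R q))
    linarith
  refine fin.trans ?_
  rw [← hWS]
  calc _ ≤ κ * √e * (W * M) + κ * √e * (W * M) + κ * √e * (W * M) + κ * √e * (W * M) +
        κ * √e * (W * M) + κ * √e * (W * M) :=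
        add_le_add (add_le_add (add_le_add (add_le_add (add_le_add t1 t2) t3) v1) v2) v3
    _ = _ := by ring

end

end

end Vale.Agent.P141.H829
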