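import Vale.Agent.P141.H829.VT
import Vale.Agent.P141.H585.Box
import Vale.Agent.P141.H585.AliveJ

/-!
# P141, line W, end lemma: a stopped piece of a vertex-type atom is paid by its count

`dual_box`: the product `v` of edges of heights at most `H₁₂, H₁₃, H₂₃` on `E_i × E_j`, tested
against `R` with line averages of `R²` at most `e` on a box: `S² n_i ≤ e H² (n₁ n₂ n₃)² |J_i|`,
`n_i = |E_i ∩ J_i|`.

`so_sum`: for a vertex-type atom and pairwise disjoint boxes with a side which is not alive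
(`μ |J_i| < rW² n_i`), the sum over the boxes of `∑ |R v|` is at most
`8 κ⁻¹² μ^(-1/2) √e pwB |A||B||C|`.
-/

namespace Vale.Agent.P141.H829

noncomputable section

open scoped BigOperators
open Finset Vale.Agent.P141.PL.H315
open Vale.Agent.P141.H922 (n2 n4 nN n2_nonneg)
open Vale.Agent.P141.H834 (LineB)
open Vale.Agent.P141.H585 (Al count_box)

/-- a line average bound as a bound of a sum over a part of the line -/
theorem line_part {E J : Finset ℤ} {e : ℝ} {f : ℤ → ℝ} (h : (avg J fun x => f x ^ 2) ≤ e) :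
    (∑ x ∈ E ∩ J, |f x|) ^ 2 ≤ (E ∩ J).card * (e * J.card) := by
  have h1 : (∑ x ∈ E ∩ J, |f x|) ^ 2 ≤ (E ∩ J).card * ∑ x ∈ E ∩ J, f x ^ 2 := by
    have := sum_mul_sq_le_sq_mul_sq (E ∩ J) (fun _ => (1 : ℝ)) (fun x => |f x|)
    simpa only [one_mul, one_pow, sum_const, nsmul_eq_mul, mul_one, sq_abs] using this
  refine h1.trans (mul_le_mul_of_nonneg_left ?_ (Nat.cast_nonneg _))
  refine (sum_le_sum_of_subset_of_nonneg inter_subset_right fun _ _ _ => sq_nonneg _).trans ?_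
  rcases J.eq_empty_or_nonempty with rfl | hJ
  · simp
  · have hc : (0 : ℝ) < J.card := by exact_mod_cast hJ.card_pos
    unfold avg at h
    rw [inv_mul_le_iff₀ hc] at h
    linarith

section

variable {J1 J2 J3 E1 E2 E3 : Finset ℤ} {e : ℝ} {R : ℤ × ℤ × ℤ → ℝ}

/-- the sum over a part of a box of a function with bounded line averages, first direction -/
theorem part1 (hL : LineB e J1 J2 J3 R) :
    (∑ x ∈ E1 ∩ J1, ∑ y ∈ E2 ∩ J2, ∑ z ∈ E3 ∩ J3, |R (x, y, z)|) ≤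
      (E2 ∩ J2).card * (E3 ∩ J3).card * √((E1 ∩ J1).card * (e * J1.card)) := by
  have e0 : (∑ x ∈ E1 ∩ J1, ∑ y ∈ E2 ∩ J2, ∑ z ∈ E3 ∩ J3, |R (x, y, z)|) =
      ∑ y ∈ E2 ∩ J2, ∑ z ∈ E3 ∩ J3, ∑ x ∈ E1 ∩ J1, |R (x, y, z)| := by
    rw [sum_comm]
    exact sum_congr rfl fun y _ => sum_comm
  rw [e0]
  calc _ ≤ ∑ y ∈ E2 ∩ J2, ∑ z ∈ E3 ∩ J3, √((E1 ∩ J1).card * (e * J1.card)) := by
        refine sum_le_sum fun y hy => sum_le_sum fun z hz => ?_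
        refine Real.le_sqrt_of_sq_le ?_
        exact line_part (hL.l1 y (mem_inter.1 hy).2 z (mem_inter.1 hz).2)
    _ = _ := by rw [sum_const, sum_const, nsmul_eq_mul, nsmul_eq_mul]; ring

theorem part2 (hL : LineB e J1 J2 J3 R) :
    (∑ x ∈ E1 ∩ J1, ∑ y ∈ E2 ∩ J2, ∑ z ∈ E3 ∩ J3, |R (x, y, z)|) ≤
      (E1 ∩ J1).card * (E3 ∩ J3).card * √((E2 ∩ J2).card * (e * J2.card)) := by
  have e0 : (∑ x ∈ E1 ∩ J1, ∑ y ∈ E2 ∩ J2, ∑ z ∈ E3 ∩ J3, |R (x, y, z)|) =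
      ∑ x ∈ E1 ∩ J1, ∑ z ∈ E3 ∩ J3, ∑ y ∈ E2 ∩ J2, |R (x, y, z)| :=
    sum_congr rfl fun x _ => sum_comm
  rw [e0]
  calc _ ≤ ∑ x ∈ E1 ∩ J1, ∑ z ∈ E3 ∩ J3, √((E2 ∩ J2).card * (e * J2.card)) := by
        refine sum_le_sum fun x hx => sum_le_sum fun z hz => ?_
        refine Real.le_sqrt_of_sq_le ?_
        exact line_part (hL.l2 x (mem_inter.1 hx).2 z (mem_inter.1 hz).2)
    _ = _ := by rw [sum_const, sum_const, nsmul_eq_mul, nsmul_eq_mul]; ring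

theorem part3 (hL : LineB e J1 J2 J3 R) :
    (∑ x ∈ E1 ∩ J1, ∑ y ∈ E2 ∩ J2, ∑ z ∈ E3 ∩ J3, |R (x, y, z)|) ≤
      (E1 ∩ J1).card * (E2 ∩ J2).card * √((E3 ∩ J3).card * (e * J3.card)) := by
  calc _ ≤ ∑ x ∈ E1 ∩ J1, ∑ y ∈ E2 ∩ J2, √((E3 ∩ J3).card * (e * J3.card)) := by
        refine sum_le_sum fun x hx => sum_le_sum fun y hy => ?_
        refine Real.le_sqrt_of_sq_le ?_
        exact line_part (hL.l3 x (mem_inter.1 hx).2 y (mem_inter.1 hy).2)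
    _ = _ := by rw [sum_const, sum_const, nsmul_eq_mul, nsmul_eq_mul]; ring

/-- a product carried by `E₁ × E₂ × E₃` with bounded edges -/
theorem part_atm {v : Tri} {h12 h13 h23 : ℝ} (sup12 : ∀ x y, v.1 (x, y) ≠ 0 → x ∈ E1 ∧ y ∈ E2)
    (sup23 : ∀ y z, v.2.2 (y, z) ≠ 0 → y ∈ E2 ∧ z ∈ E3) (b12 : ∀ r, |v.1 r| ≤ h12)
    (b13 : ∀ r, |v.2.1 r| ≤ h13) (b23 : ∀ r, |v.2.2 r| ≤ h23) :
    (∑ q ∈ J1 ×ˢ J2 ×ˢ J3, |R q * atm v q|) ≤ (h12 * h13 * h23) *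
      ∑ x ∈ E1 ∩ J1, ∑ y ∈ E2 ∩ J2, ∑ z ∈ E3 ∩ J3, |R (x, y, z)| := by
  have g12 : 0 ≤ h12 := (abs_nonneg _).trans (b12 (0, 0))
  have g13 : 0 ≤ h13 := (abs_nonneg _).trans (b13 (0, 0))
  have g23 : 0 ≤ h23 := (abs_nonneg _).trans (b23 (0, 0))
  rw [sum_product, mul_sum]
  simp only [sum_product, mul_sum]
  rw [← sum_subset (inter_subset_right : E1 ∩ J1 ⊆ J1)]
  · refine sum_le_sum fun x _ => ?_
    rw [← sum_subset (inter_subset_right : E2 ∩ J2 ⊆ J2)]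
    · refine sum_le_sum fun y _ => ?_
      rw [← sum_subset (inter_subset_right : E3 ∩ J3 ⊆ J3)]
      · refine sum_le_sum fun z _ => ?_
        rw [abs_mul, mul_comm]
        refine mul_le_mul_of_nonneg_right ?_ (abs_nonneg _)
        unfold atm e12 e13 e23
        simp only
        rw [abs_mul, abs_mul]
        exact mul_le_mul (mul_le_mul (b12 _) (b13 _) (abs_nonneg _) g12) (b23 _) (abs_nonneg _)
          (mul_nonneg g12 g13)
      · intro z hz hn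
        have h0 : v.2.2 (y, z) = 0 := by
          by_contra h; exact hn (mem_inter.2 ⟨(sup23 y z h).2, hz⟩)
        unfold atm e12 e13 e23
        simp [h0]
    · intro y hy hn
      refine sum_eq_zero fun z _ => ?_
      have h0 : v.2.2 (y, z) = 0 := by
        by_contra h; exact hn (mem_inter.2 ⟨(sup23 y z h).1, hy⟩)
      unfold atm e12 e13 e23
      simp [h0]
  · intro x hx hn
    refine sum_eq_zero fun y _ => sum_eq_zero fun z _ => ?_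
    have h0 : v.1 (x, y) = 0 := by
      by_contra h; exact hn (mem_inter.2 ⟨(sup12 x y h).1, hx⟩)
    unfold atm e12 e13 e23
    simp [h0]

/-- one dead side -/
theorem dead_arith {n m p J W μ H S e : ℝ} (hn : 0 ≤ n) (hm : 0 ≤ m) (hp : 0 ≤ p)
    (hW : 0 ≤ W) (hμ : 0 < μ) (hH : 0 ≤ H) (he : 0 ≤ e) (hd : μ * J < W ^ 2 * n)
    (hS : S ≤ H * (m * p * √(n * (e * J)))) :
    √μ * S ≤ √e * H * W * (n * m * p) := by
  have h1 : √μ * √(n * (e * J)) ≤ √e * W * n := by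
    rw [← Real.sqrt_mul hμ.le]
    refine Real.sqrt_le_iff.2 ⟨by positivity, ?_⟩
    rw [mul_pow, mul_pow, Real.sq_sqrt he]
    calc μ * (n * (e * J)) = (e * n) * (μ * J) := by ring
      _ ≤ (e * n) * (W ^ 2 * n) := mul_le_mul_of_nonneg_left hd.le (by positivity)
      _ = _ := by ring
  calc √μ * S ≤ √μ * (H * (m * p * √(n * (e * J)))) :=
        mul_le_mul_of_nonneg_left hS (Real.sqrt_nonneg _)
    _ = (H * (m * p)) * (√μ * √(n * (e * J))) := by ring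
    _ ≤ (H * (m * p)) * (√e * W * n) := mul_le_mul_of_nonneg_left h1 (by positivity)
    _ = _ := by ring

/-- **One dead box.** -/
theorem dual_dead (he : 0 ≤ e) (hL : LineB e J1 J2 J3 R) {v : Tri} {h12 h13 h23 W μ : ℝ}
    (hW : 0 ≤ W) (hμ : 0 < μ)
    (sup12 : ∀ x y, v.1 (x, y) ≠ 0 → x ∈ E1 ∧ y ∈ E2)
    (sup23 : ∀ y z, v.2.2 (y, z) ≠ 0 → y ∈ E2 ∧ z ∈ E3) (b12 : ∀ r, |v.1 r| ≤ h12)
    (b13 : ∀ r, |v.2.1 r| ≤ h13) (b23 : ∀ r, |v.2.2 r| ≤ h23)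
    (hdead : ¬ (Al W μ E1 J1 ∧ Al W μ E2 J2 ∧ Al W μ E3 J3)) :
    √μ * (∑ q ∈ J1 ×ˢ J2 ×ˢ J3, |R q * atm v q|) ≤ √e * (h12 * h13 * h23) * W *
      ((E1 ∩ J1).card * (E2 ∩ J2).card * (E3 ∩ J3).card) := by
  have g12 : 0 ≤ h12 := (abs_nonneg _).trans (b12 (0, 0))
  have g13 : 0 ≤ h13 := (abs_nonneg _).trans (b13 (0, 0))
  have g23 : 0 ≤ h23 := (abs_nonneg _).trans (b23 (0, 0))
  have hH : 0 ≤ h12 * h13 * h23 := by positivity
  have key := part_atm (J1 := J1) (J2 := J2) (J3 := J3) (R := R) sup12 sup23 b12 b13 b23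
  have hd : ¬ Al W μ E1 J1 ∨ ¬ Al W μ E2 J2 ∨ ¬ Al W μ E3 J3 := by
    by_contra h; push Not at h; exact hdead h
  unfold Al at hd
  rcases hd with h | h | h
  · have := dead_arith (Nat.cast_nonneg _) (Nat.cast_nonneg _) (Nat.cast_nonneg _) hW hμ hH he
      (not_le.1 h) (key.trans (mul_le_mul_of_nonneg_left (part1 hL) hH))
    exact this
  · have := dead_arith (Nat.cast_nonneg _) (Nat.cast_nonneg _) (Nat.cast_nonneg _) hW hμ hH he
      (not_le.1 h) (key.trans (mul_le_mul_of_nonneg_left (part2 hL) hH))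
    refine this.trans (le_of_eq ?_)
    ring
  · have := dead_arith (Nat.cast_nonneg _) (Nat.cast_nonneg _) (Nat.cast_nonneg _) hW hμ hH he
      (not_le.1 h) (key.trans (mul_le_mul_of_nonneg_left (part3 hL) hH))
    refine this.trans (le_of_eq ?_)
    ring

end

/-- **Stopped pieces are paid by their count.** -/
theorem so_sum {ι : Type*} {A B C : Finset ℤ} {κ μ e : ℝ} {u v : Tri} {E1 E2 E3 : Finset ℤ}
    (hκ : 0 < κ) (hμ : 0 < μ) (he : 0 ≤ e) (hv : VTy κ A B C u v E1 E2 E3)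
    (QQ : Finset ι) (J1 J2 J3 : ι → Finset ℤ)
    (hd : ∀ i ∈ QQ, ∀ j ∈ QQ, i ≠ j →
      Disjoint (J1 i ×ˢ J2 i ×ˢ J3 i) (J1 j ×ˢ J2 j ×ˢ J3 j))
    (hdead : ∀ i ∈ QQ, ¬ (Al (rW A B C u) μ E1 (J1 i) ∧ Al (rW A B C u) μ E2 (J2 i) ∧
      Al (rW A B C u) μ E3 (J3 i)))
    (R : ι → ℤ × ℤ × ℤ → ℝ) (hL : ∀ i ∈ QQ, LineB e (J1 i) (J2 i) (J3 i) (R i)) :
    κ ^ 12 * √μ * ∑ i ∈ QQ, ∑ q ∈ J1 i ×ˢ J2 i ×ˢ J3 i, |R i q * atm v q| ≤
      8 * √e * (pwB A B C u * (A.card * B.card * C.card)) := by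
  set W := rW A B C u with hW
  have hW0 : 0 ≤ W := rW_nonneg u
  set s1 := n2 (A ×ˢ B) u.1
  set s2 := n2 (A ×ˢ C) u.2.1
  set s3' := n2 (B ×ˢ C) u.2.2
  have p1 : 0 ≤ s1 := n2_nonneg _ _
  have p2 : 0 ≤ s2 := n2_nonneg _ _
  have p3 : 0 ≤ s3' := n2_nonneg _ _
  set h12 := W ^ 2 * s1 / κ ^ 2 with hh12
  set h13 := W ^ 2 * s2 / κ ^ 2 with hh13
  set h23 := W ^ 2 * s3' / κ ^ 2 with hh23
  have k1 : √μ * ∑ i ∈ QQ, ∑ q ∈ J1 i ×ˢ J2 i ×ˢ J3 i, |R i q * atm v q| ≤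
      √e * (h12 * h13 * h23) * W * ((E1.card : ℝ) * E2.card * E3.card) := by
    rw [mul_sum]
    calc _ ≤ ∑ i ∈ QQ, √e * (h12 * h13 * h23) * W *
          (((E1 ∩ J1 i).card : ℝ) * (E2 ∩ J2 i).card * (E3 ∩ J3 i).card) :=
          sum_le_sum fun i hi => dual_dead he (hL i hi) hW0 hμ hv.sup12 hv.sup23 hv.hgt12
            hv.hgt13 hv.hgt23 (hdead i hi)
      _ = √e * (h12 * h13 * h23) * W *
          ∑ i ∈ QQ, (((E1 ∩ J1 i).card : ℝ) * (E2 ∩ J2 i).card * (E3 ∩ J3 i).card) := by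
          rw [mul_sum]
      _ ≤ _ := by
          refine mul_le_mul_of_nonneg_left (count_box QQ J1 J2 J3 hd E1 E2 E3) ?_
          positivity
  have hWS : W * (s1 * s2 * s3') ≤ pwB A B C u := by
    by_cases h : s3 A B C u = 0
    · have : W = 0 := by rw [hW]; unfold rW; rw [h, div_zero]
      rw [this, zero_mul]; exact pwB_nonneg u
    · exact (rW_mul h).le
  have c1 := hv.crd1
  have c2 := hv.crd2
  have c3 := hv.crd3
  rw [← hW] at c1 c2 c3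
  have kE : κ ^ 6 * W ^ 6 * ((E1.card : ℝ) * E2.card * E3.card) ≤
      8 * ((A.card : ℝ) * B.card * C.card) := by
    calc κ ^ 6 * W ^ 6 * ((E1.card : ℝ) * E2.card * E3.card)
        = (κ ^ 2 * W ^ 2 * (E1.card : ℝ)) * (κ ^ 2 * W ^ 2 * (E2.card : ℝ)) *
            (κ ^ 2 * W ^ 2 * (E3.card : ℝ)) := by
          ring
      _ ≤ (2 * (A.card : ℝ)) * (2 * (B.card : ℝ)) * (2 * (C.card : ℝ)) :=
          mul_le_mul (mul_le_mul c1 c2 (by positivity) (by positivity)) c3 (by positivity)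
            (by positivity)
      _ = _ := by ring
  calc κ ^ 12 * √μ * ∑ i ∈ QQ, ∑ q ∈ J1 i ×ˢ J2 i ×ˢ J3 i, |R i q * atm v q|
      = κ ^ 12 * (√μ * ∑ i ∈ QQ, ∑ q ∈ J1 i ×ˢ J2 i ×ˢ J3 i, |R i q * atm v q|) := by ring
    _ ≤ κ ^ 12 * (√e * (h12 * h13 * h23) * W * ((E1.card : ℝ) * E2.card * E3.card)) :=
        mul_le_mul_of_nonneg_left k1 (by positivity)
    _ = (√e * (W * (s1 * s2 * s3'))) *
          (κ ^ 6 * W ^ 6 * ((E1.card : ℝ) * E2.card * E3.card)) := by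
        rw [hh12, hh13, hh23]; field_simp
    _ ≤ (√e * (W * (s1 * s2 * s3'))) * (8 * ((A.card : ℝ) * B.card * C.card)) :=
        mul_le_mul_of_nonneg_left kE (by positivity)
    _ ≤ (√e * pwB A B C u) * (8 * ((A.card : ℝ) * B.card * C.card)) := by
        refine mul_le_mul_of_nonneg_right ?_ (by positivity)
        exact mul_le_mul_of_nonneg_left hWS (Real.sqrt_nonneg _)
    _ = _ := by ring

end

end Vale.Agent.P141.H829
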