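import Vale.Agent.P141.H829.PairCA
import Vale.Agent.P141.H747.FormsPM

/-!
# P141, line (A): the pair `(C~, A)` on the shifted grids, summed over `x0`

* `pwr_sh_lab` : masses of the affected squares of translated vector paths;
* `plane_pl` : the planes of the shifted grids are admissible;
* `RX_CA_sh` : `hCA` and `hZA` of `H581.stageY` for `FormsPM`, any levels.
-/

namespace Vale.Agent.P141.H829

open Finset Matrix
open Vale.Agent.P075 (Ix)
open Vale.Agent.P141.PL (Pt iv ix mem_iv ix_ix)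
open Vale.Agent.P141.PL.H588 (Pl)
open Vale.Agent.P141.PL.H804 (bx3 bl)
open Vale.Agent.P141.H736 (Path sqb sqQ)
open Vale.Agent.P141.H958
open Vale.Agent.P141.H338 (cu)
open Vale.Agent.P141.H581 (RX)
open Vale.Agent.P141.H795 (E8 ys)
open Vale.Agent.P141.H677 (rv)
open Vale.Agent.P141.H747 (sL sG gA gB gC sft shA shB shC)
open Vale.Agent.P141.H210 (shf rst Qsh Qr Qs PackS)

noncomputable section

open scoped Classical

/-! ### Masses of the affected squares -/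

/-- **Masses of the affected squares of translated label paths**, summed over `x0`. -/
theorem pwr_sh_lab {N : ℕ} {Qc : ℕ → Pt → Prop} {I : Finset ℤ} {A : ℤ → ℤ → ℕ → ℤ → ℤ → ℝ}
    {cP μ : ℝ} (hμ : 0 ≤ μ)
    (hP : ∀ x0 : ℤ, PackS N (fun k i j => k < N ∧ Qc k (ix k x0, i, j)) cP)
    (hb : ∀ k < N, ∀ q0 i j : ℤ,
      ∑ x0 ∈ iv k q0, ∑ l ∈ I, sqb k i j (A l x0 (k + 1)) ≤ 8 ^ k * μ)
    (a b t0 R' S' : ℤ) :
    ∑ x0 ∈ iv N t0, ∑ l ∈ I, pwr N R' S' (Qsh a b fun k i j => Qc k (ix k x0, i, j))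
      (shf a b (A l x0)) ≤ 64 * cP * μ * 8 ^ N := by
  have e1 : ∀ x0 ∈ iv N t0, ∑ l ∈ I, pwr N R' S' (Qsh a b fun k i j => Qc k (ix k x0, i, j))
      (shf a b (A l x0)) = ∑ k ∈ range N, ∑ m ∈ iv (N - k) S', ∑ n ∈ iv (N - k) R',
        (if Qs a b Qc k (ix k x0, n, m) then ∑ l ∈ I, sqb k n m (shf a b (A l x0) (k + 1))
          else 0) := by
    intro x0 _
    unfold H958.pwr H736.sqQ
    rw [sum_comm]
    refine sum_congr rfl fun k _ => ?_
    rw [sum_comm]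
    refine sum_congr rfl fun m _ => ?_
    rw [sum_comm]
    refine sum_congr rfl fun n _ => ?_
    by_cases hq : Qs a b Qc k (ix k x0, n, m)
    · rw [if_pos hq]
      exact sum_congr rfl fun l _ => if_pos hq
    · rw [if_neg hq]
      exact sum_eq_zero fun l _ => if_neg hq
  rw [sum_congr rfl e1]
  refine (H769.slice_sum (K := N) (t0 := t0) (R := R') (S := S') (c := 16 * cP) (μ := 4 * μ)
    (Q := Qs a b Qc) (T := fun x0 k n m => ∑ l ∈ I, sqb k n m (shf a b (A l x0) (k + 1)))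
    (by positivity) (fun k hk q0 n m => ?_)
    (H210.pack_slice hP a b R' S')).trans (le_of_eq (by ring))
  have h1 : ∀ x0 ∈ iv k q0, ∑ l ∈ I, sqb k n m (shf a b (A l x0) (k + 1)) ≤
      ∑ l ∈ I, ∑ i ∈ H210.two (n + ix k a), ∑ j ∈ H210.two (m + ix k b),
        sqb k i j (A l x0 (k + 1)) :=
    fun x0 _ => sum_le_sum fun l _ => H210.sqb_sh k a b (A l x0 (k + 1)) n m
  refine (sum_le_sum h1).trans ?_
  simp only [H210.sum_two, sum_add_distrib]
  have g1 := hb k hk q0 (n + ix k a) (m + ix k b)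
  have g2 := hb k hk q0 (n + ix k a) (m + ix k b + 1)
  have g3 := hb k hk q0 (n + ix k a + 1) (m + ix k b)
  have g4 := hb k hk q0 (n + ix k a + 1) (m + ix k b + 1)
  linarith

/-- the label functions of a translated, cut vector function -/
theorem cu_sft {κ : Type*} [Fintype κ] (e : κ → ℤ) (N : ℕ) (R S a b : ℤ) (C : ℕ → ℤ → ℤ → κ → ℝ)
    (l : ℤ) : (fun k z x => cu e (sft N R S a b (C k) z x) l) =
      shf a b (rst N R S fun k z x => cu e (C k z x) l) := by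
  funext k z x
  unfold H747.sft H210.shf H210.rst
  split_ifs
  · rfl
  · exact cu_zero' l

/-! ### The planes -/

/-- the planes of a shifted grid are admissible -/
theorem plane_pl (y j : ℤ) (hj : j ∈ Icc (0 : ℤ) 2) : Pl fun k => ix k y - j := by
  intro k
  rw [mem_Icc] at hj
  have h : ix (k + 1) y = ix k y / 2 := by
    rw [← ix_ix k 1 y]
    unfold PL.ix
    rw [pow_one]
  have h1 := Int.emod_add_mul_ediv (ix k y) 2
  have h2 := Int.emod_nonneg (ix k y) (by norm_num : (2 : ℤ) ≠ 0)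
  have h3 := Int.emod_lt_of_pos (ix k y) (by norm_num : (0 : ℤ) < 2)
  beta_reduce
  rw [h]
  constructor <;> omega

/-! ### The pair on the shifted grids -/

section shifted

variable {K L : ℕ} {M : Pt} {κ κ' : Type*} [Fintype κ] [Fintype κ'] {A : ℤ → ℕ → ℤ → ℤ → ℝ}
  {C : ℤ → ℕ → ℤ → ℤ → κ → ℝ} {S : ℤ → ℕ → ℤ → ℤ → κ' → ℝ} {e : κ → ℤ} {e' : κ' → ℤ}
  {QA QC : ℕ → Pt → Prop} {cP μA μC K0 x y : ℝ}

/-- **The pair `(C~, A)` on the shifted grid**, any levels, summed over `x0`: `C~ = G C` with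
`G` constant in `x3` on the cells of the grid, `|G| ≤ K0` where `C` does not vanish. `QA`, `QC`
the affected squares (`x0`-cell first), on the root. -/
theorem RX_CA_sh (he : Function.Injective e) (hm : ∀ i, e i ∈ lbs L)
    (he' : Function.Injective e') (hm' : ∀ i, e' i ∈ lbs L)
    (hA0 : ∀ x0, A x0 0 = 0) (hC0 : ∀ x0, C x0 0 = 0)
    (pA : ∀ x0, ∀ k < K, ∀ n ∈ iv (K - k) M.2.2, ∀ m ∈ iv (K - k) M.2.1,
      ¬ QA k (ix k x0, n, m) → ∀ z ∈ iv k n, ∀ y ∈ iv k m, A x0 (k + 1) z y = A x0 k z y)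
    (pC : ∀ x0, ∀ k < K, ∀ n ∈ iv (K - k) M.2.2, ∀ m ∈ iv (K - k) M.1,
      ¬ QC k (ix k x0, n, m) → ∀ z ∈ iv k n, ∀ x ∈ iv k m, C x0 (k + 1) z x = C x0 k z x)
    (kA : ∀ x0, PackS K (Qr K M.2.2 M.2.1 fun k n m => QA k (ix k x0, n, m)) cP)
    (kC : ∀ x0, PackS K (Qr K M.2.2 M.1 fun k n m => QC k (ix k x0, n, m)) cP)
    (hμA : 0 ≤ μA) (hμC : 0 ≤ μC)
    (bA : ∀ k < K, ∀ q0, ∀ n ∈ iv (K - k) M.2.2, ∀ m ∈ iv (K - k) M.2.1,
      ∑ x0 ∈ iv k q0, sqb k n m (A x0 (k + 1)) ≤ 8 ^ k * μA)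
    (bC : ∀ k < K, ∀ q0, ∀ n ∈ iv (K - k) M.2.2, ∀ m ∈ iv (K - k) M.1,
      ∑ x0 ∈ iv k q0, ∑ x ∈ iv k m, ∑ z ∈ iv k n, C x0 (k + 1) z x ⬝ᵥ C x0 (k + 1) z x ≤
        8 ^ k * μC) (hK : 0 < K0) {s : Pt} {j : ℤ} (hj : j ∈ Icc (0 : ℤ) 2) {q : Pt} {t : ℤ}
    (hG : ∀ x0 ∈ iv K t, ∀ k ∈ Icc 1 K, ∀ m ∈ sG K M (-x0) s j q k, ∀ x ∈ iv k m.2.2,
      ∃ G : Matrix κ' κ ℝ, (∀ z ∈ iv k m.1, S x0 k z x = G *ᵥ shC K M s (C x0) k z x) ∧
      ∀ v : κ → ℝ, (G *ᵥ v) ⬝ᵥ (G *ᵥ v) ≤ K0 ^ 2 * (v ⬝ᵥ v)) (hx : 0 < x) (hy : 0 < y) :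
    RX (iv K t) (K + L) (fun x0 => sL L (sG K M (-x0) s j q)) x y
      (fun x0 k m => (bl k (gC L e' (S x0) k) m.1 m.2.2)ᵀ)
      (fun x0 k m => bl k (gA L (shA K M s (A x0)) k) m.1 m.2.1) ≤
        35200 * 4 ^ L * cP * 8 ^ K * (x ^ 2 * μA + y ^ 2 * (K0 ^ 2 * μC)) := by
  set qA : ℕ → Pt → Prop := fun k m => k < K ∧ ix (K - k) m.2.1 = M.2.2 ∧
    ix (K - k) m.2.2 = M.2.1 ∧ QA k m with hqA
  set qC : ℕ → Pt → Prop := fun k m => k < K ∧ ix (K - k) m.2.1 = M.2.2 ∧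
    ix (K - k) m.2.2 = M.1 ∧ QC k m with hqC
  set RA : ℤ × ℤ := ((rv (M - q)).1, (rv (M - q)).2.1) with hRA
  -- the paths
  have zA : ∀ x0, shA K M s (A x0) 0 = 0 := by
    intro x0
    funext z y
    unfold H747.shA H747.sft
    rw [hA0]
    split_ifs <;> rfl
  have zC : ∀ x0, shC K M s (C x0) 0 = 0 := by
    intro x0
    funext z y
    unfold H747.shC H747.sft
    rw [hC0]
    split_ifs <;> rfl
  have sA : ∀ x0, shA K M s (A x0) = shf s.2.2 s.2.1 (rst K M.2.2 M.2.1 (A x0)) := by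
    intro x0
    funext k z y
    unfold H747.shA H747.sft H210.shf H210.rst
    rfl
  have paA : ∀ x0, Path K (rv (M - q)).1 (rv (M - q)).2.1
      (Qsh s.2.2 s.2.1 fun k i j => qA k (ix k x0, i, j)) (shA K M s (A x0)) := by
    intro x0
    rw [sA x0]
    exact H210.path_tr (Q := fun k n m => QA k (ix k x0, n, m))
      (fun k hk n hn m hm hq z hz y hy => pA x0 k hk n hn m hm hq z hz y hy) _ _ _ _
  have paC : ∀ x0, ∀ l ∈ lbs L, Path K (rv (M - q)).1 (rv (M - q)).2.2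
      (Qsh s.2.2 s.1 fun k i j => qC k (ix k x0, i, j))
      (fun k z x => cu e (shC K M s (C x0) k z x) l) := by
    intro x0 l _
    have h := cu_sft e K M.2.2 M.1 s.2.2 s.1 (C x0) l
    have h' : (fun k z x => cu e (shC K M s (C x0) k z x) l) =
      shf s.2.2 s.1 (rst K M.2.2 M.1 fun k z x => cu e (C x0 k z x) l) := h
    rw [h']
    exact H210.path_tr (Q := fun k n m => QC k (ix k x0, n, m))
      (fun k hk n hn m hm hq z hz x hx => by
        rw [pC x0 k hk n hn m hm hq z hz x hx]) _ _ _ _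
  -- the masses
  have mA : ∑ x0 ∈ iv K t, pwr K (rv (M - q)).1 (rv (M - q)).2.1
      (Qsh s.2.2 s.2.1 fun k i j => qA k (ix k x0, i, j)) (shA K M s (A x0)) ≤
      64 * cP * μA * 8 ^ K := by
    have h := H210.pwr_sh (N := K) (Qc := qA) (A := fun x0 => rst K M.2.2 M.2.1 (A x0))
      (cP := cP) (μ := μA) hμA (fun x0 => ?_) (fun k hk q0 i j => ?_) s.2.2 s.2.1 t
      (rv (M - q)).1 (rv (M - q)).2.1
    · refine le_trans (le_of_eq (sum_congr rfl fun x0 _ => ?_)) h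
      rw [sA x0]
    · intro J hJ I I'
      refine le_trans (le_of_eq ?_) (kA x0 J hJ I I')
      refine sum_congr rfl fun k _ => sum_congr rfl fun i _ => sum_congr rfl fun i' _ => ?_
      have hh : (k < K ∧ qA k (ix k x0, i, i')) ↔
          Qr K M.2.2 M.2.1 (fun k n m => QA k (ix k x0, n, m)) k i i' :=
        ⟨fun h => h.2, fun h => ⟨h.1, h⟩⟩
      by_cases hq : Qr K M.2.2 M.2.1 (fun k n m => QA k (ix k x0, n, m)) k i i'
      · rw [if_pos hq, if_pos (hh.2 hq)]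
      · rw [if_neg hq, if_neg fun h' => hq (hh.1 h')]
    · by_cases hh : ix (K - k) i = M.2.2 ∧ ix (K - k) j = M.2.1
      · refine le_trans (le_of_eq ?_) (bA k hk q0 i (mem_iv.2 hh.1) j (mem_iv.2 hh.2))
        refine sum_congr rfl fun x0 _ => ?_
        unfold H736.sqb
        refine sum_congr rfl fun y' hy' => sum_congr rfl fun z' hz' => ?_
        unfold H210.rst
        rw [H210.ix_root hk.le hz', H210.ix_root hk.le hy', if_pos hh]
      · have e0 : ∑ x0 ∈ iv k q0, sqb k i j (rst K M.2.2 M.2.1 (A x0) (k + 1)) = 0 := by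
          refine sum_eq_zero fun x0 _ => ?_
          unfold H736.sqb
          refine sum_eq_zero fun y' hy' => sum_eq_zero fun z' hz' => ?_
          unfold H210.rst
          rw [H210.ix_root hk.le hz', H210.ix_root hk.le hy', if_neg hh]
          norm_num
        rw [e0]
        positivity
  have mC : ∑ x0 ∈ iv K t, ∑ l ∈ lbs L, pwr K (rv (M - q)).1 (rv (M - q)).2.2
      (Qsh s.2.2 s.1 fun k i j => qC k (ix k x0, i, j))
      (fun k z x => cu e (shC K M s (C x0) k z x) l) ≤ 64 * cP * μC * 8 ^ K := by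
    have h := pwr_sh_lab (N := K) (Qc := qC) (I := lbs L)
      (A := fun l x0 => rst K M.2.2 M.1 fun k z x => cu e (C x0 k z x) l)
      (cP := cP) (μ := μC) hμC (fun x0 => ?_) (fun k hk q0 i j => ?_) s.2.2 s.1 t
      (rv (M - q)).1 (rv (M - q)).2.2
    · refine le_trans (le_of_eq (sum_congr rfl fun x0 _ => sum_congr rfl fun l _ => ?_)) h
      have h := cu_sft e K M.2.2 M.1 s.2.2 s.1 (C x0) l
      have h' : (fun k z x => cu e (shC K M s (C x0) k z x) l) =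
        shf s.2.2 s.1 (rst K M.2.2 M.1 fun k z x => cu e (C x0 k z x) l) := h
      rw [h']
    · intro J hJ I I'
      refine le_trans (le_of_eq ?_) (kC x0 J hJ I I')
      refine sum_congr rfl fun k _ => sum_congr rfl fun i _ => sum_congr rfl fun i' _ => ?_
      have hh : (k < K ∧ qC k (ix k x0, i, i')) ↔
          Qr K M.2.2 M.1 (fun k n m => QC k (ix k x0, n, m)) k i i' :=
        ⟨fun h => h.2, fun h => ⟨h.1, h⟩⟩
      by_cases hq : Qr K M.2.2 M.1 (fun k n m => QC k (ix k x0, n, m)) k i i'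
      · rw [if_pos hq, if_pos (hh.2 hq)]
      · rw [if_neg hq, if_neg fun h' => hq (hh.1 h')]
    · by_cases hh : ix (K - k) i = M.2.2 ∧ ix (K - k) j = M.1
      · refine le_trans (le_of_eq ?_) (bC k hk q0 i (mem_iv.2 hh.1) j (mem_iv.2 hh.2))
        refine sum_congr rfl fun x0 _ => ?_
        unfold H736.sqb
        rw [sum_comm]
        refine sum_congr rfl fun x' hx' => ?_
        rw [sum_comm]
        refine sum_congr rfl fun z' hz' => ?_
        have h2 := H338.sum_cu_cu he hm (C x0 (k + 1) z' x') (C x0 (k + 1) z' x')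
        unfold dotProduct
        rw [← h2]
        refine sum_congr rfl fun l _ => ?_
        unfold H210.rst
        rw [H210.ix_root hk.le hz', H210.ix_root hk.le hx', if_pos hh, pow_two]
      · have e0 : ∑ x0 ∈ iv k q0, ∑ l ∈ lbs L,
            sqb k i j (rst K M.2.2 M.1 (fun k z x => cu e (C x0 k z x) l) (k + 1)) = 0 := by
          refine sum_eq_zero fun x0 _ => sum_eq_zero fun l _ => ?_
          unfold H736.sqb
          refine sum_eq_zero fun x' hx' => sum_eq_zero fun z' hz' => ?_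
          unfold H210.rst
          rw [H210.ix_root hk.le hz', H210.ix_root hk.le hx', if_neg hh]
          norm_num
        rw [e0]
        positivity
  -- the sum
  have one : ∀ x0 ∈ iv K t, H609.RP (K + L) (sL L (sG K M (-x0) s j q)) x y
      (fun k m => (bl k (gC L e' (S x0) k) m.1 m.2.2)ᵀ)
      (fun k m => bl k (gA L (shA K M s (A x0)) k) m.1 m.2.1) ≤
      550 * 4 ^ L * (x ^ 2 * pwr K (rv (M - q)).1 (rv (M - q)).2.1
        (Qsh s.2.2 s.2.1 fun k i j => qA k (ix k x0, i, j)) (shA K M s (A x0)) +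
        y ^ 2 * (K0 ^ 2 * ∑ l ∈ lbs L, pwr K (rv (M - q)).1 (rv (M - q)).2.2
          (Qsh s.2.2 s.1 fun k i j => qC k (ix k x0, i, j))
          (fun k z x => cu e (shC K M s (C x0) k z x) l))) := fun x0 hx0 =>
    RP_CA_stack (c := fun k => ix k (ys (-x0) s) - j) (R := rv (M - q)) (plane_pl _ _ hj)
      (fun _ _ => Subset.rfl) he hm he' hm' ⟨paA x0, zA x0, le_rfl⟩ (zC x0) (paC x0) le_rfl hK
      (hG x0 hx0) hx hy
  unfold H581.RX
  refine (sum_le_sum one).trans ?_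
  rw [← mul_sum, sum_add_distrib, ← mul_sum, ← mul_sum, ← mul_sum]
  have n1 := mul_le_mul_of_nonneg_left mA (by positivity : 0 ≤ x ^ 2)
  have n2 := mul_le_mul_of_nonneg_left mC (by positivity : 0 ≤ y ^ 2 * K0 ^ 2)
  have n3 := mul_le_mul_of_nonneg_left (add_le_add n1 n2) (by positivity : (0 : ℝ) ≤ 550 * 4 ^ L)
  refine le_trans (le_of_eq ?_) (n3.trans (le_of_eq ?_))
  · ring
  · ring

/-- **The pair `(C~, A)` for the stacked slot `(ε C ; Q C)`** on the shifted grid, any levels,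
summed over `x0`. -/
theorem RX_CA_slot {e : κ ⊕ κ → ℤ} (he : Function.Injective e) (hm : ∀ i, e i ∈ lbs L)
    (hA0 : ∀ x0, A x0 0 = 0) (hC0 : ∀ x0, C x0 0 = 0)
    (pA : ∀ x0, ∀ k < K, ∀ n ∈ iv (K - k) M.2.2, ∀ m ∈ iv (K - k) M.2.1,
      ¬ QA k (ix k x0, n, m) → ∀ z ∈ iv k n, ∀ y ∈ iv k m, A x0 (k + 1) z y = A x0 k z y)
    (pC : ∀ x0, ∀ k < K, ∀ n ∈ iv (K - k) M.2.2, ∀ m ∈ iv (K - k) M.1,
      ¬ QC k (ix k x0, n, m) → ∀ z ∈ iv k n, ∀ x ∈ iv k m, C x0 (k + 1) z x = C x0 k z x)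
    (kA : ∀ x0, PackS K (Qr K M.2.2 M.2.1 fun k n m => QA k (ix k x0, n, m)) cP)
    (kC : ∀ x0, PackS K (Qr K M.2.2 M.1 fun k n m => QC k (ix k x0, n, m)) cP)
    (hμA : 0 ≤ μA) (hμC : 0 ≤ μC)
    (bA : ∀ k < K, ∀ q0, ∀ n ∈ iv (K - k) M.2.2, ∀ m ∈ iv (K - k) M.2.1,
      ∑ x0 ∈ iv k q0, sqb k n m (A x0 (k + 1)) ≤ 8 ^ k * μA)
    (bC : ∀ k < K, ∀ q0, ∀ n ∈ iv (K - k) M.2.2, ∀ m ∈ iv (K - k) M.1,
      ∑ x0 ∈ iv k q0, ∑ x ∈ iv k m, ∑ z ∈ iv k n, C x0 (k + 1) z x ⬝ᵥ C x0 (k + 1) z x ≤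
        8 ^ k * μC) {s : Pt} {j : ℤ} (hj : j ∈ Icc (0 : ℤ) 2) {q : Pt} {t : ℤ} {ε q₀ : ℝ}
    (hq : 0 < ε ^ 2 + q₀) {Qg : ℤ → ℕ → ℤ → ℤ → Matrix κ κ ℝ}
    (hQ : ∀ x0 ∈ iv K t, ∀ k ∈ Icc 1 K, ∀ n x, ∀ a : κ → ℝ,
      (Qg x0 k n x *ᵥ a) ⬝ᵥ (Qg x0 k n x *ᵥ a) ≤ q₀ * (a ⬝ᵥ a)) (hx : 0 < x) (hy : 0 < y) :
    RX (iv K t) (K + L) (fun x0 => sL L (sG K M (-x0) s j q)) x y
      (fun x0 k m => (bl k (gC L e (fun k z x => Sum.elim (ε • shC K M s (C x0) k z x)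
        (Qg x0 k (ix k z) x *ᵥ shC K M s (C x0) k z x)) k) m.1 m.2.2)ᵀ)
      (fun x0 k m => bl k (gA L (shA K M s (A x0)) k) m.1 m.2.1) ≤
        35200 * 4 ^ L * cP * 8 ^ K * (x ^ 2 * μA + y ^ 2 * ((ε ^ 2 + q₀) * μC)) := by
  have h := RX_CA_sh (S := fun x0 k z x => Sum.elim (ε • shC K M s (C x0) k z x)
    (Qg x0 k (ix k z) x *ᵥ shC K M s (C x0) k z x)) (e := fun i => e (Sum.inr i)) (e' := e)
    (K0 := √(ε ^ 2 + q₀)) (fun i i' h => Sum.inr_injective (he h)) (fun i => hm _) he hm hA0 hC0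
    pA pC kA kC hμA hμC bA bC (Real.sqrt_pos.2 hq) hj (q := q) (t := t) (s := s) (x := x) (y := y)
    (fun x0 hx0 k hk m hmem x' hx' => ?_) hx hy
  · rwa [Real.sq_sqrt hq.le] at h
  · rw [Real.sq_sqrt hq.le]
    refine ⟨Matrix.fromRows (ε • (1 : Matrix κ κ ℝ)) (Qg x0 k m.1 x'), fun z hz => ?_, fun v => ?_⟩
    · rw [Matrix.fromRows_mulVec, mem_iv.1 hz, smul_mulVec, one_mulVec]
    · rw [Matrix.fromRows_mulVec, sumElim_dotProduct_sumElim, smul_mulVec, one_mulVec,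
        smul_dotProduct, dotProduct_smul, smul_eq_mul, smul_eq_mul]
      have h1 := hQ x0 hx0 k hk m.1 x' v
      nlinarith

end shifted

end

end Vale.Agent.P141.H829
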