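import Vale.Agent.P141.H550.PN2d
import Vale.Agent.P141.H865.Res
import Vale.Agent.P141.H922.Floor
import Vale.Agent.P141.H606.Box4
import Vale.Agent.P141.H414.En8

/-!
# P141, line W, end lemma, (EXC), plane part

On a used cell `Q` of scale `k` the function of the role 0 is `GP + D - A`: `GP` uniform on `Q`,
`D` and `A` of small energy on `Q`; the function `G1` of the role 1 has bounded energy on `Q`.
Then, for every value of the first two variables, the bilinear form with the kernel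
`(GP + D - A) (p·x) G1 (q·x)` has a small norm:

* `hs_le`: Hilbert-Schmidt, two functions cut to `Q`;
* `gp_le`: the uniform part (the pair norm of `H550`);
* `op_le`: all together; `kerS_le`: in the letters of `H606` (every order of the roles).
-/

namespace Vale.Agent.P141.H829

open Finset Vale.Agent.P141.PL.H318
open Vale.Agent.P141.PL.H315 (avg cube3 mem_cube3 card_cube3 atm Tri iv)
open Vale.Agent.P141.PL.H95 (gr)
open Vale.Agent.P141.PL (Pt el fc)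
open Vale.Agent.P141.PL.H571 (W)
open Vale.Agent.P141.H337 (ivm mem_ivm card_ivm av2 ivm_eq_iv')
open Vale.Agent.P141.H922 (n2 n2_nonneg pw3 pw3_nonneg wP wP_nonneg cube_unif_w card_cell)
open Vale.Agent.P141.H550 (WinSq pair_norm2')
open Vale.Agent.P141.H606 (kerS dl sum_le_of_inj)
open Vale.Agent.P141.H414 (a1_t12 a1_t23)
open Vale.Agent.P141.H315 (dot dot_self_nonneg)
open Vale.Agent.P141.PL.H321 (t12 t23 u12 u23)

noncomputable section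

/-- the function cut to the cell -/
def ct (Q : Finset ℤ) (f : ℤ → ℝ) (s : ℤ) : ℝ := if s ∈ Q then f s else 0

theorem ct_of_mem {Q : Finset ℤ} {f : ℤ → ℝ} {s : ℤ} (h : s ∈ Q) : ct Q f s = f s := if_pos h

theorem winSq_ct {Q : Finset ℤ} {f : ℤ → ℝ} {k : ℕ} {Λ : ℝ}
    (h : ∑ s ∈ Q, f s ^ 2 ≤ 2 ^ k * Λ) : WinSq k Λ (ct Q f) := by
  intro c
  refine le_trans ?_ h
  have e1 : ∀ y, ct Q f y ^ 2 = if y ∈ Q then f y ^ 2 else 0 := by
    intro y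
    unfold ct
    split_ifs
    · rfl
    · norm_num
  rw [sum_congr rfl fun y _ => e1 y, ← sum_filter]
  refine sum_le_sum_of_subset_of_nonneg ?_ fun _ _ _ => sq_nonneg _
  intro y hy
  exact (mem_filter.1 hy).2

/-- **Hilbert-Schmidt** for two functions cut to a cell -/
theorem hs_le {Q Q' I2 I3 : Finset ℤ} {f g : ℤ → ℝ} {p2 p3 q2 q3 c c' : ℤ}
    (hdet : p2 * q3 - p3 * q2 ≠ 0) (b d : ℤ → ℝ) :
    |∑ x2 ∈ I2, ∑ x3 ∈ I3, ct Q f (c + p2 * x2 + p3 * x3) *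
        ct Q' g (c' + q2 * x2 + q3 * x3) * b x2 * d x3| ≤
      √(∑ s ∈ Q, f s ^ 2) * √(∑ s ∈ Q', g s ^ 2) *
        (√(∑ x ∈ I2, b x ^ 2) * √(∑ x ∈ I3, d x ^ 2)) := by
  have hf : 0 ≤ ∑ s ∈ Q, f s ^ 2 := sum_nonneg fun _ _ => sq_nonneg _
  have hg : 0 ≤ ∑ s ∈ Q', g s ^ 2 := sum_nonneg fun _ _ => sq_nonneg _
  have hb : 0 ≤ ∑ x ∈ I2, b x ^ 2 := sum_nonneg fun _ _ => sq_nonneg _
  have hd : 0 ≤ ∑ x ∈ I3, d x ^ 2 := sum_nonneg fun _ _ => sq_nonneg _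
  rw [← Real.sqrt_mul hf, ← Real.sqrt_mul hb, ← Real.sqrt_mul (by positivity)]
  refine Real.abs_le_sqrt ?_
  have e1 : ∑ x2 ∈ I2, ∑ x3 ∈ I3, ct Q f (c + p2 * x2 + p3 * x3) *
        ct Q' g (c' + q2 * x2 + q3 * x3) * b x2 * d x3 =
      ∑ w ∈ I2 ×ˢ I3, (ct Q f (c + p2 * w.1 + p3 * w.2) *
        ct Q' g (c' + q2 * w.1 + q3 * w.2)) * (b w.1 * d w.2) := by
    rw [sum_product]
    refine sum_congr rfl fun x2 _ => sum_congr rfl fun x3 _ => ?_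
    ring
  rw [e1]
  refine (sum_mul_sq_le_sq_mul_sq _ _ _).trans ?_
  refine mul_le_mul ?_ (le_of_eq ?_) (sum_nonneg fun _ _ => sq_nonneg _) (by positivity)
  · have e2 : (∑ s ∈ Q, f s ^ 2) * ∑ s ∈ Q', g s ^ 2 =
        ∑ w ∈ Q ×ˢ Q', f w.1 ^ 2 * g w.2 ^ 2 := by
      rw [sum_product, sum_mul_sum]
    rw [e2]
    have e3 : ∀ w : ℤ × ℤ, (ct Q f (c + p2 * w.1 + p3 * w.2) *
        ct Q' g (c' + q2 * w.1 + q3 * w.2)) ^ 2 =
        if (c + p2 * w.1 + p3 * w.2) ∈ Q ∧ (c' + q2 * w.1 + q3 * w.2) ∈ Q' then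
          f (c + p2 * w.1 + p3 * w.2) ^ 2 * g (c' + q2 * w.1 + q3 * w.2) ^ 2 else 0 := by
      intro w
      unfold ct
      by_cases h1 : (c + p2 * w.1 + p3 * w.2) ∈ Q
      · by_cases h2 : (c' + q2 * w.1 + q3 * w.2) ∈ Q'
        · rw [if_pos h1, if_pos h2, if_pos ⟨h1, h2⟩, mul_pow]
        · rw [if_pos h1, if_neg h2, if_neg (fun h => h2 h.2), mul_zero]
          norm_num
      · rw [if_neg h1, if_neg (c := _ ∧ _) (fun h => h1 h.1), zero_mul]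
        norm_num
    rw [sum_congr rfl fun w _ => e3 w, ← sum_filter]
    refine sum_le_of_inj (fun w : ℤ × ℤ => (c + p2 * w.1 + p3 * w.2, c' + q2 * w.1 + q3 * w.2))
      ?_ ?_ ?_ ?_
    · intro w hw
      exact mem_product.2 (mem_filter.1 hw).2
    · intro w _ w' _ hww
      simp only [Prod.mk.injEq] at hww
      obtain ⟨h1, h2⟩ := hww
      have h3 : (p2 * q3 - p3 * q2) * (w.1 - w'.1) = 0 := by linear_combination q3 * h1 - p3 * h2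
      have h4 : (p2 * q3 - p3 * q2) * (w.2 - w'.2) = 0 := by linear_combination p2 * h2 - q2 * h1
      have h5 := (mul_eq_zero.1 h3).resolve_left hdet
      have h6 := (mul_eq_zero.1 h4).resolve_left hdet
      ext <;> linarith
    · intro w _
      exact le_rfl
    · intro w _
      positivity
  · rw [sum_product, sum_mul_sum]
    refine sum_congr rfl fun x _ => sum_congr rfl fun z _ => ?_
    rw [mul_pow]

/-- the same, normalised -/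
theorem hs_n2 {Q Q' : Finset ℤ} {f g : ℤ → ℝ} {p2 p3 q2 q3 c c' : ℤ} {k : ℕ} {j2 j3 : ℤ}
    {E E' : ℝ} (hE : 0 ≤ E) (hE' : 0 ≤ E') (hf : ∑ s ∈ Q, f s ^ 2 ≤ E * 2 ^ (k + 7))
    (hg : ∑ s ∈ Q', g s ^ 2 ≤ E' * 2 ^ (k + 7)) (hdet : p2 * q3 - p3 * q2 ≠ 0) (b d : ℤ → ℝ) :
    |∑ x2 ∈ ivm k j2, ∑ x3 ∈ ivm k j3, ct Q f (c + p2 * x2 + p3 * x3) *
        ct Q' g (c' + q2 * x2 + q3 * x3) * b x2 * d x3| ≤
      128 * √(E * E') * 4 ^ k * n2 (ivm k j2) b * n2 (ivm k j3) d := by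
  refine (hs_le hdet b d).trans ?_
  rw [H865.sqrt_avg, H865.sqrt_avg]
  have h1 : √(∑ s ∈ Q, f s ^ 2) * √(∑ s ∈ Q', g s ^ 2) ≤ √(E * E') * 2 ^ (k + 7) := by
    refine (mul_le_mul (Real.sqrt_le_sqrt hf) (Real.sqrt_le_sqrt hg) (Real.sqrt_nonneg _)
      (Real.sqrt_nonneg _)).trans (le_of_eq ?_)
    rw [← Real.sqrt_mul (by positivity), show E * 2 ^ (k + 7) * (E' * 2 ^ (k + 7)) =
      (E * E') * (2 ^ (k + 7)) ^ 2 by ring, Real.sqrt_mul (by positivity),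
      Real.sqrt_sq (by positivity)]
  have h5 := Real.mul_self_sqrt (by positivity : (0 : ℝ) ≤ 2 ^ k)
  have h4 : (4 : ℝ) ^ k = 2 ^ k * 2 ^ k := by rw [← mul_pow]; norm_num
  have hb := n2_nonneg (ivm k j2) b
  have hd := n2_nonneg (ivm k j3) d
  unfold n2 at hb hd ⊢
  calc √(∑ s ∈ Q, f s ^ 2) * √(∑ s ∈ Q', g s ^ 2) *
        (√(2 ^ k) * √(avg (ivm k j2) fun x => b x ^ 2) *
          (√(2 ^ k) * √(avg (ivm k j3) fun x => d x ^ 2)))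
      ≤ (√(E * E') * 2 ^ (k + 7)) * (√(2 ^ k) * √(avg (ivm k j2) fun x => b x ^ 2) *
          (√(2 ^ k) * √(avg (ivm k j3) fun x => d x ^ 2))) :=
        mul_le_mul_of_nonneg_right h1 (by positivity)
    _ = (√(2 ^ k) * √(2 ^ k)) * (√(E * E') * 2 ^ (k + 7) * (√(avg (ivm k j2) fun x => b x ^ 2) *
          √(avg (ivm k j3) fun x => d x ^ 2))) := by ring
    _ = _ := by
        rw [h5, h4, pow_add]
        norm_num
        ring

/-! ### Uniformity in the orders of the variables -/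

/-- uniformity on one cell for the form `c` -/
def UQ (Q : Finset ℤ) (k : ℕ) (c : Pt) (δ : ℝ) (G : ℤ → ℝ) : Prop :=
  ∀ (q : Pt) (u : Tri), |dot Q G (a1 c k (q, u))| ≤ wP δ (cube3 k q) u

theorem UQ.t12 {Q : Finset ℤ} {k : ℕ} {c : Pt} {δ : ℝ} {G : ℤ → ℝ} (h : UQ Q k c δ G) :
    UQ Q k (t12 c) δ G := by
  intro q u
  have h2 := h (PL.H321.t12 q) (u12 u)
  rwa [H414.wP_t12, ← a1_t12] at h2

theorem UQ.t23 {Q : Finset ℤ} {k : ℕ} {c : Pt} {δ : ℝ} {G : ℤ → ℝ} (h : UQ Q k c δ G) :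
    UQ Q k (t23 c) δ G := by
  intro q u
  have h2 := h (PL.H321.t23 q) (u23 u)
  rwa [H414.wP_t23, ← a1_t23] at h2

/-- the form of the role 0 in the order `τ` -/
def pF (τ : Equiv.Perm (Fin 4)) : Pt := (dl τ 1 0, dl τ 2 0, dl τ 3 0)

theorem fc_perm4 : ∀ a b c d : Fin 4, a ≠ b → a ≠ c → a ≠ d → b ≠ c → b ≠ d → c ≠ d →
    let p : ℤ × ℤ × ℤ := (((b : ℕ) : ℤ) - ((a : ℕ) : ℤ), ((c : ℕ) : ℤ) - ((a : ℕ) : ℤ),
      ((d : ℕ) : ℤ) - ((a : ℕ) : ℤ))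
    p = fc a ∨ p = t12 (fc a) ∨ p = t23 (fc a) ∨ p = t12 (t23 (fc a)) ∨
      p = t23 (t12 (fc a)) ∨ p = t12 (t23 (t12 (fc a))) := by
  decide

theorem UQ.perm (τ : Equiv.Perm (Fin 4)) {Q : Finset ℤ} {k : ℕ} {δ : ℝ} {G : ℤ → ℝ}
    (h : UQ Q k (fc (τ 0)) δ G) : UQ Q k (pF τ) δ G := by
  have hne : ∀ i j : Fin 4, i ≠ j → τ i ≠ τ j := fun i j hij => τ.injective.ne hij
  rcases fc_perm4 (τ 0) (τ 1) (τ 2) (τ 3) (hne _ _ (by decide)) (hne _ _ (by decide))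
    (hne _ _ (by decide)) (hne _ _ (by decide)) (hne _ _ (by decide)) (hne _ _ (by decide))
    with e | e | e | e | e | e
  · unfold pF dl; rw [e]; exact h
  · unfold pF dl; rw [e]; exact h.t12
  · unfold pF dl; rw [e]; exact h.t23
  · unfold pF dl; rw [e]; exact h.t23.t12
  · unfold pF dl; rw [e]; exact h.t12.t23
  · unfold pF dl; rw [e]; exact h.t12.t23.t12

/-- the size of the numbers of the forms -/
theorem dl_facts (τ : Equiv.Perm (Fin 4)) (i j : Fin 4) : |dl τ i j| ≤ 4 ∧ (i ≠ j → dl τ i j ≠ 0) := by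
  constructor
  · unfold dl
    have h1 := (τ i).2
    have h2 := (τ j).2
    rw [abs_le]
    constructor <;> omega
  · intro h e
    unfold dl at e
    have h1 : ((τ i : Fin 4) : ℕ) = ((τ j : Fin 4) : ℕ) := by omega
    exact h (τ.injective (Fin.ext h1))

theorem dl_det (τ : Equiv.Perm (Fin 4)) :
    dl τ 3 2 * dl τ 1 0 = dl τ 2 0 * dl τ 3 1 - dl τ 3 0 * dl τ 2 1 := by
  unfold dl
  ring

/-! ### The uniform part -/

/-- the tests of the uniform part on all cubes -/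
theorem test_of_unif {s : ℤ} {k : ℕ} {y : ℤ} {p : Pt} (hp : csz p ≤ 2 ^ 7) {δ : ℝ} (hδ : 0 ≤ δ)
    {G : ℤ → ℝ} (h : UQ ((gr 7 s).cube k y) k p δ G) (a1' a2 a3 : ℤ) (u : Tri) :
    |avg (ivm k a1' ×ˢ ivm k a2 ×ˢ ivm k a3)
      (fun q => ct ((gr 7 s).cube k y) G (p.1 * q.1 + p.2.1 * q.2.1 + p.2.2 * q.2.2) *
        atm u q)| ≤ 2 * δ * pw3 (ivm k a1' ×ˢ ivm k a2 ×ˢ ivm k a3) u := by
  classical
  have e1 : ivm k a1' ×ˢ ivm k a2 ×ˢ ivm k a3 =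
      cube3 k (2 ^ k * a1', 2 ^ k * a2, 2 ^ k * a3) := by
    unfold cube3
    rw [ivm_eq_iv', ivm_eq_iv', ivm_eq_iv']
  rw [e1]
  set q0 : Pt := (2 ^ k * a1', 2 ^ k * a2, 2 ^ k * a3) with hq0
  have h1 := cube_unif_w (c0 := 7) (σ := s) (c := p) hp k (G := G)
    (A := fun t => t ∈ (gr 7 s).cube k y)
    (by
      intro t t' htt
      rw [Vale.Agent.P141.PL.H318.mem_gs, Vale.Agent.P141.PL.H318.mem_gs, htt]) q0 u
    (w := wP δ (cube3 k q0) u) (wP_nonneg hδ _ _)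
    (fun t ht => by
      have h2 : (gr 7 s).cube k t = (gr 7 s).cube k y := (gr 7 s).eq_of_mem k y t ht
      rw [h2]
      exact h q0 u)
  have h3 : (0 : ℝ) < (cube3 k q0).card := Vale.Agent.P141.PL.H315.card_cube3_pos _ _
  unfold avg
  rw [abs_mul, abs_of_nonneg (by positivity), inv_mul_le_iff₀ h3]
  refine le_trans (le_of_eq ?_) (h1.trans (le_of_eq ?_))
  · congr 1
    refine sum_congr rfl fun z _ => ?_
    have e2 : el p z = p.1 * z.1 + p.2.1 * z.2.1 + p.2.2 * z.2.2 := rfl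
    by_cases hz : el p z ∈ (gr 7 s).cube k y
    · rw [if_pos hz]
      show ct _ G _ * atm u z = _
      rw [← e2, ct_of_mem hz]
    · rw [if_neg hz]
      show ct _ G _ * atm u z = _
      rw [← e2]
      unfold ct
      rw [if_neg hz]
  · unfold wP
    ring

/-- the energy on a cell of `gr 7 s`, as a sum of squares -/
theorem sum_sq_of_dot {s : ℤ} {k : ℕ} {y : ℤ} {f : ℤ → ℝ} {E : ℝ}
    (h : dot ((gr 7 s).cube k y) f f ≤ E * ((gr 7 s).cube k y).card) :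
    ∑ t ∈ (gr 7 s).cube k y, f t ^ 2 ≤ E * 2 ^ (k + 7) := by
  rw [card_cell] at h
  refine le_trans (le_of_eq ?_) h
  unfold dot
  exact sum_congr rfl fun t _ => sq _

/-- **The uniform part**: the pair norm. -/
theorem gp_le {p1 p2 p3 q2 q3 m : ℤ} (hm : m * p1 = p2 * q3 - p3 * q2) (hm0 : m ≠ 0)
    (hp1 : p1 ≠ 0) (hp2 : p2 ≠ 0) (hp3 : p3 ≠ 0) (hq2 : q2 ≠ 0) (hq3 : q3 ≠ 0) (bm : |m| ≤ 4)
    (b1 : |p1| ≤ 4) (b2 : |p2| ≤ 4) (b3 : |p3| ≤ 4) (bq2 : |q2| ≤ 4) (bq3 : |q3| ≤ 4)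
    {s : ℤ} {k : ℕ} {y : ℤ} {δ C C' : ℝ} (hδ0 : 0 < δ) (hδ1 : 2 * δ ≤ 1) (hC : 1 ≤ C)
    {GP G : ℤ → ℝ} (hu : UQ ((gr 7 s).cube k y) k (p1, p2, p3) δ GP)
    (eP : dot ((gr 7 s).cube k y) GP GP ≤ C * ((gr 7 s).cube k y).card)
    (eG : dot ((gr 7 s).cube k y) G G ≤ C' * ((gr 7 s).cube k y).card) (x1 j2 j3 c' : ℤ)
    (b d : ℤ → ℝ) :
    |∑ x2 ∈ ivm k j2, ∑ x3 ∈ ivm k j3, ct ((gr 7 s).cube k y) GP (p1 * x1 + p2 * x2 + p3 * x3) *
        ct ((gr 7 s).cube k y) G (c' + q2 * x2 + q3 * x3) * b x2 * d x3| ≤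
      151200 * (128 * C) * √(128 * C') * (2 * δ) ^ (3 / 8 : ℝ) * 4 ^ k *
        n2 (ivm k j2) b * n2 (ivm k j3) d := by
  have h7 : (2 : ℝ) ^ 7 = 128 := by norm_num
  have hs : WinSq k (128 * C) (ct ((gr 7 s).cube k y) GP) := by
    refine winSq_ct ((sum_sq_of_dot eP).trans (le_of_eq ?_))
    rw [pow_add, h7]
    ring
  have hg : WinSq k (128 * C') (ct ((gr 7 s).cube k y) G) := by
    refine winSq_ct ((sum_sq_of_dot eG).trans (le_of_eq ?_))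
    rw [pow_add, h7]
    ring
  have hp : csz (p1, p2, p3) ≤ 2 ^ 7 := by
    unfold csz
    simp only
    norm_num
    linarith
  have h := pair_norm2' (δ := 2 * δ) (by linarith) hδ1 (by linarith : (1 : ℝ) ≤ 128 * C) hm hm0
    hp1 hp2 hp3 hq2 hq3 bm b1 b2 b3 bq2 bq3 hs hg (x1 := x1) (j2 := j2) (j3 := j3)
    (fun a1' _ a2 _ a3 _ u => test_of_unif hp hδ0.le hu a1' a2 a3 u) b d c'
  refine h.trans (le_of_eq ?_)
  ring

/-- the norm of the kernel -/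
def kOp (C C' δ eD eA : ℝ) : ℝ :=
  151200 * (128 * C) * √(128 * C') * (2 * δ) ^ (3 / 8 : ℝ) + 128 * √(eD * C') + 128 * √(eA * C')

theorem kOp_nonneg {C C' δ eD eA : ℝ} (hC : 0 ≤ C) (hδ : 0 ≤ δ) : 0 ≤ kOp C C' δ eD eA := by
  unfold kOp
  positivity

/-- **The operator bound on a used cell.** -/
theorem op_le {p1 p2 p3 q2 q3 m : ℤ} (hm : m * p1 = p2 * q3 - p3 * q2) (hm0 : m ≠ 0)
    (hp1 : p1 ≠ 0) (hp2 : p2 ≠ 0) (hp3 : p3 ≠ 0) (hq2 : q2 ≠ 0) (hq3 : q3 ≠ 0) (bm : |m| ≤ 4)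
    (b1 : |p1| ≤ 4) (b2 : |p2| ≤ 4) (b3 : |p3| ≤ 4) (bq2 : |q2| ≤ 4) (bq3 : |q3| ≤ 4)
    {s : ℤ} {k : ℕ} {y : ℤ} {δ C C' eD eA : ℝ} (hδ0 : 0 < δ) (hδ1 : 2 * δ ≤ 1) (hC : 1 ≤ C)
    (hC' : 0 ≤ C') (heD : 0 ≤ eD) (heA : 0 ≤ eA) {GP D A M G : ℤ → ℝ}
    (hu : UQ ((gr 7 s).cube k y) k (p1, p2, p3) δ GP)
    (eP : dot ((gr 7 s).cube k y) GP GP ≤ C * ((gr 7 s).cube k y).card)
    (hD : dot ((gr 7 s).cube k y) D D ≤ eD * ((gr 7 s).cube k y).card)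
    (hA : dot ((gr 7 s).cube k y) A A ≤ eA * ((gr 7 s).cube k y).card)
    (eG : dot ((gr 7 s).cube k y) G G ≤ C' * ((gr 7 s).cube k y).card)
    (hM : ∀ t ∈ (gr 7 s).cube k y, M t = GP t + D t - A t) (x1 j2 j3 c' : ℤ)
    (b d : ℤ → ℝ) :
    |av2 (ivm k j2) (ivm k j3) (fun x2 x3 => b x2 *
      (ct ((gr 7 s).cube k y) M (p1 * x1 + p2 * x2 + p3 * x3) *
        ct ((gr 7 s).cube k y) G (c' + q2 * x2 + q3 * x3)) * d x3)| ≤
      kOp C C' δ eD eA * √(avg (ivm k j2) fun x => b x ^ 2) *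
        √(avg (ivm k j3) fun x => d x ^ 2) := by
  refine H865.av2_le_of_n2 (S := fun x2 x3 =>
    ct ((gr 7 s).cube k y) M (p1 * x1 + p2 * x2 + p3 * x3) *
        ct ((gr 7 s).cube k y) G (c' + q2 * x2 + q3 * x3)) (fun b d => ?_) b d
  have hdet : p2 * q3 - p3 * q2 ≠ 0 := by
    rw [← hm]
    exact mul_ne_zero hm0 hp1
  have h1 := gp_le hm hm0 hp1 hp2 hp3 hq2 hq3 bm b1 b2 b3 bq2 bq3 hδ0 hδ1 hC hu eP eG x1 j2 j3 c'
    b d
  have h2 := hs_n2 (Q := (gr 7 s).cube k y) (Q' := (gr 7 s).cube k y) (f := D) (g := G)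
    (c := p1 * x1) (c' := c') (k := k) (j2 := j2) (j3 := j3) heD hC' (sum_sq_of_dot hD)
    (sum_sq_of_dot eG) hdet b d
  have h3 := hs_n2 (Q := (gr 7 s).cube k y) (Q' := (gr 7 s).cube k y) (f := A) (g := G)
    (c := p1 * x1) (c' := c') (k := k) (j2 := j2) (j3 := j3) heA hC' (sum_sq_of_dot hA)
    (sum_sq_of_dot eG) hdet b d
  have e1 : ∀ t, ct ((gr 7 s).cube k y) M t = ct ((gr 7 s).cube k y) GP t +
      ct ((gr 7 s).cube k y) D t - ct ((gr 7 s).cube k y) A t := by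
    intro t
    unfold ct
    split_ifs with ht
    · exact hM t ht
    · ring
  have e2 : (∑ x2 ∈ ivm k j2, ∑ x3 ∈ ivm k j3,
      (fun x2 x3 => ct ((gr 7 s).cube k y) M (p1 * x1 + p2 * x2 + p3 * x3) *
        ct ((gr 7 s).cube k y) G (c' + q2 * x2 + q3 * x3)) x2 x3 * b x2 * d x3) =
      (∑ x2 ∈ ivm k j2, ∑ x3 ∈ ivm k j3,
        ct ((gr 7 s).cube k y) GP (p1 * x1 + p2 * x2 + p3 * x3) *
        ct ((gr 7 s).cube k y) G (c' + q2 * x2 + q3 * x3) * b x2 * d x3) +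
      (∑ x2 ∈ ivm k j2, ∑ x3 ∈ ivm k j3,
        ct ((gr 7 s).cube k y) D (p1 * x1 + p2 * x2 + p3 * x3) *
        ct ((gr 7 s).cube k y) G (c' + q2 * x2 + q3 * x3) * b x2 * d x3) -
      (∑ x2 ∈ ivm k j2, ∑ x3 ∈ ivm k j3,
        ct ((gr 7 s).cube k y) A (p1 * x1 + p2 * x2 + p3 * x3) *
        ct ((gr 7 s).cube k y) G (c' + q2 * x2 + q3 * x3) * b x2 * d x3) := by
    rw [← sum_add_distrib, ← sum_sub_distrib]
    refine sum_congr rfl fun x2 _ => ?_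
    rw [← sum_add_distrib, ← sum_sub_distrib]
    refine sum_congr rfl fun x3 _ => ?_
    simp only [e1]
    ring
  rw [e2]
  refine (abs_sub _ _).trans ((add_le_add ((abs_add_le _ _).trans (add_le_add h1 h2)) h3).trans
    (le_of_eq ?_))
  unfold kOp
  ring

/-! ### In the letters of the fibre -/

theorem k5 : ∀ a b c d e : Fin 4, a ≠ b → a ≠ c → a ≠ d → b ≠ c → b ≠ d → c ≠ d →
    max (((a : ℕ) : ℤ) - ((e : ℕ) : ℤ)) 0 + max (((b : ℕ) : ℤ) - ((e : ℕ) : ℤ)) 0 +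
      max (((c : ℕ) : ℤ) - ((e : ℕ) : ℤ)) 0 + max (((d : ℕ) : ℤ) - ((e : ℕ) : ℤ)) 0 +
      3 * ((e : ℕ) : ℤ) ≤ 9 ∧
    -6 ≤ min (((a : ℕ) : ℤ) - ((e : ℕ) : ℤ)) 0 + min (((b : ℕ) : ℤ) - ((e : ℕ) : ℤ)) 0 +
      min (((c : ℕ) : ℤ) - ((e : ℕ) : ℤ)) 0 + min (((d : ℕ) : ℤ) - ((e : ℕ) : ℤ)) 0 +
      ((e : ℕ) : ℤ) := by
  decide

theorem mul_le_max {x i q : ℤ} (h0 : 0 ≤ i) (h1 : i ≤ q) : x * i ≤ max x 0 * q := by
  rcases le_total x 0 with h | h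
  · rw [max_eq_right h, zero_mul]
    exact mul_nonpos_of_nonpos_of_nonneg h h0
  · rw [max_eq_left h]
    exact mul_le_mul_of_nonneg_left h1 h

theorem min_mul_le {x i q : ℤ} (h0 : 0 ≤ i) (h1 : i ≤ q) : min x 0 * q ≤ x * i := by
  rcases le_total x 0 with h | h
  · rw [min_eq_left h]
    exact mul_le_mul_of_nonpos_left h1 h
  · rw [min_eq_right h, zero_mul]
    exact mul_nonneg h h0

/-- **the four forms on a box of the fibre stay in the window of its node** -/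
theorem form_mem {o : ℤ} (ho : o = 1 ∨ o = -1) (τ : Equiv.Perm (Fin 4)) {k : ℕ}
    {y0 y1 y2 y3 m : ℤ} (h2 : y2 ∈ ivm k m) (h3 : y3 ∈ ivm k (H606.cz o k y0 y1 - m))
    (r : Fin 4) :
    dl τ 0 r * y0 + dl τ 1 r * y1 + dl τ 2 r * y2 + dl τ 3 r * y3 ∈
      W k (H606.vz o τ k y0 y1 m) := by
  have hne : ∀ i j : Fin 4, i ≠ j → τ i ≠ τ j := fun i j hij => τ.injective.ne hij
  obtain ⟨g1, g2⟩ := k5 (τ 0) (τ 1) (τ 2) (τ 3) (τ r) (hne _ _ (by decide)) (hne _ _ (by decide))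
    (hne _ _ (by decide)) (hne _ _ (by decide)) (hne _ _ (by decide)) (hne _ _ (by decide))
  have hr0 : (0 : ℤ) ≤ ((τ r : ℕ) : ℤ) := Int.natCast_nonneg _
  have hp : (0 : ℤ) < 2 ^ k := by positivity
  have e0 := Int.mul_ediv_add_emod y0 (2 ^ k)
  have e1 := Int.mul_ediv_add_emod y1 (2 ^ k)
  have a0 := Int.emod_nonneg y0 hp.ne'
  have a1' := Int.emod_nonneg y1 hp.ne'
  have b0 := (Int.emod_lt_of_pos y0 hp).le
  have b1 := (Int.emod_lt_of_pos y1 hp).le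
  unfold ivm at h2 h3
  rw [mem_Ico] at h2 h3
  obtain ⟨i2, hi2⟩ : ∃ i, y2 = 2 ^ k * m + i := ⟨y2 - 2 ^ k * m, by ring⟩
  obtain ⟨i3, hi3⟩ : ∃ i, y3 = 2 ^ k * (H606.cz o k y0 y1 - m) + i :=
    ⟨y3 - 2 ^ k * (H606.cz o k y0 y1 - m), by ring⟩
  have a2 : 0 ≤ i2 := by linarith [h2.1]
  have b2 : i2 ≤ 2 ^ k := by linarith [h2.2]
  have a3 : 0 ≤ i3 := by linarith [h3.1]
  have b3 : i3 ≤ 2 ^ k := by linarith [h3.2]
  have key : dl τ 0 r * y0 + dl τ 1 r * y1 + dl τ 2 r * y2 + dl τ 3 r * y3 =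
      2 ^ k * (H606.vz o τ k y0 y1 m - ((τ r : ℕ) : ℤ) * (o - 2)) +
        (dl τ 0 r * (y0 % 2 ^ k) + dl τ 1 r * (y1 % 2 ^ k) + dl τ 2 r * i2 + dl τ 3 r * i3) := by
    rw [hi2, hi3]
    conv_lhs => rw [← e0, ← e1]
    unfold H606.vz
    have e4 : H606.cz o k (2 ^ k * (y0 / 2 ^ k) + y0 % 2 ^ k)
        (2 ^ k * (y1 / 2 ^ k) + y1 % 2 ^ k) = H606.cz o k y0 y1 := by rw [e0, e1]
    rw [e4]
    unfold H606.cz dl
    ring
  rw [key]
  have u0 := mul_le_max (x := dl τ 0 r) a0 b0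
  have u1 := mul_le_max (x := dl τ 1 r) a1' b1
  have u2 := mul_le_max (x := dl τ 2 r) a2 b2
  have u3 := mul_le_max (x := dl τ 3 r) a3 b3
  have l0 := min_mul_le (x := dl τ 0 r) a0 b0
  have l1 := min_mul_le (x := dl τ 1 r) a1' b1
  have l2' := min_mul_le (x := dl τ 2 r) a2 b2
  have l3 := min_mul_le (x := dl τ 3 r) a3 b3
  have g1' : (max (dl τ 0 r) 0 + max (dl τ 1 r) 0 + max (dl τ 2 r) 0 + max (dl τ 3 r) 0 +
      3 * ((τ r : ℕ) : ℤ)) * 2 ^ k ≤ 9 * 2 ^ k := mul_le_mul_of_nonneg_right g1 hp.le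
  have g2' : -6 * 2 ^ k ≤ (min (dl τ 0 r) 0 + min (dl τ 1 r) 0 + min (dl τ 2 r) 0 +
      min (dl τ 3 r) 0 + ((τ r : ℕ) : ℤ)) * 2 ^ k := mul_le_mul_of_nonneg_right g2 hp.le
  unfold W
  rw [mem_Ico]
  rw [add_mul, add_mul, add_mul, add_mul] at g1' g2'
  have hr : 0 ≤ ((τ r : ℕ) : ℤ) * 2 ^ k := mul_nonneg hr0 hp.le
  generalize H606.vz o τ k y0 y1 m = v
  generalize max (dl τ 0 r) 0 * 2 ^ k = M0 at *
  generalize max (dl τ 1 r) 0 * 2 ^ k = M1 at *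
  generalize max (dl τ 2 r) 0 * 2 ^ k = M2 at *
  generalize max (dl τ 3 r) 0 * 2 ^ k = M3 at *
  generalize min (dl τ 0 r) 0 * 2 ^ k = N0 at *
  generalize min (dl τ 1 r) 0 * 2 ^ k = N1 at *
  generalize min (dl τ 2 r) 0 * 2 ^ k = N2 at *
  generalize min (dl τ 3 r) 0 * 2 ^ k = N3 at *
  generalize dl τ 0 r * (y0 % 2 ^ k) = D0 at *
  generalize dl τ 1 r * (y1 % 2 ^ k) = D1 at *
  generalize dl τ 2 r * i2 = D2 at *
  generalize dl τ 3 r * i3 = D3 at *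
  have f1 : 2 ^ k * (v - 16) = 2 ^ k * v - 16 * 2 ^ k := by ring
  have f2 : 2 ^ k * (v + 16) = 2 ^ k * v + 16 * 2 ^ k := by ring
  rw [f1, f2]
  rcases ho with rfl | rfl
  · have f3 : 2 ^ k * (v - ((τ r : ℕ) : ℤ) * (1 - 2)) = 2 ^ k * v + ((τ r : ℕ) : ℤ) * 2 ^ k := by
      ring
    rw [f3]
    rw [mul_assoc] at g1'
    constructor <;> linarith only [u0, u1, u2, u3, l0, l1, l2', l3, g1', g2', hr, hp]
  · have f3 : 2 ^ k * (v - ((τ r : ℕ) : ℤ) * (-1 - 2)) =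
        2 ^ k * v + 3 * (((τ r : ℕ) : ℤ) * 2 ^ k) := by ring
    rw [f3]
    rw [mul_assoc] at g1'
    constructor <;> linarith only [u0, u1, u2, u3, l0, l1, l2', l3, g1', g2', hr, hp]

/-- **The operator bound of the kernel of the fibre**, every order `τ` of the roles, every value of
`y0`, `y1`: `P` and `G` are evaluated only inside the used cell. -/
theorem kerS_le (τ : Equiv.Perm (Fin 4)) {s : ℤ} {k : ℕ} {y : ℤ} {δ C C' eD eA : ℝ} (hδ0 : 0 < δ)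
    (hδ1 : 2 * δ ≤ 1) (hC : 1 ≤ C) (hC' : 0 ≤ C') (heD : 0 ≤ eD) (heA : 0 ≤ eA)
    {GP D A M G : ℤ → ℝ}
    (hu : ∀ u : Pt × Tri, |dot ((gr 7 s).cube k y) GP (a1 (fc (τ 0)) k u)| ≤
      wP δ (cube3 k u.1) u.2)
    (eP : dot ((gr 7 s).cube k y) GP GP ≤ C * ((gr 7 s).cube k y).card)
    (hD : dot ((gr 7 s).cube k y) D D ≤ eD * ((gr 7 s).cube k y).card)
    (hA : dot ((gr 7 s).cube k y) A A ≤ eA * ((gr 7 s).cube k y).card)
    (eG : dot ((gr 7 s).cube k y) G G ≤ C' * ((gr 7 s).cube k y).card)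
    (hM : ∀ t ∈ (gr 7 s).cube k y, M t = GP t + D t - A t) {y0 y1 j2 j3 : ℤ}
    (hin : ∀ y2 ∈ ivm k j2, ∀ y3 ∈ ivm k j3,
      dl τ 1 0 * y1 + dl τ 2 0 * y2 + dl τ 3 0 * y3 ∈ (gr 7 s).cube k y ∧
      dl τ 0 1 * y0 + dl τ 2 1 * y2 + dl τ 3 1 * y3 ∈ (gr 7 s).cube k y) (b d : ℤ → ℝ) :
    |av2 (ivm k j2) (ivm k j3) (fun y2 y3 => b y2 * kerS τ M G y0 y1 y2 y3 * d y3)| ≤
      kOp C C' δ eD eA * √(avg (ivm k j2) fun x => b x ^ 2) *
        √(avg (ivm k j3) fun x => d x ^ 2) := by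
  have hne := fun i j => (dl_facts τ i j).2
  have hle := fun i j => (dl_facts τ i j).1
  have h := op_le (dl_det τ) (hne 3 2 (by decide)) (hne 1 0 (by decide)) (hne 2 0 (by decide))
    (hne 3 0 (by decide)) (hne 2 1 (by decide)) (hne 3 1 (by decide)) (hle 3 2) (hle 1 0)
    (hle 2 0) (hle 3 0) (hle 2 1) (hle 3 1) hδ0 hδ1 hC hC' heD heA
    (UQ.perm τ (fun q u => hu (q, u))) eP hD hA eG hM y1 j2 j3 (dl τ 0 1 * y0) b d
  refine le_trans (le_of_eq ?_) h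
  congr 1
  unfold av2
  refine H337.avg_congr fun x2 hx2 => H337.avg_congr fun x3 hx3 => ?_
  obtain ⟨h1, h2⟩ := hin x2 hx2 x3 hx3
  beta_reduce
  rw [ct_of_mem h1, ct_of_mem h2]
  rfl

/-- **The operator bound on the box of a used node**: the form of `hS` in `H865.hop_of`. -/
theorem kerS_box {o : ℤ} (ho : o = 1 ∨ o = -1) (τ : Equiv.Perm (Fin 4)) {s : ℤ} {k : ℕ} {y : ℤ}
    {δ C C' eD eA : ℝ} (hδ0 : 0 < δ) (hδ1 : 2 * δ ≤ 1) (hC : 1 ≤ C) (hC' : 0 ≤ C') (heD : 0 ≤ eD)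
    (heA : 0 ≤ eA) {GP D A M G : ℤ → ℝ}
    (hu : ∀ u : Pt × Tri, |dot ((gr 7 s).cube k y) GP (a1 (fc (τ 0)) k u)| ≤
      wP δ (cube3 k u.1) u.2)
    (eP : dot ((gr 7 s).cube k y) GP GP ≤ C * ((gr 7 s).cube k y).card)
    (hD : dot ((gr 7 s).cube k y) D D ≤ eD * ((gr 7 s).cube k y).card)
    (hA : dot ((gr 7 s).cube k y) A A ≤ eA * ((gr 7 s).cube k y).card)
    (eG : dot ((gr 7 s).cube k y) G G ≤ C' * ((gr 7 s).cube k y).card)
    (hM : ∀ t ∈ (gr 7 s).cube k y, M t = GP t + D t - A t) {y0 y1 m : ℤ}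
    (hsub : W k (H606.vz o τ k y0 y1 m) ⊆ (gr 7 s).cube k y) (b d : ℤ → ℝ) :
    |av2 (ivm k m) (ivm k (H606.cz o k y0 y1 - m))
      (fun y2 y3 => b y2 * kerS τ M G y0 y1 y2 y3 * d y3)| ≤
      kOp C C' δ eD eA * √(avg (ivm k m) fun x => b x ^ 2) *
        √(avg (ivm k (H606.cz o k y0 y1 - m)) fun x => d x ^ 2) := by
  refine kerS_le τ hδ0 hδ1 hC hC' heD heA hu eP hD hA eG hM (fun y2 hy2 y3 hy3 => ?_) b d
  have h0 := hsub (form_mem ho τ hy2 hy3 0)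
  have h1 := hsub (form_mem ho τ hy2 hy3 1)
  have e0 : ∀ i, dl τ i i = 0 := fun i => by unfold dl; ring
  rw [e0, zero_mul, zero_add] at h0
  rw [e0, zero_mul, add_zero] at h1
  exact ⟨h0, h1⟩

end

end Vale.Agent.P141.H829
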