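import Vale.Agent.P141.H747.GridF
import Vale.Agent.P141.H581.StageX
import Vale.Agent.P141.H257.Cmp
import Vale.Agent.P141.H338.Lab2
import Vale.Agent.P141.H609.Reg1

/-!
# P141, line (A): the crude pair sum at the hub `x3`, stacked slot with labels

Letters of `H747.GridF`: `z` = `x3` first, nodes `(m3, m2, m1)`.

* `RP_CA`, `RP_AB`, `RP_BC` : static pairs of two paths at all levels, in the letters of `RP`;
* `RP_CA_lab`, `RP_AB_lab`, `RP_BC_lab` : the same with labels (last digits);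
* `gram_cmp`, `quad_enc`, `stack_cmp` : comparison of the Gram matrices in `x3`;
* `RP_CA_stack` : the slot `G C` with `G` constant in `x3` on the cell: any levels.
-/

namespace Vale.Agent.P141.H829

open Finset Matrix
open Vale.Agent.P075 (Ix phi gramC gramR)
open Vale.Agent.P141.PL (Pt iv ix mem_iv)
open Vale.Agent.P141.PL.H588 (hd Pl sum_iv)
open Vale.Agent.P141.PL.H804 (bx3 bl M2 M2_nonneg mnk_one mnk_two mnk_three exists_ext hd_symm)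
open Vale.Agent.P141.H736 (Path)
open Vale.Agent.P141.H958
open Vale.Agent.P141.H338 (cu)
open Vale.Agent.P141.H609 (RP NM)
open Vale.Agent.P141.H747 (sL gA gB gC)

noncomputable section

open scoped Classical

/-! ### Static pairs -/

section static

variable {N : ℕ} {R : Pt} {c : ℕ → ℤ} {A B C : ℕ → ℤ → ℤ → ℝ} {s : ℕ → Finset Pt}
  {QA QB QC : ℕ → ℤ → ℤ → Prop} {DA DB DC x y : ℝ}

theorem RP_le_bx (hs : ∀ k ∈ Icc 1 N, s k ⊆ bx3 N R k (c k)) (hx : 0 < x) (hy : 0 < y)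
    (F H : NM) : RP N s x y F H ≤ x ^ 2 * y ^ 2 * ∑ k ∈ Icc 1 N, ∑ m ∈ bx3 N R k (c k),
      4 ^ k * M2 (hd k) ((x ^ 2)⁻¹ * (4 ^ k)⁻¹) ((y ^ 2)⁻¹ * (4 ^ k)⁻¹) (F k m) (H k m) := by
  unfold H609.RP
  rw [mul_sum]
  refine sum_le_sum fun k hk => ?_
  rw [mul_sum]
  refine sum_le_sum_of_subset_of_nonneg (hs k hk) fun m _ _ => ?_
  exact mul_nonneg (by positivity) (mul_nonneg (by positivity)
    (M2_nonneg (hd_symm _) (by positivity) (by positivity) _ _))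

/-- **Static pair at the hub `x3`.** -/
theorem RP_CA (hc : Pl c) (hs : ∀ k ∈ Icc 1 N, s k ⊆ bx3 N R k (c k))
    (eA : L2E N R.1 R.2.1 QA A DA) (eC : L2E N R.1 R.2.2 QC C DC) (hx : 0 < x) (hy : 0 < y) :
    RP N s x y (fun k m => (bl k (C k) m.1 m.2.2)ᵀ) (fun k m => bl k (A k) m.1 m.2.1) ≤
      550 * (x ^ 2 * DA + y ^ 2 * DC) := by
  refine (RP_le_bx hs hx hy _ _).trans ?_
  have hx2 : 0 ≤ (x ^ 2)⁻¹ := by positivity
  have hy2 : 0 ≤ (y ^ 2)⁻¹ := by positivity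
  have h := pairE22 hc (eA.swap.smul hy2) (eC.swap.smul hx2)
  have e : prs N R.2.1 R.1 R.2.2 c (wp (y ^ 2)⁻¹ (sp A)) (wp (x ^ 2)⁻¹ (sp C)) =
      ∑ k ∈ Icc 1 N, ∑ m ∈ bx3 N R k (c k), 4 ^ k * M2 (hd k) ((x ^ 2)⁻¹ * (4 ^ k)⁻¹)
        ((y ^ 2)⁻¹ * (4 ^ k)⁻¹) (bl k (C k) m.1 m.2.2)ᵀ (bl k (A k) m.1 m.2.1) :=
    sum_congr rfl fun k _ => mnk_one N R k (c k) hy2 hx2 (A k) (C k)
  rw [e] at h
  have h2 := mul_le_mul_of_nonneg_left h (by positivity : 0 ≤ x ^ 2 * y ^ 2)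
  refine h2.trans (le_of_eq ?_)
  field_simp

/-- **Static pair at the hub `x2`.** -/
theorem RP_AB (hc : Pl c) (hs : ∀ k ∈ Icc 1 N, s k ⊆ bx3 N R k (c k))
    (eA : L2E N R.1 R.2.1 QA A DA) (eB : L2E N R.2.1 R.2.2 QB B DB) (hx : 0 < x) (hy : 0 < y) :
    RP N s x y (fun k m => bl k (A k) m.1 m.2.1) (fun k m => bl k (B k) m.2.1 m.2.2) ≤
      550 * (y ^ 2 * DA + x ^ 2 * DB) := by
  refine (RP_le_bx hs hx hy _ _).trans ?_
  have hx2 : 0 ≤ (x ^ 2)⁻¹ := by positivity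
  have hy2 : 0 ≤ (y ^ 2)⁻¹ := by positivity
  have h := pairE22 hc (eA.smul hx2) (eB.swap.smul hy2)
  have e : prs N R.1 R.2.1 R.2.2 c (wp (x ^ 2)⁻¹ A) (wp (y ^ 2)⁻¹ (sp B)) =
      ∑ k ∈ Icc 1 N, ∑ m ∈ bx3 N R k (c k), 4 ^ k * M2 (hd k) ((x ^ 2)⁻¹ * (4 ^ k)⁻¹)
        ((y ^ 2)⁻¹ * (4 ^ k)⁻¹) (bl k (A k) m.1 m.2.1) (bl k (B k) m.2.1 m.2.2) :=
    sum_congr rfl fun k _ => mnk_two N R k (c k) hx2 hy2 (A k) (B k)
  rw [e] at h
  have h2 := mul_le_mul_of_nonneg_left h (by positivity : 0 ≤ x ^ 2 * y ^ 2)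
  refine h2.trans (le_of_eq ?_)
  field_simp

/-- **Static pair at the hub `x1`.** -/
theorem RP_BC (hc : Pl c) (hs : ∀ k ∈ Icc 1 N, s k ⊆ bx3 N R k (c k))
    (eB : L2E N R.2.1 R.2.2 QB B DB) (eC : L2E N R.1 R.2.2 QC C DC) (hx : 0 < x) (hy : 0 < y) :
    RP N s x y (fun k m => bl k (B k) m.2.1 m.2.2) (fun k m => (bl k (C k) m.1 m.2.2)ᵀ) ≤
      550 * (y ^ 2 * DB + x ^ 2 * DC) := by
  refine (RP_le_bx hs hx hy _ _).trans ?_
  have hx2 : 0 ≤ (x ^ 2)⁻¹ := by positivity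
  have hy2 : 0 ≤ (y ^ 2)⁻¹ := by positivity
  have h := pairE22 hc (eB.smul hx2) (eC.smul hy2)
  have e : prs N R.2.1 R.2.2 R.1 c (wp (x ^ 2)⁻¹ B) (wp (y ^ 2)⁻¹ C) =
      ∑ k ∈ Icc 1 N, ∑ m ∈ bx3 N R k (c k), 4 ^ k * M2 (hd k) ((x ^ 2)⁻¹ * (4 ^ k)⁻¹)
        ((y ^ 2)⁻¹ * (4 ^ k)⁻¹) (bl k (B k) m.2.1 m.2.2) (bl k (C k) m.1 m.2.2)ᵀ :=
    sum_congr rfl fun k _ => mnk_three N R k (c k) hx2 hy2 (B k) (C k)
  rw [e] at h
  have h2 := mul_le_mul_of_nonneg_left h (by positivity : 0 ≤ x ^ 2 * y ^ 2)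
  refine h2.trans (le_of_eq ?_)
  field_simp

end static

/-! ### Labels -/

section lab

variable {N L : ℕ} {R : Pt} {c : ℕ → ℤ} {A : ℕ → ℤ → ℤ → ℝ} {κ : Type*} [Fintype κ]
  {b C : ℕ → ℤ → ℤ → κ → ℝ} {e : κ → ℤ} {s : ℕ → Finset Pt}
  {QA QB QC : ℕ → ℤ → ℤ → Prop} {DA DB DC x y : ℝ}

theorem sL_eq (L : ℕ) (s : ℕ → Finset Pt) : sL L s = shs L s := by
  funext k
  unfold H747.sL H958.shs
  by_cases h : L < k
  · rw [if_pos h, if_pos (show L + 1 ≤ k from h)]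
  · rw [if_neg h, if_neg (by omega)]

theorem gA_eq (h0 : A 0 = 0) : gA L A = shF L fun k => dup L (A k) := by
  funext k
  unfold H747.gA H958.shF
  by_cases h : L ≤ k
  · rw [if_pos h]
  · rw [if_neg h, show k - L = 0 by omega, h0]
    funext x y
    rw [dup_apply]
    rfl

theorem cu_zero' (l : ℤ) : cu e (0 : κ → ℝ) l = 0 := by
  have h := H338.cu_smul (e := e) 0 (0 : κ → ℝ) l
  have e1 : (fun i => (0 : ℝ) * (0 : κ → ℝ) i) = (0 : κ → ℝ) := by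
    funext i
    exact zero_mul _
  rw [e1, zero_mul] at h
  exact h

theorem gR_eq (h0 : C 0 = 0) : (fun k => encR L fun lab z x => cu e (C (k - L) z x) lab) =
    shF L fun k => encR L fun lab z x => cu e (C k z x) lab := by
  funext k
  unfold H958.shF
  by_cases h : L ≤ k
  · rw [if_pos h]
  · rw [if_neg h, show k - L = 0 by omega, h0]
    funext x y
    rw [encR_apply]
    show √(2 ^ L) * cu e (0 : κ → ℝ) (lb L y) = 0
    rw [cu_zero', mul_zero]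

/-- the label paths of a vector path -/
theorem lab_zero (h0 : C 0 = 0) : (fun lab z x => cu e (C 0 z x) lab) = (0 : ℤ → ℤ → ℤ → ℝ) := by
  funext lab z x
  rw [h0]
  exact cu_zero' lab

theorem L2E_gR (h0 : C 0 = 0) {r1 r2 : ℤ}
    (pC : ∀ l ∈ lbs L, Path N r1 r2 QC fun k z x => cu e (C k z x) l)
    (oC : ∑ l ∈ lbs L, pwr N r1 r2 QC (fun k z x => cu e (C k z x) l) ≤ DC) :
    L2E (N + L) r1 r2 (shQ L QC) (fun k => encR L fun lab z x => cu e (C (k - L) z x) lab)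
      (4 ^ L * DC) := by
  rw [gR_eq h0]
  exact H338.L2E_encR (F := fun k lab z x => cu e (C k z x) lab) (lab_zero h0) pC oC

theorem L2E_gA {r1 r2 : ℤ} (eA : L2E N r1 r2 QA A DA) :
    L2E (N + L) r1 r2 (shQ L QA) (gA L A) (4 ^ L * DA) := by
  rw [gA_eq eA.zero]
  exact H338.L2E_dup eA

/-- **Static pair at the hub `x3` with labels.** -/
theorem RP_CA_lab (hc : Pl c) (hs : ∀ k ∈ Icc 1 N, s k ⊆ bx3 N R k (c k))
    (eA : L2E N R.1 R.2.1 QA A DA) (hC0 : C 0 = 0)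
    (pC : ∀ l ∈ lbs L, Path N R.1 R.2.2 QC fun k z x => cu e (C k z x) l)
    (oC : ∑ l ∈ lbs L, pwr N R.1 R.2.2 QC (fun k z x => cu e (C k z x) l) ≤ DC)
    (hx : 0 < x) (hy : 0 < y) :
    RP (N + L) (sL L s) x y (fun k m => (bl k (gC L e C k) m.1 m.2.2)ᵀ)
      (fun k m => bl k (gA L A k) m.1 m.2.1) ≤ 550 * 4 ^ L * (x ^ 2 * DA + y ^ 2 * DC) := by
  rw [sL_eq]
  have h := RP_CA (shc_pl (L := L) hc) (H338.shs_sub (L := L) hs) (L2E_gA (L := L) eA)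
    (L2E_gR (L := L) hC0 pC oC) hx hy
  refine h.trans (le_of_eq ?_)
  ring

/-- **Static pair at the hub `x2` with labels.** -/
theorem RP_AB_lab (hc : Pl c) (hs : ∀ k ∈ Icc 1 N, s k ⊆ bx3 N R k (c k))
    (eA : L2E N R.1 R.2.1 QA A DA) (hb0 : b 0 = 0)
    (pb : ∀ l ∈ lbs L, Path N R.2.1 R.2.2 QB fun k y x => cu e (b k x y) l)
    (ob : ∑ l ∈ lbs L, pwr N R.2.1 R.2.2 QB (fun k y x => cu e (b k x y) l) ≤ DB)
    (hx : 0 < x) (hy : 0 < y) :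
    RP (N + L) (sL L s) x y (fun k m => bl k (gA L A k) m.1 m.2.1)
      (fun k m => bl k (gB L e b k) m.2.1 m.2.2) ≤ 550 * 4 ^ L * (y ^ 2 * DA + x ^ 2 * DB) := by
  rw [sL_eq]
  have hb0' : (fun k y x => b k x y) 0 = (0 : ℤ → ℤ → κ → ℝ) := by
    funext y x
    show b 0 x y = 0
    rw [hb0]
    rfl
  have h := RP_AB (shc_pl (L := L) hc) (H338.shs_sub (L := L) hs) (L2E_gA (L := L) eA)
    (L2E_gR (L := L) (C := fun k y x => b k x y) hb0' pb ob) hx hy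
  refine h.trans (le_of_eq ?_)
  ring

/-- **Static pair at the hub `x1` with labels.** -/
theorem RP_BC_lab (hc : Pl c) (hs : ∀ k ∈ Icc 1 N, s k ⊆ bx3 N R k (c k))
    (hb0 : b 0 = 0) (pb : ∀ l ∈ lbs L, Path N R.2.1 R.2.2 QB fun k y x => cu e (b k x y) l)
    (ob : ∑ l ∈ lbs L, pwr N R.2.1 R.2.2 QB (fun k y x => cu e (b k x y) l) ≤ DB)
    (hC0 : C 0 = 0) (pC : ∀ l ∈ lbs L, Path N R.1 R.2.2 QC fun k z x => cu e (C k z x) l)
    (oC : ∑ l ∈ lbs L, pwr N R.1 R.2.2 QC (fun k z x => cu e (C k z x) l) ≤ DC)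
    (hx : 0 < x) (hy : 0 < y) :
    RP (N + L) (sL L s) x y (fun k m => bl k (gB L e b k) m.2.1 m.2.2)
      (fun k m => (bl k (gC L e C k) m.1 m.2.2)ᵀ) ≤ 550 * 4 ^ L * (y ^ 2 * DB + x ^ 2 * DC) := by
  rw [sL_eq]
  have hb0' : (fun k y x => b k x y) 0 = (0 : ℤ → ℤ → κ → ℝ) := by
    funext y x
    show b 0 x y = 0
    rw [hb0]
    rfl
  have h := RP_BC (shc_pl (L := L) hc) (H338.shs_sub (L := L) hs)
    (L2E_gR (L := L) (C := fun k y x => b k x y) hb0' pb ob) (L2E_gR (L := L) hC0 pC oC) hx hy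
  refine h.trans (le_of_eq ?_)
  ring

end lab

/-! ### Comparison of the Gram matrices in `x3` -/

/-- comparison of two Gram matrices of blocks from their quadratic forms -/
theorem gram_cmp {k : ℕ} {F F' : ℤ → ℤ → ℝ} {n m : ℤ} {K : ℝ}
    (h : ∀ w : ℤ → ℝ, ∑ x ∈ iv k m, (∑ z ∈ iv k n, w z * F z x) ^ 2 ≤
      K ^ 2 * ∑ x ∈ iv k m, (∑ z ∈ iv k n, w z * F' z x) ^ 2) :
    (K ^ 2 • (((bl k F' n m)ᵀ)ᵀ * (bl k F' n m)ᵀ) -
      ((bl k F n m)ᵀ)ᵀ * (bl k F n m)ᵀ).PosSemidef := by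
  refine PosSemidef.of_dotProduct_mulVec_nonneg ?_ fun v => ?_
  · change _ᴴ = _
    rw [conjTranspose_eq_transpose_of_trivial]
    simp [Matrix.transpose_mul]
  · obtain ⟨w, hw⟩ := exists_ext k n v
    have q : ∀ G : ℤ → ℤ → ℝ, v ⬝ᵥ ((((bl k G n m)ᵀ)ᵀ * (bl k G n m)ᵀ) *ᵥ v) =
        ∑ x ∈ iv k m, (∑ z ∈ iv k n, w z * G z x) ^ 2 := by
      intro G
      rw [← mulVec_mulVec, dotProduct_mulVec, vecMul_transpose, sum_iv, dotProduct]
      refine sum_congr rfl fun j _ => ?_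
      rw [sum_iv, ← pow_two]
      congr 1
      show ∑ i : Ix k, (bl k G n m) i j * v i = _
      refine sum_congr rfl fun i _ => ?_
      rw [hw i, mul_comm]
      rfl
    rw [star_trivial, Matrix.sub_mulVec, dotProduct_sub, smul_mulVec, dotProduct_smul, q F', q F,
      smul_eq_mul, sub_nonneg]
    exact h w

/-- the quadratic form of a block with labels -/
theorem quad_enc {κ : Type*} [Fintype κ] {L : ℕ} {e : κ → ℤ} (he : Function.Injective e)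
    (hm : ∀ i, e i ∈ lbs L) (k : ℕ) (S : ℤ → ℤ → κ → ℝ) (n m : ℤ) (w : ℤ → ℝ) :
    ∑ x ∈ iv (k + L) m, (∑ z ∈ iv (k + L) n,
      w z * encR L (fun lab z x => cu e (S z x) lab) z x) ^ 2 =
    2 ^ L * ∑ x ∈ iv k m, (∑ z ∈ iv k n, (∑ l ∈ lbs L, w (2 ^ L * z + l)) • S z x) ⬝ᵥ
      (∑ z ∈ iv k n, (∑ l ∈ lbs L, w (2 ^ L * z + l)) • S z x) := by
  set W : ℤ → ℝ := fun z => ∑ l ∈ lbs L, w (2 ^ L * z + l) with hW
  rw [sum_iv_add' L k m, mul_sum]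
  refine sum_congr rfl fun x _ => ?_
  have h1 : ∀ l ∈ lbs L, (∑ z ∈ iv (k + L) n,
      w z * encR L (fun lab z x => cu e (S z x) lab) z (2 ^ L * x + l)) ^ 2 =
      2 ^ L * (cu e (∑ z ∈ iv k n, W z • S z x) l * cu e (∑ z ∈ iv k n, W z • S z x) l) := by
    intro l hl
    have e1 : ∑ z ∈ iv (k + L) n,
        w z * encR L (fun lab z x => cu e (S z x) lab) z (2 ^ L * x + l) =
        √(2 ^ L) * cu e (∑ z ∈ iv k n, W z • S z x) l := by
      rw [sum_iv_add' L k n]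
      have e2 : cu e (∑ z ∈ iv k n, W z • S z x) l = ∑ z ∈ iv k n, W z * cu e (S z x) l := by
        have e3 : (∑ z ∈ iv k n, W z • S z x) = fun i => ∑ z ∈ iv k n, W z * S z x i := by
          funext i
          rw [Finset.sum_apply]
          rfl
        rw [e3, H338.cu_sum]
        refine sum_congr rfl fun z _ => ?_
        exact H338.cu_smul (W z) (S z x) l
      rw [e2, mul_sum]
      refine sum_congr rfl fun z _ => ?_
      have e4 : ∀ l' ∈ lbs L, w (2 ^ L * z + l') *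
          encR L (fun lab z x => cu e (S z x) lab) (2 ^ L * z + l') (2 ^ L * x + l) =
          w (2 ^ L * z + l') * (√(2 ^ L) * cu e (S z x) l) := by
        intro l' hl'
        rw [encR_apply, lb_mk hl, ix_mk hl, ix_mk hl']
      rw [sum_congr rfl e4, ← sum_mul]
      show W z * _ = _
      ring
    rw [e1, mul_pow, Real.sq_sqrt (by positivity), pow_two]
  rw [sum_congr rfl h1, ← mul_sum, H338.sum_cu_cu he hm]
  rfl

section stack

variable {N L : ℕ} {R : Pt} {c : ℕ → ℤ} {A : ℕ → ℤ → ℤ → ℝ} {κ κ' : Type*} [Fintype κ]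
  [Fintype κ'] {C : ℕ → ℤ → ℤ → κ → ℝ} {S : ℕ → ℤ → ℤ → κ' → ℝ} {e : κ → ℤ} {e' : κ' → ℤ}
  {s : ℕ → Finset Pt} {QA QC : ℕ → ℤ → ℤ → Prop} {DA DC x y K : ℝ}

/-- **Comparison with the slot without the matrix**: at the node, for every `x1` the slot `S` is
`G C` with `G` constant in `x3`. -/
theorem stack_cmp (he : Function.Injective e) (hm : ∀ i, e i ∈ lbs L)
    (he' : Function.Injective e') (hm' : ∀ i, e' i ∈ lbs L) {k : ℕ} {n m : ℤ}
    (h : ∀ x ∈ iv k m, ∃ G : Matrix κ' κ ℝ, (∀ z ∈ iv k n, S k z x = G *ᵥ C k z x) ∧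
      ∀ v : κ → ℝ, (G *ᵥ v) ⬝ᵥ (G *ᵥ v) ≤ K ^ 2 * (v ⬝ᵥ v)) :
    (K ^ 2 • (((bl (k + L) (gC L e C (k + L)) n m)ᵀ)ᵀ * (bl (k + L) (gC L e C (k + L)) n m)ᵀ) -
      ((bl (k + L) (gC L e' S (k + L)) n m)ᵀ)ᵀ *
        (bl (k + L) (gC L e' S (k + L)) n m)ᵀ).PosSemidef := by
  refine gram_cmp fun w => ?_
  unfold H747.gC
  rw [Nat.add_sub_cancel, quad_enc he' hm' k (S k) n m w, quad_enc he hm k (C k) n m w]
  rw [← mul_assoc, mul_comm (K ^ 2), mul_assoc]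
  refine mul_le_mul_of_nonneg_left ?_ (by positivity)
  rw [mul_sum]
  refine sum_le_sum fun x hx => ?_
  obtain ⟨G, h1, h2⟩ := h x hx
  have e1 : (∑ z ∈ iv k n, (∑ l ∈ lbs L, w (2 ^ L * z + l)) • S k z x) =
      G *ᵥ (∑ z ∈ iv k n, (∑ l ∈ lbs L, w (2 ^ L * z + l)) • C k z x) := by
    rw [← Matrix.mulVecLin_apply, map_sum]
    refine sum_congr rfl fun z hz => ?_
    rw [map_smul, Matrix.mulVecLin_apply, h1 z hz]
  rw [e1]
  exact h2 _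

/-- **The pair `(C~, A)` at the hub `x3`, any levels**: `C~ = G C`, `G` constant in `x3` on the
cells, `|G| ≤ K`. -/
theorem RP_CA_stack (hc : Pl c) (hs : ∀ k ∈ Icc 1 N, s k ⊆ bx3 N R k (c k))
    (he : Function.Injective e) (hm : ∀ i, e i ∈ lbs L)
    (he' : Function.Injective e') (hm' : ∀ i, e' i ∈ lbs L)
    (eA : L2E N R.1 R.2.1 QA A DA) (hC0 : C 0 = 0)
    (pC : ∀ l ∈ lbs L, Path N R.1 R.2.2 QC fun k z x => cu e (C k z x) l)
    (oC : ∑ l ∈ lbs L, pwr N R.1 R.2.2 QC (fun k z x => cu e (C k z x) l) ≤ DC) (hK : 0 < K)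
    (h : ∀ k ∈ Icc 1 N, ∀ m ∈ s k, ∀ x ∈ iv k m.2.2, ∃ G : Matrix κ' κ ℝ,
      (∀ z ∈ iv k m.1, S k z x = G *ᵥ C k z x) ∧
      ∀ v : κ → ℝ, (G *ᵥ v) ⬝ᵥ (G *ᵥ v) ≤ K ^ 2 * (v ⬝ᵥ v)) (hx : 0 < x) (hy : 0 < y) :
    RP (N + L) (sL L s) x y (fun k m => (bl k (gC L e' S k) m.1 m.2.2)ᵀ)
      (fun k m => bl k (gA L A k) m.1 m.2.1) ≤
        550 * 4 ^ L * (x ^ 2 * DA + y ^ 2 * (K ^ 2 * DC)) := by
  have h1 := H257.RP_cmpL (N := N + L) (s := sL L s) (x := x) (y := y)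
    (F' := fun k m => (bl k (gC L e C k) m.1 m.2.2)ᵀ)
    (F := fun k m => (bl k (gC L e' S k) m.1 m.2.2)ᵀ)
    (H := fun k m => bl k (gA L A k) m.1 m.2.1) hK hx (fun k hk m hmem => by
      unfold H747.sL at hmem
      split_ifs at hmem with hL
      · obtain ⟨j, rfl⟩ : ∃ j, k = j + L := ⟨k - L, by omega⟩
        rw [Nat.add_sub_cancel] at hmem
        have hj : j ∈ Icc 1 N := by
          rw [mem_Icc] at hk ⊢
          omega
        exact stack_cmp he hm he' hm' (h j hj m hmem)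
      · exact absurd hmem (notMem_empty m))
  have h2 := RP_CA_lab hc hs eA hC0 pC oC (div_pos hx hK) hy
  refine h1.trans ((mul_le_mul_of_nonneg_left h2 (by positivity)).trans (le_of_eq ?_))
  field_simp

end stack

end

end Vale.Agent.P141.H829
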