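import Vale.Agent.P141.H829.PairFD
import Vale.Agent.P141.H747.StageM
import Vale.Agent.P141.H677.GenM

/-!
# P141, line (A): the crude pair `(C~, A)` in the letters of `H747.StageM`, any slot

* `RX_CA_SM` : any slot with `|R| ^ 2 ≤ q₀`, third family `ν C`;
* `RX_CA_SN` : slots `H677.Sk.SlotN`, third family `(√ez)⁻¹ C`: no `ez` left;
* `hZA_SN`, `hLow_SN` : equal levels, and the second level below `x / √(ε² + κ²)`.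
-/

namespace Vale.Agent.P141.H829

open Finset Matrix
open Vale.Agent.P141.PL (Pt iv ix mem_iv ix_ix cx)
open Vale.Agent.P141.PL.H804 (bl)
open Vale.Agent.P141.PL.H315 (Tri)
open Vale.Agent.P141.H958 (lbs)
open Vale.Agent.P141.H581 (RX)
open Vale.Agent.P141.H747 (sL sG gA gC shA shC sft RgS MA MC MSc RgS_le)
open Vale.Agent.P141.H677.Sk (FamA FamV FDs Slt SlotN)
open Vale.Agent.P141.H305 (Cls)

noncomputable section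

open scoped Classical

section bundle

variable {ι : Type} [Fintype ι] [DecidableEq ι] {p : H401.Num} {n : ℕ} {ez : ℝ}
  {F1 F2 F3 : ℕ → Pt → ℝ} {K : ℕ} {x : Pt} {s r P : ℝ} {U : Tri} {g : ℤ → ℤ → ℝ}
  {u v : ℤ → ℤ → ι → ℝ} {A : FamA} {b C : FamV ι} {Q1 Q2 Q3 : ℕ → Pt → Prop}
  {v' : ℤ → ℤ → ι → ℝ}

omit [Fintype ι] [DecidableEq ι] in
theorem shC_smul (K : ℕ) (M w : Pt) (ν : ℝ) (C : ℕ → ℤ → ℤ → ι → ℝ) (k : ℕ) (z x' : ℤ) :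
    shC K M w (fun k z x' => ν • C k z x') k z x' = ν • shC K M w C k z x' := by
  unfold H747.shC H747.sft
  split_ifs
  · rfl
  · rw [smul_zero]

/-- **The pair `(C~, A)` in the letters of `H747.StageM`**: any slot with `|R| ^ 2 ≤ q₀`, third
family `ν C`, any levels. -/
theorem RX_CA_SM (h : FDs p n ez F1 F2 F3 K x s r U g u v A b C Q1 Q2 Q3 v')
    (hcl : Cls K x s r P U g u v) (hs : 0 ≤ s) (hΛ : 1 ≤ p.Lm) (hCD : 0 ≤ p.CD) (hez : 0 ≤ ez)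
    (hK : K ≤ n) {L : ℕ} {e : ι ⊕ ι → ℤ} (he : Function.Injective e) (hm : ∀ i, e i ∈ lbs L)
    {w : Pt} {j : ℤ} (hj : j ∈ Icc (0 : ℤ) 2) {q : Pt} {t : ℤ} {ε q₀ ν : ℝ} (hν : 0 < ν)
    (hq : 0 < ε ^ 2 + q₀) {R : Slt ι}
    (hR : ∀ x0 ∈ iv K t, ∀ z x', ∀ a : ι → ℝ,
      (R x0 0 z x' *ᵥ a) ⬝ᵥ (R x0 0 z x' *ᵥ a) ≤ q₀ * (a ⬝ᵥ a)) {α β : ℝ}
    (hα : 0 < α) (hβ : 0 < β) :
    RX (iv K t) (K + L) (fun x0 => sL L (sG K (cx K x) (-x0) w j q)) α β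
      (MC K (cx K x) R (fun x0 k z x' => ν • C x0 k z x') L e ε w) (MA K (cx K x) A L w) ≤
        35200 * 4 ^ L * (p.cP + 2) * 8 ^ K * (α ^ 2 * (p.CD * (p.Lm * s)) +
          β ^ 2 * (ν ^ 2 * (ε ^ 2 + q₀) * (4 * p.Lm * ez * s))) := by
  have hq' : 0 < (ν * ε) ^ 2 + ν ^ 2 * q₀ := by
    have h1 : (ν * ε) ^ 2 + ν ^ 2 * q₀ = ν ^ 2 * (ε ^ 2 + q₀) := by ring
    rw [h1]
    positivity
  have h1 := RX_CA_FD (j := j) (w := w) (q := q) (t := t) (ε := ν * ε) (q₀ := ν ^ 2 * q₀)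
    (α := α) (β := β) (L := L) (e := e) h hcl hs hΛ hCD hez hK he hm hj hq'
    (Qg := fun x0 k n x' => ν • RgS R w.2.2 w.1 x0 k n x') (by
      intro x0 hx0 k _ n' x' a
      rw [smul_mulVec, smul_dotProduct, dotProduct_smul, smul_eq_mul, smul_eq_mul]
      have h2 := RgS_le (hR x0 hx0) w.2.2 w.1 k n' x' a
      have h3 : 0 ≤ ν * ν := mul_self_nonneg _
      calc ν * (ν * ((RgS R w.2.2 w.1 x0 k n' x' *ᵥ a) ⬝ᵥ (RgS R w.2.2 w.1 x0 k n' x' *ᵥ a)))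
          = ν * ν * ((RgS R w.2.2 w.1 x0 k n' x' *ᵥ a) ⬝ᵥ
            (RgS R w.2.2 w.1 x0 k n' x' *ᵥ a)) := by ring
        _ ≤ ν * ν * (q₀ * (a ⬝ᵥ a)) := mul_le_mul_of_nonneg_left h2 h3
        _ = _ := by ring) hα hβ
  have e1 : (MC K (cx K x) R (fun x0 k z x' => ν • C x0 k z x') L e ε w) =
      fun x0 k m => (bl k (gC L e (fun k z x' => Sum.elim ((ν * ε) • shC K (cx K x) w (C x0) k z x')
        ((ν • RgS R w.2.2 w.1 x0 k (ix k z) x') *ᵥ shC K (cx K x) w (C x0) k z x')) k)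
          m.1 m.2.2)ᵀ := by
    funext x0 k m
    unfold H747.MC
    congr 3
    funext k z x'
    unfold H747.MSc
    rw [shC_smul, smul_smul, mul_comm ε ν, mulVec_smul, smul_mulVec]
  rw [e1]
  refine h1.trans (le_of_eq ?_)
  ring

/-- **The pair `(C~, A)` for a slot `SlotN`**, third family `(√ez)⁻¹ C`, any levels. -/
theorem RX_CA_SN (h : FDs p n ez F1 F2 F3 K x s r U g u v A b C Q1 Q2 Q3 v')
    (hcl : Cls K x s r P U g u v) (hs : 0 ≤ s) (hΛ : 1 ≤ p.Lm) (hCD : 0 ≤ p.CD) (hez : 0 < ez)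
    (hK : K ≤ n) {L : ℕ} {e : ι ⊕ ι → ℤ} (he : Function.Injective e) (hm : ∀ i, e i ∈ lbs L)
    {w : Pt} {j : ℤ} (hj : j ∈ Icc (0 : ℤ) 2) {q : Pt} {t : ℤ} {ε : ℝ} {Al : ℕ → Pt → Prop}
    {o : ℤ} {l κ E : ℝ} {R : Slt ι} (hR : SlotN Al o K (cx K x) l u R κ E) (hκ : 1 ≤ κ) {α β : ℝ}
    (hα : 0 < α) (hβ : 0 < β) :
    RX (iv K t) (K + L) (fun x0 => sL L (sG K (cx K x) (-x0) w j q)) α β
      (MC K (cx K x) R (fun x0 k z x' => (√ez)⁻¹ • C x0 k z x') L e ε w)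
      (MA K (cx K x) A L w) ≤
        35200 * 4 ^ L * (p.cP + 2) * 8 ^ K * (α ^ 2 * (p.CD * (p.Lm * s)) +
          β ^ 2 * ((ε ^ 2 + κ ^ 2) * (4 * (p.Lm * s)))) := by
  have hν : 0 < (√ez)⁻¹ := inv_pos.2 (Real.sqrt_pos.2 hez)
  have hν2 : ((√ez)⁻¹) ^ 2 * ez = 1 := by
    rw [inv_pow, Real.sq_sqrt hez.le, inv_mul_cancel₀ hez.ne']
  refine (RX_CA_SM h hcl hs hΛ hCD hez.le hK he hm hj hν (q₀ := κ ^ 2) (by positivity)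
    (fun x0 _ z x' a => ?_) hα hβ).trans (le_of_eq ?_)
  · have h1 := hR.cap x0 0 (Nat.zero_le _) z x' a
    exact h1
  · have e1 : ((√ez)⁻¹) ^ 2 * (ε ^ 2 + κ ^ 2) * (4 * p.Lm * ez * s) =
        (((√ez)⁻¹) ^ 2 * ez) * ((ε ^ 2 + κ ^ 2) * (4 * (p.Lm * s))) := by ring
    rw [e1, hν2, one_mul]

/-- **`hZA`**: equal levels. -/
theorem hZA_SN (h : FDs p n ez F1 F2 F3 K x s r U g u v A b C Q1 Q2 Q3 v')
    (hcl : Cls K x s r P U g u v) (hs : 0 ≤ s) (hΛ : 1 ≤ p.Lm) (hCD : 0 ≤ p.CD) (hez : 0 < ez)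
    (hK : K ≤ n) {L : ℕ} {e : ι ⊕ ι → ℤ} (he : Function.Injective e) (hm : ∀ i, e i ∈ lbs L)
    {w : Pt} {j : ℤ} (hj : j ∈ Icc (0 : ℤ) 2) {q : Pt} {t : ℤ} {ε : ℝ} {Al : ℕ → Pt → Prop}
    {o : ℤ} {l κ E : ℝ} {R : Slt ι} (hR : SlotN Al o K (cx K x) l u R κ E) (hκ : 1 ≤ κ) {α : ℝ}
    (hα : 0 < α) :
    RX (iv K t) (K + L) (fun x0 => sL L (sG K (cx K x) (-x0) w j q)) α α
      (MC K (cx K x) R (fun x0 k z x' => (√ez)⁻¹ • C x0 k z x') L e ε w)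
      (MA K (cx K x) A L w) ≤
        4 ^ L * (35200 * (p.cP + 2) * (p.CD + 4 * (ε ^ 2 + κ ^ 2)) * (p.Lm * s * 8 ^ K)) *
          α ^ 2 := by
  refine (RX_CA_SN h hcl hs hΛ hCD hez hK he hm hj hR hκ hα hα).trans (le_of_eq ?_)
  ring

/-- **`hLow`**: the second level `β` with `(ε² + κ²) β² ≤ α²`. -/
theorem hLow_SN (h : FDs p n ez F1 F2 F3 K x s r U g u v A b C Q1 Q2 Q3 v')
    (hcl : Cls K x s r P U g u v) (hs : 0 ≤ s) (hΛ : 1 ≤ p.Lm) (hCD : 0 ≤ p.CD) (hez : 0 < ez)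
    (hcP : 0 ≤ p.cP) (hK : K ≤ n) {L : ℕ} {e : ι ⊕ ι → ℤ} (he : Function.Injective e)
    (hm : ∀ i, e i ∈ lbs L) {w : Pt} {j : ℤ} (hj : j ∈ Icc (0 : ℤ) 2) {q : Pt} {t : ℤ} {ε : ℝ}
    {Al : ℕ → Pt → Prop} {o : ℤ} {l κ E : ℝ} {R : Slt ι}
    (hR : SlotN Al o K (cx K x) l u R κ E) (hκ : 1 ≤ κ) {α β : ℝ} (hα : 0 < α) (hβ : 0 < β)
    (hαβ : (ε ^ 2 + κ ^ 2) * β ^ 2 ≤ α ^ 2) :
    RX (iv K t) (K + L) (fun x0 => sL L (sG K (cx K x) (-x0) w j q)) α β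
      (MC K (cx K x) R (fun x0 k z x' => (√ez)⁻¹ • C x0 k z x') L e ε w)
      (MA K (cx K x) A L w) ≤
        4 ^ L * (35200 * (p.cP + 2) * (p.CD + 4) * (p.Lm * s * 8 ^ K)) * α ^ 2 := by
  refine (RX_CA_SN h hcl hs hΛ hCD hez hK he hm hj hR hκ hα hβ).trans ?_
  have hL0 : 0 ≤ p.Lm * s := by
    have : 0 ≤ p.Lm := by linarith
    positivity
  have h1 : β ^ 2 * ((ε ^ 2 + κ ^ 2) * (4 * (p.Lm * s))) ≤ α ^ 2 * (4 * (p.Lm * s)) := by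
    calc β ^ 2 * ((ε ^ 2 + κ ^ 2) * (4 * (p.Lm * s)))
        = ((ε ^ 2 + κ ^ 2) * β ^ 2) * (4 * (p.Lm * s)) := by ring
      _ ≤ α ^ 2 * (4 * (p.Lm * s)) := mul_le_mul_of_nonneg_right hαβ (by positivity)
  have h2 : (0 : ℝ) ≤ 35200 * 4 ^ L * (p.cP + 2) * 8 ^ K := by positivity
  calc _ ≤ 35200 * 4 ^ L * (p.cP + 2) * 8 ^ K * (α ^ 2 * (p.CD * (p.Lm * s)) +
        α ^ 2 * (4 * (p.Lm * s))) := by
        refine mul_le_mul_of_nonneg_left ?_ h2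
        linarith
    _ = _ := by ring

end bundle

end

end Vale.Agent.P141.H829
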