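import Vale.Agent.P141.H443.LsupO
import Vale.Agent.P141.H297.HopB
import Vale.Agent.P141.H865.Ker3

/-!
# P141, line W, end lemma: the masses of the components on the used cells of a line

`hL2`, `hL3` of `H606.FibC`: on every cell of a line which meets a used point, the mass of the
window set is at most `17 *` (the numbers of one atom) `*` the local mass `m1` of the births.

* `ms_actO`: one box, sum over the births which are read by the box;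
* `ms_WA`, `ms_WB`: the window sets;
* `near_gen`: the births which are read in the window are near every form value;
* `mass_a`, `mass_b`: the numbers of one birth;
* `hL2_b`, `hL3_b`: the hypotheses of `FibC`.
-/

namespace Vale.Agent.P141.H829

open Finset
open Vale.Agent.P141.PL (iv ix Pt mem_iv el cx ix_ix)
open Vale.Agent.P141.PL.H315 (Tri avg avg_nonneg cube3 mem_cube3)
open Vale.Agent.P141.PL.H318 (csz el_diff)
open Vale.Agent.P141.PL.H95 (gr)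
open Vale.Agent.P141.H337 (ivm mem_ivm ms card_ivm nrc nrc_of_le)
open Vale.Agent.P141.H911 (dd dd_ne dd_le lc lc_ne lc_le det_ne lc0_ne1 Th uT)
open Vale.Agent.P141.H585 hiding dd
open Vale.Agent.P141.H865
open Vale.Agent.P141.H297 (nbO mem_nbO Th_split)
open Vale.Agent.P141.H443 (comA comB Tal La_atom Lb_atom cu Cells)
open Vale.Agent.P141.H97b (mcA mcB wn mem_winM)
open Vale.Agent.P141.H998 (Bi thB PDec mainF lmM lmM_eq mB mB_nonneg sum_le_lmM)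

noncomputable section

open scoped Classical

/-! ### Sums over unions -/

theorem sum_biUnion_le {α β : Type*} (s : Finset α) (t : α → Finset β) {f : β → ℝ}
    (hf : ∀ b, 0 ≤ f b) : ∑ b ∈ s.biUnion t, f b ≤ ∑ a ∈ s, ∑ b ∈ t a, f b := by
  induction s using Finset.induction_on with
  | empty => simp
  | insert a s ha ih =>
    rw [biUnion_insert, sum_insert ha]
    have h1 := sum_union_inter (s₁ := t a) (s₂ := s.biUnion t) (f := f)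
    have h2 : 0 ≤ ∑ b ∈ t a ∩ s.biUnion t, f b := sum_nonneg fun b _ => hf b
    linarith

/-! ### One box -/

variable {ι : Type*} {c : Pt} {B : ι → Bth} {G : ℕ → ℤ → ℤ → ℝ} {ex : ℕ → ℤ → ℤ → Prop}
  {I : Finset ι} {x1 : ℤ} {k : ℕ} {n m : ℤ}

/-- the mass of the active components of one box: sum over the births read by the box -/
theorem ms_actO (cc : (ι × Pt × Pt) × (ℕ × ℤ × ℤ) → ℤ → ℝ) (J : Finset ℤ) {N : ι → ℝ}
    (hN : ∀ i ∈ nbO c B I x1 k n m,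
      ∑ θ ∈ (Th c (B i).K (ptO k x1 n m) (B i).q).filter (fun θ => al1 (B i) θ k x1),
        ∑ j ∈ acO (B i) G ex θ k n m,
          avg J (fun x => cc ((i, cx (B i).K (ptO k x1 n m), θ), j) x ^ 2) ≤ N i) :
    ms cc (actO c B G ex I x1 k n m) J ≤ ∑ i ∈ nbO c B I x1 k n m, N i := by
  unfold ms
  rw [sum_actO, sum_plO]
  refine le_trans (le_of_eq ?_) (sum_le_sum hN)
  symm
  have h1 : ∀ i ∈ nbO c B I x1 k n m,
      ∑ θ ∈ (Th c (B i).K (ptO k x1 n m) (B i).q).filter (fun θ => al1 (B i) θ k x1),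
        ∑ j ∈ acO (B i) G ex θ k n m,
          avg J (fun x => cc ((i, cx (B i).K (ptO k x1 n m), θ), j) x ^ 2) =
      ∑ θ ∈ Th c (B i).K (ptO k x1 n m) (B i).q, if al1 (B i) θ k x1 then
        ∑ j ∈ acO (B i) G ex θ k n m,
          avg J (fun x => cc ((i, cx (B i).K (ptO k x1 n m), θ), j) x ^ 2) else 0 :=
    fun i _ => sum_filter _ _
  rw [sum_congr rfl h1]
  refine sum_subset ?_ ?_
  · intro i hi
    rw [mem_nbO] at hi
    exact mem_filter.2 ⟨hi.1, hi.2.1⟩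
  · intro i hi hn
    rw [mem_filter] at hi
    have h2 : Th c (B i).K (ptO k x1 n m) (B i).q = ∅ := by
      by_contra h
      exact hn (mem_nbO.2 ⟨hi.1, hi.2, nonempty_iff_ne_empty.2 h⟩)
    rw [h2, sum_empty]

/-! ### The window sets -/

theorem ms_WA (cc : (ι × Pt × Pt) × (ℕ × ℤ × ℤ) → ℤ → ℝ) (J : Finset ℤ) {C : ι → Finset Pt}
    {o x0 : ℤ} {b : ℤ} : ms cc (WA B G ex (QO c B I C) o x0 x1 k b) J ≤
      ∑ m ∈ wn o x0 x1 k b, ms cc (actO c B G ex I x1 k b m) J := by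
  have h1 : WA B G ex (QO c B I C) o x0 x1 k b ⊆
      (wn o x0 x1 k b).biUnion fun m => actO c B G ex I x1 k b m := by
    intro w hw
    obtain ⟨_, m, hm, h2⟩ := mem_WA.1 hw
    exact mem_biUnion.2 ⟨m, hm, h2⟩
  unfold ms
  refine (sum_le_sum_of_subset_of_nonneg h1 fun _ _ _ => avg_nonneg fun _ _ => sq_nonneg _).trans ?_
  exact sum_biUnion_le _ _ fun _ => avg_nonneg fun _ _ => sq_nonneg _

theorem ms_WB (cc : (ι × Pt × Pt) × (ℕ × ℤ × ℤ) → ℤ → ℝ) (J : Finset ℤ) {C : ι → Finset Pt}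
    {o x0 : ℤ} {b : ℤ} : ms cc (WB B G ex (QO c B I C) o x0 x1 k b) J ≤
      ∑ n ∈ wn o x0 x1 k b, ms cc (actO c B G ex I x1 k n b) J := by
  have h1 : WB B G ex (QO c B I C) o x0 x1 k b ⊆
      (wn o x0 x1 k b).biUnion fun n => actO c B G ex I x1 k n b := by
    intro w hw
    obtain ⟨_, m, hm, h2⟩ := mem_WB.1 hw
    exact mem_biUnion.2 ⟨m, hm, h2⟩
  unfold ms
  refine (sum_le_sum_of_subset_of_nonneg h1 fun _ _ _ => avg_nonneg fun _ _ => sq_nonneg _).trans ?_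
  exact sum_biUnion_le _ _ fun _ => avg_nonneg fun _ _ => sq_nonneg _

/-- a subset has a smaller mass -/
theorem ms_mono {Ω : Type*} (cc : Ω → ℤ → ℝ) {A A' : Finset Ω} (h : A ⊆ A') (J : Finset ℤ) :
    ms cc A J ≤ ms cc A' J :=
  sum_le_sum_of_subset_of_nonneg h fun _ _ _ => avg_nonneg fun _ _ => sq_nonneg _

theorem card_wn (o x0 x1 : ℤ) (k : ℕ) (b : ℤ) : (wn o x0 x1 k b).card = 17 := by
  unfold wn
  rw [Int.card_Icc]
  have : H97b.mt o x0 x1 k b + 8 + 1 - (H97b.mt o x0 x1 k b - 8) = ((17 : ℕ) : ℤ) := by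
    push_cast; ring
  rw [this, Int.toNat_natCast]

/-! ### Nearness -/

/-- the sum of the four coordinates in a window -/
theorem sum4_le {o : ℤ} (ho : o = 1 ∨ o = -1) {k : ℕ} {x0 x1 x2 x3 b m : ℤ} (h2 : x2 ∈ iv k b)
    (h3 : x3 ∈ iv k m) (hm : m ∈ wn o x0 x1 k b) : |x0 + x1 + x2 + x3| ≤ 11 * 2 ^ k := by
  have hp : (0 : ℤ) < 2 ^ k := by positivity
  rw [mem_iv] at h2 h3
  unfold ix at h2 h3
  unfold wn H97b.mt ix at hm
  rw [mem_Icc] at hm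
  have e0 := Int.mul_ediv_add_emod x0 (2 ^ k)
  have e1 := Int.mul_ediv_add_emod x1 (2 ^ k)
  have e2 := Int.mul_ediv_add_emod x2 (2 ^ k)
  have e3 := Int.mul_ediv_add_emod x3 (2 ^ k)
  have a0 := Int.emod_nonneg x0 hp.ne'
  have a1 := Int.emod_nonneg x1 hp.ne'
  have a2 := Int.emod_nonneg x2 hp.ne'
  have a3 := Int.emod_nonneg x3 hp.ne'
  have b0 := Int.emod_lt_of_pos x0 hp
  have b1 := Int.emod_lt_of_pos x1 hp
  have b2 := Int.emod_lt_of_pos x2 hp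
  have b3 := Int.emod_lt_of_pos x3 hp
  rw [h2] at e2
  rw [h3] at e3
  have l1 : -11 ≤ x0 / 2 ^ k + x1 / 2 ^ k + b + m := by rcases ho with rfl | rfl <;> omega
  have l2 : x0 / 2 ^ k + x1 / 2 ^ k + b + m ≤ 7 := by rcases ho with rfl | rfl <;> omega
  have l3 := mul_le_mul_of_nonneg_left l1 hp.le
  have l4 := mul_le_mul_of_nonneg_left l2 hp.le
  have l5 : 2 ^ k * (x0 / 2 ^ k + x1 / 2 ^ k + b + m) =
      2 ^ k * (x0 / 2 ^ k) + 2 ^ k * (x1 / 2 ^ k) + 2 ^ k * b + 2 ^ k * m := by ring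
  rw [abs_le]
  constructor <;> linarith

/-- the form of `P` and the form of the slot `r` -/
theorem form_diff (σ : Equiv.Perm (Fin 4)) (r : Fin 4) (x0 x1 x2 x3 : ℤ) :
    el (lc σ 0) (x1, x2, x3) -
      (dd σ r 0 * x0 + dd σ r 1 * x1 + dd σ r 2 * x2 + dd σ r 3 * x3) =
      dd σ 0 r * (x0 + x1 + x2 + x3) := by
  simp only [el, lc, dd]
  ring

theorem csz_lc0 (σ : Equiv.Perm (Fin 4)) : csz (lc σ 0) ≤ 9 := by
  obtain ⟨h1, h2, h3⟩ := lc_le σ 0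
  unfold csz
  linarith

/-- **nearness**: if the box `(k; n, m)` at `x1` reads the cube `(K, q)`, then the cube is near
the value of the form `r` at every point of the box with a small sum of the coordinates -/
theorem near_gen (σ : Equiv.Perm (Fin 4)) (r : Fin 4) {k K : ℕ} (hk : k ≤ K)
    {x0 x1 x2 x3 n m : ℤ} (h2 : x2 ∈ iv k n) (h3 : x3 ∈ iv k m)
    (hs : |x0 + x1 + x2 + x3| ≤ 11 * 2 ^ k) {q : Pt}
    (hT : (Th (lc σ 0) K (ptO k x1 n m) q).Nonempty) {s a : ℤ} (ha : 42 ≤ a) :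
    nrc (lc σ 0) 7 s a K q
      (dd σ r 0 * x0 + dd σ r 1 * x1 + dd σ r 2 * x2 + dd σ r 3 * x3) := by
  obtain ⟨θ, hθ⟩ := hT
  obtain ⟨x, hx, hx2, hx3⟩ := Th_split hθ
  refine nrc_of_le hx2 ((gr 7 s).mem K _) ?_
  rw [hx3]
  have h4 : ((x1, x2, x3) : Pt) ∈ cube3 K (ptO k x1 n m) := mem_ptO h2 h3 hk
  have h5 := el_diff (c := lc σ 0) hx h4
  have h6 := form_diff σ r x0 x1 x2 x3
  have h7 : |dd σ 0 r * (x0 + x1 + x2 + x3)| ≤ 3 * (11 * 2 ^ k) := by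
    rw [abs_mul]
    exact mul_le_mul (dd_le σ 0 r) hs (abs_nonneg _) (by norm_num)
  have h8 : (2 : ℤ) ^ k ≤ 2 ^ K := pow_le_pow_right₀ (by norm_num) hk
  have h9 : (0 : ℤ) < 2 ^ K := by positivity
  have h10 : csz (lc σ 0) * (2 ^ K - 1) ≤ 9 * 2 ^ K := by
    have := csz_lc0 σ
    have h0 : 0 ≤ csz (lc σ 0) := by unfold csz; positivity
    nlinarith
  have h11 : el (lc σ 0) x - (dd σ r 0 * x0 + dd σ r 1 * x1 + dd σ r 2 * x2 + dd σ r 3 * x3) =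
      (el (lc σ 0) x - el (lc σ 0) (x1, x2, x3)) + dd σ 0 r * (x0 + x1 + x2 + x3) := by
    rw [← h6]; ring
  rw [h11]
  refine (abs_add_le _ _).trans ((add_le_add (h5.trans h10) h7).trans ?_)
  have h12 : 42 * 2 ^ K ≤ a * 2 ^ K := mul_le_mul_of_nonneg_right ha h9.le
  linarith

/-! ### The numbers of one birth -/

/-- the number of the first side -/
def nA (κ μ sg Lg Λ : ℝ) : ℝ := 557056 * (μ ^ 5 / (κ ^ 16 * sg ^ 6)) * Lg * Λ ^ 2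

/-- the number of the second side -/
def nB (κ μ sg Λ : ℝ) : ℝ := 1114112 * (μ ^ 4 / (κ ^ 12 * sg ^ 2)) * Λ ^ 2

theorem num_a {κ μ sg Lg Λ r s1 s2 s3 f P K : ℝ} (hκ : 0 < κ) (hsg : 0 < sg) (hr : 0 < r)
    (h1 : 0 < s1) (h2 : 0 < s2) (h3 : 0 < s3) (hP : 0 < P) :
    (f * (r * s2 * s3 / s1)) * (P⁻¹ * (17408 * (μ * r ^ 2 * s3 ^ 2 / κ ^ 4 * Lg /
      (sg * r * s3) ^ 4 / 2 * ((r ^ 2 * s1 / κ ^ 2) ^ 2 * ((r ^ 2 * s3 / κ ^ 2) ^ 2 * Λ)) *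
      (2 * (μ / r ^ 2) * P) * (r ^ 2 * s3 / κ ^ 2) ^ 2 / ((sg * r * s3) ^ 2 / 4)) *
      (2 * (μ / r ^ 2) * (2 * (μ / r ^ 2)) * (2 * (μ / r ^ 2))) * Λ * K)) =
    557056 * (μ ^ 5 / (κ ^ 16 * sg ^ 6)) * Lg * Λ ^ 2 * (f * (K * (r * (s1 * s2 * s3)))) := by
  field_simp
  ring

theorem num_b {κ μ sg Λ r s1 s2 s3 f P K : ℝ} (hκ : 0 < κ) (hsg : 0 < sg) (hr : 0 < r)
    (h1 : 0 < s1) (h2 : 0 < s2) (h3 : 0 < s3) (hP : 0 < P) :
    (f * (s1 / (r * s2 * s3))) * (P⁻¹ * (17408 * ((r ^ 2 * s2 / κ ^ 2) ^ 2 *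
      ((r ^ 2 * s3 / κ ^ 2) ^ 2 * Λ) *
      (2 * (μ / r ^ 2) * P) * (r ^ 2 * s3 / κ ^ 2) ^ 2 / ((sg * r * s3) ^ 2 / 4)) *
      (2 * (μ / r ^ 2) * (2 * (μ / r ^ 2)) * (2 * (μ / r ^ 2))) * Λ * K)) =
    1114112 * (μ ^ 4 / (κ ^ 12 * sg ^ 2)) * Λ ^ 2 * (f * (K * (r * (s1 * s2 * s3)))) := by
  field_simp
  ring

section birth

variable {κ μ sg Lg Λ : ℝ} {S : Finset Bi} {cf : Bi → ℝ}
  {E : Bi → Finset ℤ × Finset ℤ × Finset ℤ} {v : Bi → Tri} {g : ℕ → ℤ → ℝ} {x0 x1 : ℤ} {b : Bi}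

/-- the gauge of the fibre -/
def gz (σ : Equiv.Perm (Fin 4)) (g : ℕ → ℤ → ℝ) (x0 : ℤ) (k : ℕ) (x y : ℤ) : ℝ :=
  g k (dd σ 1 0 * x0 + dd σ 1 2 * x + dd σ 1 3 * y)

theorem dd_sum_le (σ : Equiv.Perm (Fin 4)) : |dd σ 1 2| + |dd σ 1 3| ≤ 2 ^ 7 := by
  have h1 := dd_le σ 1 2
  have h2 := dd_le σ 1 3
  norm_num
  linarith

theorem mass_a (σ : Equiv.Perm (Fin 4)) (hκ : 0 < κ) (hμ : 0 < μ) (hsg : 0 < sg) (hLg : 0 < Lg)
    (hΛ : 0 ≤ Λ) (hb : 0 < rB b)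
    (hv : VC κ b.1.1 b.1.2 b.2 (v b) (E b).1 (E b).2.1 (E b).2.2) {k : ℕ} (hk : k ≤ b.1.1)
    (hg : ∀ j ≤ b.1.1, ∀ a : ℤ, ∑ z ∈ Ico a (a + 2 ^ (j + 7)), g j z ^ 2 ≤ Λ * 2 ^ j)
    {ex : ℕ → ℤ → ℤ → Prop} (p cell : Pt) (n m : ℤ) :
    ∑ θ ∈ (Th (lc σ 0) b.1.1 p b.1.2).filter (fun θ => al1 (bthO κ μ sg Lg cf E v b) θ k x1),
      ∑ j ∈ acO (bthO κ μ sg Lg cf E v b) (gz σ g x0) ex θ k n m,
        avg (ivm k n) (fun x =>
          aO (bthO κ μ sg Lg cf E v) (gz σ g x0) x1 ((b, cell, θ), j) x ^ 2) ≤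
      nA κ μ sg Lg Λ * mB cf b := by
  set Bt := bthO κ μ sg Lg cf E v b with hBt
  obtain ⟨p1, p2, p3⟩ := sB_pos hb
  have hη : 0 < Bt.et := by
    show 0 < tauB sg b ^ 2 / 4
    have := tauB_pos hsg hb
    positivity
  have hth : 0 ≤ thB μ b := by
    unfold thB
    positivity
  have h1 := La_atom (c := lc σ 0) (p := p) (q := b.1.2) (K := b.1.1) (u := b.2) (v := v b)
    (E1 := (E b).1) (E2' := (E b).2.1) (E3 := (E b).2.2) (th := thB μ b) (c0 := 7) (G := g)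
    (s0 := dd σ 1 0 * x0) (q2 := dd σ 1 2) (q3 := dd σ 1 3)
    (A := fun θ => kA Bt (gz σ g x0) θ) (us := fun _ _ _ _ => True)
    (ev := fun θ => evO Bt ex θ) (cp := Bt.cp) (ξ := Bt.xi) (η := Bt.et) (x1 := x1) (n := n)
    (m := m) (k := k) (det_ne σ) (lc0_ne1 σ) ((lc_le σ 0).2.1.trans (by norm_num))
    ((lc_le σ 0).2.2.trans (by norm_num)) (dd_ne σ (by decide)) (dd_sum_le σ) hv hth hk hΛ hg
    (fun θ _ j _ x y => rfl) (fun θ _ j _ n m hne he => hne (Or.inl he))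
    (cp_nonneg hμ.le hLg.le b) (Or.inl hη)
  have hP : (0 : ℝ) < 2 ^ k := by positivity
  have e1 : ∀ θ j, avg (ivm k n) (fun x =>
      aO (bthO κ μ sg Lg cf E v) (gz σ g x0) x1 ((b, cell, θ), j) x ^ 2) =
      Bt.a ^ 2 * ((2 ^ k)⁻¹ * ∑ x ∈ iv k n, (uT b.1.1 b.1.2 θ (v b)).1 (x1, x) ^ 2 *
        comA (kA Bt (gz σ g x0) θ j.1) Bt.cp j x ^ 2) := by
    intro θ j
    unfold avg
    rw [card_ivm]
    push_cast
    rw [mul_left_comm]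
    congr 1
    rw [mul_sum]
    refine sum_congr rfl fun x _ => ?_
    unfold aO dA mcA
    simp only
    rw [← hBt]
    show (Bt.a * (uT b.1.1 b.1.2 θ (v b)).1 (x1, x) * comA _ _ _ _) ^ 2 = _
    ring
  simp only [e1]
  have e2 : (∑ θ ∈ (Th (lc σ 0) b.1.1 p b.1.2).filter (fun θ => al1 Bt θ k x1),
      ∑ j ∈ acO Bt (gz σ g x0) ex θ k n m, Bt.a ^ 2 * ((2 ^ k)⁻¹ * ∑ x ∈ iv k n,
        (uT b.1.1 b.1.2 θ (v b)).1 (x1, x) ^ 2 *
        comA (kA Bt (gz σ g x0) θ j.1) Bt.cp j x ^ 2)) =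
      Bt.a ^ 2 * ((2 ^ k)⁻¹ * ∑ θ ∈ Tal (lc σ 0) p b.1.2 b.1.1 k (thB μ b) (E b).1 x1,
        ∑ j ∈ H150.Mv.actH (kA Bt (gz σ g x0) θ) Bt.cp Bt.xi Bt.et (fun _ _ _ => True)
          (evO Bt ex θ) b.1.1 k n m, ∑ x ∈ iv k n,
            (uT b.1.1 b.1.2 θ (v b)).1 (x1, x) ^ 2 *
            comA (kA Bt (gz σ g x0) θ j.1) Bt.cp j x ^ 2) := by
    have e0 : (Th (lc σ 0) b.1.1 p b.1.2).filter (fun θ => al1 Bt θ k x1) =
        Tal (lc σ 0) p b.1.2 b.1.1 k (thB μ b) (E b).1 x1 := by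
      ext θ
      unfold Tal
      rw [mem_filter, mem_filter]
      exact Iff.rfl
    rw [e0]
    simp only [← mul_sum]
    rfl
  rw [e2]
  refine (mul_le_mul_of_nonneg_left (mul_le_mul_of_nonneg_left h1 (by positivity))
    (sq_nonneg _)).trans ?_
  have e3 : Bt.a ^ 2 = |cf b| * (rB b * sB13 b * sB23 b / sB12 b) := a_sq b
  have e4 : Bt.cp = μ * rB b ^ 2 * sB23 b ^ 2 / κ ^ 4 * Lg / (sg * rB b * sB23 b) ^ 4 := rfl
  have e5 : Bt.et = (sg * rB b * sB23 b) ^ 2 / 4 := rfl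
  have e6 : thB μ b = μ / rB b ^ 2 := rfl
  rw [e3, e4, e5, e6]
  have e7 := num_a (f := |cf b|) (μ := μ) (Lg := Lg) (Λ := Λ) (K := 4 ^ b.1.1) hκ hsg hb p1 p2 p3
    hP
  refine (le_of_eq e7).trans ?_
  rw [mB_eq]
  unfold nA
  refine mul_le_mul_of_nonneg_left ?_ (by positivity)
  refine mul_le_mul_of_nonneg_left ?_ (abs_nonneg _)
  exact mul_le_mul_of_nonneg_left (rB_mul b) (by positivity)

theorem mass_b (σ : Equiv.Perm (Fin 4)) (hκ : 0 < κ) (hμ : 0 < μ) (hsg : 0 < sg) (hLg : 0 < Lg)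
    (hΛ : 0 ≤ Λ) (hb : 0 < rB b)
    (hv : VC κ b.1.1 b.1.2 b.2 (v b) (E b).1 (E b).2.1 (E b).2.2) {k : ℕ} (hk : k ≤ b.1.1)
    (hg : ∀ j ≤ b.1.1, ∀ a : ℤ, ∑ z ∈ Ico a (a + 2 ^ (j + 7)), g j z ^ 2 ≤ Λ * 2 ^ j)
    {ex : ℕ → ℤ → ℤ → Prop} (p cell : Pt) (n m : ℤ) :
    ∑ θ ∈ (Th (lc σ 0) b.1.1 p b.1.2).filter (fun θ => al1 (bthO κ μ sg Lg cf E v b) θ k x1),
      ∑ j ∈ acO (bthO κ μ sg Lg cf E v b) (gz σ g x0) ex θ k n m,
        avg (ivm k m) (fun x =>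
          bO (bthO κ μ sg Lg cf E v) (gz σ g x0) x1 ((b, cell, θ), j) x ^ 2) ≤
      nB κ μ sg Λ * mB cf b := by
  set Bt := bthO κ μ sg Lg cf E v b with hBt
  obtain ⟨p1, p2, p3⟩ := sB_pos hb
  have hη : 0 < Bt.et := by
    show 0 < tauB sg b ^ 2 / 4
    have := tauB_pos hsg hb
    positivity
  have hth : 0 ≤ thB μ b := by
    unfold thB
    positivity
  have h1 := Lb_atom (c := lc σ 0) (p := p) (q := b.1.2) (K := b.1.1) (u := b.2) (v := v b)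
    (E1 := (E b).1) (E2' := (E b).2.1) (E3 := (E b).2.2) (th := thB μ b) (c0 := 7) (G := g)
    (s0 := dd σ 1 0 * x0) (q2 := dd σ 1 2) (q3 := dd σ 1 3)
    (A := fun θ => kA Bt (gz σ g x0) θ) (us := fun _ _ _ _ => True)
    (ev := fun θ => evO Bt ex θ) (cp := Bt.cp) (ξ := Bt.xi) (η := Bt.et) (x1 := x1) (n := n)
    (m := m) (k := k) (det_ne σ) (lc0_ne1 σ) ((lc_le σ 0).2.1.trans (by norm_num))
    ((lc_le σ 0).2.2.trans (by norm_num)) (dd_ne σ (by decide)) (dd_sum_le σ) hv hth hk hΛ hg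
    (fun θ _ j _ x y => rfl) (fun θ _ j _ n m hne he => hne (Or.inr (Or.inl he)))
    (cp_nonneg hμ.le hLg.le b) (Or.inl hη)
  have hP : (0 : ℝ) < 2 ^ k := by positivity
  have e1 : ∀ θ j, avg (ivm k m) (fun x =>
      bO (bthO κ μ sg Lg cf E v) (gz σ g x0) x1 ((b, cell, θ), j) x ^ 2) =
      Bt.b ^ 2 * ((2 ^ k)⁻¹ * ∑ x ∈ iv k m, (uT b.1.1 b.1.2 θ (v b)).2.1 (x1, x) ^ 2 *
        comB (kA Bt (gz σ g x0) θ j.1) Bt.cp j x ^ 2) := by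
    intro θ j
    unfold avg
    rw [card_ivm]
    push_cast
    rw [mul_left_comm]
    congr 1
    rw [mul_sum]
    refine sum_congr rfl fun x _ => ?_
    unfold bO dB mcB
    simp only
    rw [← hBt]
    show (Bt.b * (uT b.1.1 b.1.2 θ (v b)).2.1 (x1, x) * comB _ _ _ _) ^ 2 = _
    ring
  simp only [e1]
  have e2 : (∑ θ ∈ (Th (lc σ 0) b.1.1 p b.1.2).filter (fun θ => al1 Bt θ k x1),
      ∑ j ∈ acO Bt (gz σ g x0) ex θ k n m, Bt.b ^ 2 * ((2 ^ k)⁻¹ * ∑ x ∈ iv k m,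
        (uT b.1.1 b.1.2 θ (v b)).2.1 (x1, x) ^ 2 *
        comB (kA Bt (gz σ g x0) θ j.1) Bt.cp j x ^ 2)) =
      Bt.b ^ 2 * ((2 ^ k)⁻¹ * ∑ θ ∈ Tal (lc σ 0) p b.1.2 b.1.1 k (thB μ b) (E b).1 x1,
        ∑ j ∈ H150.Mv.actH (kA Bt (gz σ g x0) θ) Bt.cp Bt.xi Bt.et (fun _ _ _ => True)
          (evO Bt ex θ) b.1.1 k n m, ∑ x ∈ iv k m,
            (uT b.1.1 b.1.2 θ (v b)).2.1 (x1, x) ^ 2 *
            comB (kA Bt (gz σ g x0) θ j.1) Bt.cp j x ^ 2) := by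
    have e0 : (Th (lc σ 0) b.1.1 p b.1.2).filter (fun θ => al1 Bt θ k x1) =
        Tal (lc σ 0) p b.1.2 b.1.1 k (thB μ b) (E b).1 x1 := by
      ext θ
      unfold Tal
      rw [mem_filter, mem_filter]
      exact Iff.rfl
    rw [e0]
    simp only [← mul_sum]
    rfl
  rw [e2]
  refine (mul_le_mul_of_nonneg_left (mul_le_mul_of_nonneg_left h1 (by positivity))
    (sq_nonneg _)).trans ?_
  have e3 : Bt.b ^ 2 = |cf b| * (sB12 b / (rB b * sB13 b * sB23 b)) := b_sq b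
  have e5 : Bt.et = (sg * rB b * sB23 b) ^ 2 / 4 := rfl
  have e6 : thB μ b = μ / rB b ^ 2 := rfl
  rw [e3, e5, e6]
  have e7 := num_b (f := |cf b|) (μ := μ) (Λ := Λ) (K := 4 ^ b.1.1) hκ hsg hb p1 p2 p3 hP
  refine (le_of_eq e7).trans ?_
  rw [mB_eq]
  unfold nB
  refine mul_le_mul_of_nonneg_left ?_ (by positivity)
  refine mul_le_mul_of_nonneg_left ?_ (abs_nonneg _)
  exact mul_le_mul_of_nonneg_left (rB_mul b) (by positivity)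

/-! ### The hypotheses of the fibre -/

theorem nA_nonneg (hμ : 0 < μ) (hκ : 0 < κ) (hsg : 0 < sg) (hLg : 0 < Lg) :
    0 ≤ nA κ μ sg Lg Λ := by unfold nA; positivity

theorem nB_nonneg (hμ : 0 < μ) (hκ : 0 < κ) (hsg : 0 < sg) : 0 ≤ nB κ μ sg Λ := by
  unfold nB; positivity

/-- **The masses on the used cells, the line of the second coordinate.** -/
theorem hL2_b {o : ℤ} (ho : o = 1 ∨ o = -1) (σ : Equiv.Perm (Fin 4)) (hκ : 0 < κ) (hμ : 0 < μ)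
    (hsg : 0 < sg) (hLg : 0 < Lg) (hΛ : 0 ≤ Λ) (hpos : ∀ b ∈ S, 0 < rB b)
    (hv : ∀ b ∈ S, VC κ b.1.1 b.1.2 b.2 (v b) (E b).1 (E b).2.1 (E b).2.2) {N : ℕ}
    (hN : ∀ b ∈ S, b.1.1 ≤ N)
    (hg : ∀ j ≤ N, ∀ a : ℤ, ∑ z ∈ Ico a (a + 2 ^ (j + 7)), g j z ^ 2 ≤ Λ * 2 ^ j)
    {s a : ℤ} (ha : 42 ≤ a) {ud : ℕ → ℤ → Prop} {m1 : ℝ}
    (hm : ∀ k y, ud k y → lmM s a (lc σ 0) S cf k y ≤ m1) {ex : ℕ → ℤ → ℤ → Prop}
    {C : Bi → Finset Pt} (k : ℕ) (w : ℤ)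
    (hu : ∃ u ∈ ivm k w, ud k (dd σ 3 0 * x0 + dd σ 3 1 * x1 + dd σ 3 2 * u)) :
    ms (aO (bthO κ μ sg Lg cf E v) (gz σ g x0) x1)
      (WA (bthO κ μ sg Lg cf E v) (gz σ g x0) ex (QO (lc σ 0) (bthO κ μ sg Lg cf E v) S C)
        o x0 x1 k w) (ivm k w) ≤ 17 * (nA κ μ sg Lg Λ * m1) := by
  obtain ⟨u, hu1, hu2⟩ := hu
  have hnA := nA_nonneg (Λ := Λ) hμ hκ hsg hLg
  refine (ms_WA _ _).trans ?_
  have h1 : ∀ m ∈ wn o x0 x1 k w,
      ms (aO (bthO κ μ sg Lg cf E v) (gz σ g x0) x1)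
        (actO (lc σ 0) (bthO κ μ sg Lg cf E v) (gz σ g x0) ex S x1 k w m) (ivm k w) ≤
      nA κ μ sg Lg Λ * m1 := by
    intro m hm1
    refine (ms_actO _ _ (N := fun b => nA κ μ sg Lg Λ * mB cf b) fun b hb => ?_).trans ?_
    · rw [mem_nbO] at hb
      exact mass_a σ hκ hμ hsg hLg hΛ (hpos b hb.1) (hv b hb.1) hb.2.1
        (fun j hj a => hg j (hj.trans (hN b hb.1)) a) _ _ _ _
    · rw [← mul_sum]
      refine mul_le_mul_of_nonneg_left ?_ hnA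
      refine (sum_le_lmM (s := s) (a := a) (c := lc σ 0) (B := S) (cf := cf) (k := k)
        (y := dd σ 3 0 * x0 + dd σ 3 1 * x1 + dd σ 3 2 * u) (fun b hb => (mem_nbO.1 hb).1)
        fun b hb => ?_).trans (hm k _ hu2)
      obtain ⟨h2, h3, h4⟩ := mem_nbO.1 hb
      refine ⟨h3, ?_⟩
      have h5 : (2 : ℤ) ^ k * m ∈ iv k m := by rw [mem_iv]; exact ix_mul k m
      have h6 := near_gen σ 3 h3 (x0 := x0) (x1 := x1) (x2 := u) (x3 := 2 ^ k * m) hu1 h5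
        (sum4_le ho hu1 h5 hm1) h4 (s := s) ha
      have e : dd σ 3 3 = 0 := by unfold H911.dd; ring
      rw [e, zero_mul, add_zero] at h6
      exact h6
  refine (sum_le_sum h1).trans (le_of_eq ?_)
  rw [sum_const, card_wn, nsmul_eq_mul]
  norm_num

/-- **The masses on the used cells, the line of the third coordinate.** -/
theorem hL3_b {o : ℤ} (ho : o = 1 ∨ o = -1) (σ : Equiv.Perm (Fin 4)) (hκ : 0 < κ) (hμ : 0 < μ)
    (hsg : 0 < sg) (hLg : 0 < Lg) (hΛ : 0 ≤ Λ) (hpos : ∀ b ∈ S, 0 < rB b)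
    (hv : ∀ b ∈ S, VC κ b.1.1 b.1.2 b.2 (v b) (E b).1 (E b).2.1 (E b).2.2) {N : ℕ}
    (hN : ∀ b ∈ S, b.1.1 ≤ N)
    (hg : ∀ j ≤ N, ∀ a : ℤ, ∑ z ∈ Ico a (a + 2 ^ (j + 7)), g j z ^ 2 ≤ Λ * 2 ^ j)
    {s a : ℤ} (ha : 42 ≤ a) {ud : ℕ → ℤ → Prop} {m1 : ℝ}
    (hm : ∀ k y, ud k y → lmM s a (lc σ 0) S cf k y ≤ m1) {ex : ℕ → ℤ → ℤ → Prop}
    {C : Bi → Finset Pt} (k : ℕ) (w : ℤ)
    (hu : ∃ u ∈ ivm k w, ud k (dd σ 2 0 * x0 + dd σ 2 1 * x1 + dd σ 2 3 * u)) :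
    ms (bO (bthO κ μ sg Lg cf E v) (gz σ g x0) x1)
      (WB (bthO κ μ sg Lg cf E v) (gz σ g x0) ex (QO (lc σ 0) (bthO κ μ sg Lg cf E v) S C)
        o x0 x1 k w) (ivm k w) ≤ 17 * (nB κ μ sg Λ * m1) := by
  obtain ⟨u, hu1, hu2⟩ := hu
  have hnB := nB_nonneg (Λ := Λ) hμ hκ hsg
  refine (ms_WB _ _).trans ?_
  have h1 : ∀ n ∈ wn o x0 x1 k w,
      ms (bO (bthO κ μ sg Lg cf E v) (gz σ g x0) x1)
        (actO (lc σ 0) (bthO κ μ sg Lg cf E v) (gz σ g x0) ex S x1 k n w) (ivm k w) ≤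
      nB κ μ sg Λ * m1 := by
    intro n hn1
    refine (ms_actO _ _ (N := fun b => nB κ μ sg Λ * mB cf b) fun b hb => ?_).trans ?_
    · rw [mem_nbO] at hb
      exact mass_b σ hκ hμ hsg hLg hΛ (hpos b hb.1) (hv b hb.1) hb.2.1
        (fun j hj a => hg j (hj.trans (hN b hb.1)) a) _ _ _ _
    · rw [← mul_sum]
      refine mul_le_mul_of_nonneg_left ?_ hnB
      refine (sum_le_lmM (s := s) (a := a) (c := lc σ 0) (B := S) (cf := cf) (k := k)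
        (y := dd σ 2 0 * x0 + dd σ 2 1 * x1 + dd σ 2 3 * u) (fun b hb => (mem_nbO.1 hb).1)
        fun b hb => ?_).trans (hm k _ hu2)
      obtain ⟨h2, h3, h4⟩ := mem_nbO.1 hb
      refine ⟨h3, ?_⟩
      have h5 : (2 : ℤ) ^ k * n ∈ iv k n := by rw [mem_iv]; exact ix_mul k n
      have h7 : |x0 + x1 + 2 ^ k * n + u| ≤ 11 * 2 ^ k := by
        have := sum4_le ho hu1 h5 hn1
        rwa [add_right_comm] at this
      have h6 := near_gen σ 2 h3 (x0 := x0) (x1 := x1) (x2 := 2 ^ k * n) (x3 := u) h5 hu1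
        h7 h4 (s := s) ha
      have e : dd σ 2 2 = 0 := by unfold H911.dd; ring
      rw [e, zero_mul, add_zero] at h6
      exact h6
  refine (sum_le_sum h1).trans (le_of_eq ?_)
  rw [sum_const, card_wn, nsmul_eq_mul]
  norm_num

end birth

/-- the window sums of the cut static slot -/
theorem win_cu {s : ℤ} {ud : ℕ → ℤ → Prop} {N : ℕ} {G1 : ℤ → ℝ} {C : ℝ}
    (H : Cells 7 s ud N G1 C) (hC : 0 ≤ C) (j : ℕ) (a : ℤ) :
    ∑ z ∈ Ico a (a + 2 ^ (j + 7)), cu ud G1 j z ^ 2 ≤ 256 * C * 2 ^ j := by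
  refine (H.two hC j a).trans (le_of_eq ?_)
  norm_num
  ring

/-! ### In the letters of the assembly -/

/-- the mass number of a fibre (`L` of `H606.FibC`) -/
def LTr (κ μ sg Lg Λ m1 : ℝ) : ℝ := 17 * ((nA κ μ sg Lg Λ + nB κ μ sg Λ) * m1)

theorem LTr_nonneg {κ μ sg Lg Λ m1 : ℝ} (hκ : 0 < κ) (hμ : 0 < μ) (hsg : 0 < sg) (hLg : 0 < Lg)
    (hm1 : 0 ≤ m1) : 0 ≤ LTr κ μ sg Lg Λ m1 := by
  have h1 := nA_nonneg (Λ := Λ) hμ hκ hsg hLg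
  have h2 := nB_nonneg (Λ := Λ) hμ hκ hsg
  unfold LTr
  positivity

section region

variable {s : ℤ} {Λt : ℕ} {x : ℤ} {κ μ M : ℝ} {P : ℤ → ℝ} {S : Finset Bi} {cf : Bi → ℝ}
  {E : Bi → Finset ℤ × Finset ℤ × Finset ℤ} {v : Bi → Tri} {F : ℕ → ℤ → ℝ} {sg Lg C1 m1 : ℝ}
  {G1 : ℤ → ℝ} {ud ud0 : ℕ → ℤ → Prop} {o a x0 x1 : ℤ}

/-- **`hL2` of `H606.FibC`** for the canonical births on a region: `ud` the region of the masses,
`ud0` the region by which `G1` is cut, `ex`, `C` arbitrary. -/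
theorem hL2_pd (ho : o = 1 ∨ o = -1) (σ : Equiv.Perm (Fin 4))
    (hd : PDec s (lc σ 0) Λt x κ μ M P S cf E v F) (hpos : ∀ b ∈ S, 0 < rB b) (hκ : 0 < κ)
    (hμ : 0 < μ) (hsg : 0 < sg) (hLg : 0 < Lg) (H : Cells 7 s ud0 Λt G1 C1) (hC1 : 0 ≤ C1)
    (ha : 42 ≤ a) (hm1 : 0 ≤ m1) (hm : ∀ k y, ud k y → lmM s a (lc σ 0) S cf k y ≤ m1)
    {ex : ℕ → ℤ → ℤ → Prop} {C : Bi → Finset Pt} (k : ℕ) (w : ℤ)
    (hu : ∃ u ∈ ivm k w, ud k (dd σ 3 0 * x0 + dd σ 3 1 * x1 + dd σ 3 2 * u)) :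
    ms (aO (bthO κ μ sg Lg cf E v) (gz σ (cu ud0 G1) x0) x1)
      (WA (bthO κ μ sg Lg cf E v) (gz σ (cu ud0 G1) x0) ex
        (QO (lc σ 0) (bthO κ μ sg Lg cf E v) S C) o x0 x1 k w) (ivm k w) ≤
      LTr κ μ sg Lg (256 * C1) m1 := by
  refine (hL2_b ho σ hκ hμ hsg hLg (Λ := 256 * C1) (by positivity) hpos hd.vc
    (fun b hb => (hd.bok b hb).le) (fun j _ a => win_cu H hC1 j a) ha hm k w hu).trans ?_
  have h2 := nB_nonneg (Λ := 256 * C1) hμ hκ hsg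
  unfold LTr
  refine mul_le_mul_of_nonneg_left ?_ (by norm_num)
  exact mul_le_mul_of_nonneg_right (le_add_of_nonneg_right h2) hm1

/-- **`hL3` of `H606.FibC`** for the canonical births on a region. -/
theorem hL3_pd (ho : o = 1 ∨ o = -1) (σ : Equiv.Perm (Fin 4))
    (hd : PDec s (lc σ 0) Λt x κ μ M P S cf E v F) (hpos : ∀ b ∈ S, 0 < rB b) (hκ : 0 < κ)
    (hμ : 0 < μ) (hsg : 0 < sg) (hLg : 0 < Lg) (H : Cells 7 s ud0 Λt G1 C1) (hC1 : 0 ≤ C1)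
    (ha : 42 ≤ a) (hm1 : 0 ≤ m1) (hm : ∀ k y, ud k y → lmM s a (lc σ 0) S cf k y ≤ m1)
    {ex : ℕ → ℤ → ℤ → Prop} {C : Bi → Finset Pt} (k : ℕ) (w : ℤ)
    (hu : ∃ u ∈ ivm k w, ud k (dd σ 2 0 * x0 + dd σ 2 1 * x1 + dd σ 2 3 * u)) :
    ms (bO (bthO κ μ sg Lg cf E v) (gz σ (cu ud0 G1) x0) x1)
      (WB (bthO κ μ sg Lg cf E v) (gz σ (cu ud0 G1) x0) ex
        (QO (lc σ 0) (bthO κ μ sg Lg cf E v) S C) o x0 x1 k w) (ivm k w) ≤
      LTr κ μ sg Lg (256 * C1) m1 := by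
  refine (hL3_b ho σ hκ hμ hsg hLg (Λ := 256 * C1) (by positivity) hpos hd.vc
    (fun b hb => (hd.bok b hb).le) (fun j _ a => win_cu H hC1 j a) ha hm k w hu).trans ?_
  have h1 := nA_nonneg (Λ := 256 * C1) hμ hκ hsg hLg
  unfold LTr
  refine mul_le_mul_of_nonneg_left ?_ (by norm_num)
  exact mul_le_mul_of_nonneg_right (le_add_of_nonneg_left h1) hm1

end region

end

end Vale.Agent.P141.H829
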